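import Vale.Agent.P269.Edg.Zt
import Vale.Agent.P269.LG.Geo
import Vale.Agent.P269.Loc.FE

/-!
# Classes on the family of the edges
-/

set_option linter.unusedSectionVars false

namespace Vale.Agent.P269.Edg

open Set Function Topology Filter Module TensorProduct Vale.Agent.P291Z Ch Loc Holo LG B Tq Mono
open Vale.Agent.P269.Orb

variable {R J K σ ν : Type} [Fintype R] [Fintype J] [Fintype K] [Fintype σ] [Fintype ν]
  [DecidableEq R] [DecidableEq σ] {e : Edge σ} {P : PB R J K σ}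

namespace Cls

variable {C : Type} [CommRing C] [Algebra ℂ C] {w : σ → ℂ} {c : σ → C} {χ : σ → F ⊗[ℂ] C}

variable (C) in
/-- a weight and a class -/
noncomputable def wc : ℂ × C →ₗ[ℂ] F ⊗[ℂ] C :=
  ((TensorProduct.mk ℂ F C).flip 1 ∘ₗ LinearMap.toSpanSingleton ℂ F tt).coprod
    (TensorProduct.mk ℂ F C 1)

theorem wc_apply (z : ℂ) (y : C) : wc C (z, y) = (z • tt) ⊗ₜ 1 + 1 ⊗ₜ y := rfl

theorem bc_lin (z : ℂ) (v : σ → ℤ) (y : C) :
    bc _ (chiA w) ((z • lin v) ⊗ₜ 1 + 1 ⊗ₜ y) = wc C (z * ∑ i, v i * w i, y) := by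
  rw [map_add, bc_tmul, bc_tmul, map_smul, chiA_lin, map_one, smul_smul, wc_apply]

theorem pe_eq : pe F χ e = ((e.deg + 1 : ℕ) : ℂ)⁻¹ • (χ e.tgt - χ e.src) := by
  have : algebraMap ℚ F (1 / ((e.deg : ℚ) + 1)) =
      algebraMap ℂ F ((1 / ((e.deg : ℚ) + 1) : ℚ) : ℂ) :=
    DFunLike.congr_fun (RingHom.ext_rat (algebraMap ℚ F) ((algebraMap ℂ F).comp (algebraMap ℚ ℂ))) _
  rw [pe, this, algebraMap_smul]
  push_cast
  rw [one_div]

theorem sum_sub (l l' : σ) :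
    ∑ i, (Pi.single l 1 - Pi.single l' 1 : σ → ℤ) i * w i = w l - w l' := by
  simp [_root_.sub_mul, Pi.single_apply]

theorem nat_mul (a : ℕ) (x : F ⊗[ℂ] C) : (a : F ⊗[ℂ] C) * x = (a : ℂ) • x :=
  ((Algebra.smul_def (a : ℂ) x).trans (congrArg (· * x) (map_natCast (algebraMap ℂ _) a))).symm

theorem unit_wc {z : ℂ} (hz : z ≠ 0) {y : C} (hy : IsNilpotent y) : IsUnit (wc C (z, y)) := by
  have : tt ≠ 0 := fun h => by simpa [tt] using congrArg (fun x : F => x.co (-1)) h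
  exact IsNilpotent.isUnit_add_left_of_commute
    (hy.map (Algebra.TensorProduct.includeRight (R := ℂ) (A := F) (B := C)))
    (((Algebra.smul_def z tt).trans_ne (mul_ne_zero ((map_ne_zero _).2 hz) this)).isUnit.map
      (Algebra.TensorProduct.includeLeft (R := ℂ) (S := ℂ) (A := F) (B := C))) (Commute.all _ _)

variable (hχ : ∀ l, χ l = (w l • tt) ⊗ₜ 1 + 1 ⊗ₜ c l)
include hχ

theorem pe_wc : pe F χ e = wc C (((e.deg + 1 : ℕ) : ℂ)⁻¹ * (w e.tgt - w e.src),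
    ((e.deg + 1 : ℕ) : ℂ)⁻¹ • (c e.tgt - c e.src)) := by
  rw [pe_eq, hχ, hχ, ← wc_apply, ← wc_apply, ← map_sub, ← map_smul]
  rfl

theorem mono_wc (l : σ) (a : ℕ) : χ l - χ e.src - (a : F ⊗[ℂ] C) * pe F χ e =
    wc C (((e.deg + 1 : ℕ) : ℂ)⁻¹ * ∑ i, ((e.deg + 1) • (Pi.single l 1 - Pi.single e.src 1) -
      a • (Pi.single e.tgt 1 - Pi.single e.src 1) : σ → ℤ) i * w i,
      c l - c e.src - (a : ℂ) • ((e.deg + 1 : ℕ) : ℂ)⁻¹ • (c e.tgt - c e.src)) := by
  have : ((e.deg + 1 : ℕ) : ℂ) ≠ 0 := Nat.cast_ne_zero.2 (Nat.succ_ne_zero _)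
  rw [pe_wc hχ, hχ, hχ, ← wc_apply, ← wc_apply, nat_mul, ← map_smul, ← map_sub, ← map_sub]
  refine congrArg _ (Prod.ext ?_ rfl)
  simp [_root_.sub_mul, mul_sub, Pi.single_apply]
  field_simp

theorem ee_mul (hw : LinearIndependent ℚ w) (hn : ∀ l, IsNilpotent (c l)) : ((e.deg + 1 : ℕ) : ℂ) •
    (ee F χ e * ∏ x : ιK e, (χ x.1.1 - χ e.src - x.1.2 * pe F χ e)) = 1 := by
  have n : ((e.deg + 1 : ℕ) : ℂ) ≠ 0 := Nat.cast_ne_zero.2 (Nat.succ_ne_zero _)
  have u : ∀ l l', IsNilpotent (c l - c l') := fun l l' =>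
    (Commute.all _ _).isNilpotent_sub (hn l) (hn l')
  rw [Finset.prod_coe_sort _ fun x : σ × ℕ => χ x.1 - χ e.src - x.2 * pe F χ e, ← mul_smul_comm,
    ← nat_mul, Nat.cast_succ]
  refine Ring.inverse_mul_cancel _ (.mul ?_ (IsUnit.prod_iff.2 fun x hx => ?_))
  · rw [← Nat.cast_succ, ← map_natCast (algebraMap ℂ (F ⊗[ℂ] C))]
    exact n.isUnit.map _
  · rw [mono_wc hχ]
    refine unit_wc (mul_ne_zero (inv_ne_zero n) fun k => ?_)
      ((Commute.all _ _).isNilpotent_sub (u _ _) (((u _ _).smul _).smul _))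
    have v := Fintype.linearIndependent_iff.1 hw (fun i => (((e.deg + 1) • (Pi.single x.1 1 -
      Pi.single e.src 1) - x.2 • (Pi.single e.tgt 1 - Pi.single e.src 1) : σ → ℤ) i : ℚ))
      (by simpa only [Rat.smul_def, Rat.cast_intCast] using k)
    simp only [Int.cast_eq_zero, Finset.mem_erase, ne_eq, Prod.ext_iff] at v hx
    have a := v x.1
    have b := v e.tgt
    have d := e.ne
    by_cases h₁ : x.1 = e.src
    · simp [h₁, d.symm] at b
      exact hx.2.1 ⟨h₁, b⟩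
    by_cases h₂ : x.1 = e.tgt
    · simp [h₂, d.symm] at b
      exact hx.1 ⟨h₂, by omega⟩
    · simp [h₁, h₂] at a
      omega

end Cls

open Cls

variable [FP P.F.actT P.F.cone] (ho : Orb (ℂˣ × Tor (Option R)) (Zt P e))

/-- the base as an orbifold -/
@[reducible] noncomputable def spE : Ch.Sp := Ch.Sp.of ho isQuo_πE

variable (P) in
/-- the classes of the line bundles -/
noncomputable abbrev cL (l : σ) : Hev P.X := P.F.lce P.F.cone (0, P.wL l)

/-- the morphism to the standard presentation -/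
noncomputable def Cls.mor : Mor (spE ho) (Tq.sp P.F.actT P.F.cone) :=
  ⟨ρB R, Prod.fst, continuous_ρB, continuous_fst, fun _ _ => rfl⟩

theorem Cls.mor_map : ⇑(mor ho).map = id := ((mor ho).map_eq fun _ => rfl).symm

theorem Cls.c1_mor (l : σ) : c1 ((mor ho).chr (hm_chT 0 (P.wL l)).ρ) = cL P l :=
  (map_c1 _ _).symm.trans (Subtype.ext (H.map_id (congrFun (mor_map ho)) _))

theorem Cls.c1_zero {χ : ℂˣ × Tor (Option R) →ₜ* ℂˣ} {s : Zt P e → ℂˣ} (hs : Continuous s)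
    (h : ∀ (g : ℂˣ × Tor (Option R)) z, s (g • z) = χ g * s z) : c1 (Y := spE ho) χ = 0 :=
  VB.IsSec.eu_eq_zero (E := char (Y := spE ho) χ) (s := fun z => (s z : ℂ))
    ⟨fun _ => trivial, (Units.continuous_val (M := ℂ)).comp hs,
      fun g z => congrArg Units.val (h g z)⟩
    fun z => (s z).ne_zero

theorem Cls.chr_w (l : σ) (g : ℂˣ × Tor (Option R)) : chr (P.w (.inr l)) g.2 =
    g.2 none * ((mor ho).chr (hm_chT 0 (P.wL l)).ρ g)⁻¹ := by
  rw [eq_mul_inv_iff_mul_eq]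
  refine Units.ext ?_
  change _ * chT 0 (P.wL l) (ρB R g).val = _
  simp [ρB_val, chT, PB.w, coe_chr, Finset.prod_ne_zero_iff, zpow_ne_zero]

theorem c1_chH (l : σ) (a : ℕ) : c1 (Y := spE ho) (chH (P.w (.inr l)) a) = cL P l - cL P e.src -
    (a : ℂ) • c1 (Y := spE ho) (ContinuousMonoidHom.fst _ _) := by
  rw [← c1_mor ho, ← c1_mor ho, Nat.cast_smul_eq_nsmul, ← c1_pow, ← c1_div, ← c1_div, ← add_zero
    (c1 (_ / _)), ← c1_zero ho (χ := chH (P.w (.inr e.src)) 0) (s := fun z => z.2.1)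
      continuous_snd.fst fun _ _ => rfl, ← c1_mul]
  refine congrArg _ (ContinuousMonoidHom.ext fun g => ?_)
  have d : ∀ α β : ℂˣ × Tor (Option R) →ₜ* ℂˣ, (α / β) g = α g / β g := fun _ _ => rfl
  rw [ContinuousMonoidHom.mul_apply, d, d, ContinuousMonoidHom.pow_apply, chH_apply, chH_apply,
    chr_w ho, chr_w ho]
  change _ = _ / _ / g.1 ^ a * _
  simp [div_eq_mul_inv, mul_comm, mul_assoc, mul_left_comm]

theorem c1_fst : c1 (Y := spE ho) (ContinuousMonoidHom.fst _ _) =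
    ((e.deg + 1 : ℕ) : ℂ)⁻¹ • (cL P e.tgt - cL P e.src) := by
  rw [eq_inv_smul_iff₀ (Nat.cast_ne_zero.2 (Nat.succ_ne_zero _)), eq_comm, ← sub_eq_zero,
    ← c1_chH ho]
  exact c1_zero ho (s := fun z => z.2.2) continuous_snd.snd fun _ _ => rfl

omit ho in
/-- the stabilisers have order `deg + 1` -/
theorem fnd_eq (h : P.F.Tg) {A : Type} [NormedAddCommGroup A] [NormedSpace ℂ A]
    [FiniteDimensional ℂ A] {a : A} {L : Co (nE J e) →L[ℂ] A} (hL : Injective L)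
    (hF : HolOrb (ℂˣ × Tor (Option R)) (fun z : Zt P e => a + L (coE z))
      (Fintype.card J - Fintype.card K - Fintype.card R)) :
    fnd P.F.actT P.F.cone = ((e.deg + 1 : ℕ) : ℂ) • fundQ (ℂˣ × Tor (Option R))
      (fun z : Zt P e => a + L (coE z)) πE (Fintype.card J - Fintype.card K - Fintype.card R) := by
  obtain ⟨M, hM⟩ := L.toLinearMap.exists_leftInverse_of_injective (LinearMap.ker_eq_bot.2 hL)
  let T : A →L[ℂ] (Empty → ℂ) × (J → ℂ) := LinearMap.toContinuousLinearMap ((LinearMap.prod 0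
    (.pi fun j => .proj (0 : Fin 1) ∘ₗ .proj (.inl j : J ⊕ σ))) ∘ₗ M)
  have := (h.dim.ho (Wt.lin_actT _)).res_fund_of_mor (F := spE hF.orb) hF (mor hF.orb)
    (mor_map hF.orb ▸ IsOpenEmbedding.id) (fun t => ⟨fun v => T (v - a),
      (T.analyticAt _).comp (analyticAt_id.sub analyticAt_const), .of_forall fun z => ?_⟩)
    (fun t g hg => ⟨1, one_smul _ _, (map_one _).trans (FP.free _ g hg).symm⟩) (l := e.deg + 1)
    fun t => ?_
  · rw [show ⇑(mor hF.orb).map = id from mor_map _, res_id'] at this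
    exact (Dim.ho_fund _ _).symm.trans this
  · beta_reduce
    rw [add_sub_cancel_left]
    exact Prod.ext (funext isEmptyElim) (funext fun j =>
      (congrFun (congrFun (LinearMap.congr_fun hM (coE z)) (.inl j)) (0 : Fin 1)).symm)
  · have k : ∀ g : ℂˣ × Tor (Option R), (g • t = t ∧ ρB R g = 1) ↔
        g.2 = 1 ∧ g.1 ∈ rootsOfUnity (e.deg + 1) ℂ := fun g => by
      refine ⟨fun ⟨a, b⟩ => ?_, fun ⟨a, b⟩ => ?_⟩
      · have a₁ := mul_eq_right.1 (congrArg (fun z : Zt P e => z.2.1) a)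
        have a₂ := mul_eq_right.1 (congrArg (fun z : Zt P e => z.2.2) a)
        have c : ∀ χ, (mor hF.orb).chr χ g = 1 := fun χ => (congrArg χ b).trans (map_one χ)
        rw [chH_apply, chr_w hF.orb, c, inv_eq_one] at a₁ a₂
        rw [inv_one, pow_zero, mul_one, mul_one] at a₁
        rw [a₁, inv_one, mul_one, one_mul] at a₂
        refine ⟨funext fun o => o.rec a₁ fun r => inv_eq_one.1 (Units.ext ?_), a₂⟩
        exact congrArg (fun u : ((Empty → ℂ) × (R → ℂ))ˣ => u.val.2 r) b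
      · have c : ρB R g = 1 := Units.ext (by rw [ρB_val, a]; simp [Pi.one_def, Prod.one_eq_mk])
        refine ⟨(smul_def g t).trans ?_, c⟩
        rw [chH_apply, chH_apply, a, c, (mem_rootsOfUnity _ _).1 b]
        simp
        rfl
    refine (Nat.card_congr (β := rootsOfUnity (e.deg + 1) ℂ) ⟨fun g => ⟨g.1.1, ((k _).1 g.2).2⟩,
      fun x => ⟨(x, 1), (k _).2 ⟨rfl, x.2⟩⟩,
      fun g => Subtype.ext (Prod.ext rfl ((k _).1 g.2).1.symm), fun _ => rfl⟩).trans ?_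
    exact Complex.card_rootsOfUnity _

variable {w : σ → ℂ} {χ : σ → F ⊗[ℂ] Hev P.X} (hχ : ∀ l, χ l = (w l • tt) ⊗ₜ 1 + 1 ⊗ₜ cL P l)
include hχ

/-- the tangent weights at the two ends -/
theorem bc_end (b : Bool) : bc _ (chiA w) ((((e.deg + 1 : ℕ) : ℂ)⁻¹ • lin (bif b then
      Pi.single e.src 1 - Pi.single e.tgt 1 else -(Pi.single e.src 1 - Pi.single e.tgt 1))) ⊗ₜ 1 +
      1 ⊗ₜ c1 (Y := spE ho) (Sl.χS b)) = bif b then -pe F χ e else pe F χ e := by
  rw [bc_lin, pe_wc hχ, ← c1_fst ho]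
  cases b
  · rw [cond_false, neg_sub, sum_sub]
    rfl
  · rw [cond_true, cond_true, sum_sub, ← map_neg, Prod.neg_mk, ← mul_neg, neg_sub, ← c1_inv]
    rfl

/-- the weights of the monomials -/
theorem bc_mono (l : σ) (a : ℕ) : bc _ (chiA w) ((((e.deg + 1 : ℕ) : ℂ)⁻¹ • lin ((e.deg + 1) •
      (Pi.single l 1 - Pi.single e.src 1) - a • (Pi.single e.tgt 1 - Pi.single e.src 1))) ⊗ₜ 1 +
      1 ⊗ₜ c1 (Y := spE ho) (chH (P.w (.inr l)) a)) =
    χ l - χ e.src - (a : F ⊗[ℂ] Hev P.X) * pe F χ e := by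
  rw [bc_lin, c1_chH, c1_fst]
  exact (mono_wc hχ l a).symm

omit ho in
theorem ee_mul (hw : LinearIndependent ℚ w) (hn : ∀ l, IsNilpotent (cL P l)) :
    ((e.deg + 1 : ℕ) : ℂ) • (ee F χ e * ∏ x : ιK e, (χ x.1.1 - χ e.src - x.1.2 * pe F χ e)) = 1 :=
  Cls.ee_mul hχ hw hn

end Vale.Agent.P269.Edg
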