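import Vale.Agent.P269.Edg.Ed
import Vale.Agent.P269.Edg.Cls

/-!
# The contribution of the family of the edges
-/

set_option linter.unusedSectionVars false

namespace Vale.Agent.P269.Edg

open Set Function Topology Filter Module TensorProduct Vale.Agent.P291Z Ch Loc Holo LG B Tq Mono
open Vale.Agent.P269.Orb

variable {R J K σ ν : Type} [Fintype R] [Fintype J] [Fintype K] [Fintype σ] [Fintype ν]
  [DecidableEq R] [DecidableEq σ] {e : Edge σ} {s t : En ν} {Y : HO} {P : PB R J K σ}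
  {h : TH σ Y} {k : KP Y.toSp} {ch : Ch (Option (Option R)) (J ⊕ σ)} (E : Ed P e s t h k ch)

theorem fac_eq {C : Type} [One C] (s : En ν) [Decidable (s = .bare)] (y : C) :
    s.fac y = if s = .bare then y else 1 := by
  cases s <;> simp [En.fac]

theorem Ed.prod_ιS {C : Type} [CommMonoid C] (f : Bool → C) :
    ∏ b : E.sl.ιS, f b = s.fac (f false) * t.fac (f true) := by
  classical
  rw [← Finset.prod_subtype (Finset.univ.filter fun b => ∀ n, qE s n ≠ pt b) (by simp) f,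
    Finset.prod_filter, Fintype.prod_bool, mul_comm, fac_eq, fac_eq]
  simp only [qE_ne_false E.ends, qE_ne_true E.ends]

theorem intT_smul {A : Type} [TopologicalSpace A] [CompactSpace A] (c : ℂ) (β : BM A)
    (x : F ⊗[ℂ] H A) : intT F (intg (c • β)) x = intT F (intg β) (c • x) := by
  induction x with
  | zero => simp only [map_zero, smul_zero]
  | add a b ha hb => simp only [map_add, smul_add, ha, hb]
  | tmul a y =>
    rw [← tmul_smul, intT_tmul, intT_tmul, map_smul]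
    rfl

theorem smul_alg {C : Type} [CommRing C] [Algebra ℂ C] {c : ℂ} {a p : C} (h : c • (a * p) = 1)
    (f g : C) : c • (a * f * g * p) = f * g := by
  rw [mul_assoc a, mul_right_comm, ← smul_mul_assoc, h, one_mul]

variable [FP P.F.actT P.F.cone] [Nice P.X] [CompactSpace P.X] {X : ℕ → Type}
  [∀ M, TopologicalSpace (X M)] [∀ M, Nice (X M)] {j : ∀ M, C(X M, (h.toTS.B M).X)}
  {g : C(P.X, Y.X)} {i : ∀ M, C(P.X × Bs σ M, X M)} {w : σ → ℂ} {χ : σ → F ⊗[ℂ] Hev P.X}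

/-- **the contribution of the edges** -/
theorem Ed.main (κ : TKP h.toTS k) (z₀ : Zt P e) (hP : Pc h.toTS k.Zs j g i)
    (hg : ∀ z, g (πE z) = Y.π (E.jz z).1) (hχ : ∀ l, χ l = (w l • tt) ⊗ₜ 1 + 1 ⊗ₜ cL P l)
    (hw : LinearIndependent ℚ w) (hn : ∀ l, IsNilpotent (cL P l)) {I : F ⊗[ℂ] H P.X →ₗ[F] F}
    (hI : IsLoc (chiA w) (fun M => (κ.bo (pm σ M)).vir (j M) (h.fundB M)) i I)
    (x : F ⊗[ℂ] H P.X) : I x = intT F (intg (Tq.fnd P.F.actT P.F.cone))
      (inF _ (ee F χ e * s.fac (pe F χ e) * t.fac (-pe F χ e)) * x) := by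
  obtain ⟨Φ, V, hS, h1, h2, h3⟩ := E.exists_sec
  have : Nonempty E.zd.Z := ⟨z₀⟩
  obtain ⟨hol, hm⟩ := E.zd.main κ hS (E.sl.frS E.zd) (E.sl.frK E.zd fE_inj E.range_fE h1 h2)
    (E.dim_eq z₀) h3 hP hg (chiA_lin_ne hw) hI
  rw [show E.zd.ι = _ from funext E.ι_jz] at hol hm
  have hK : bc _ (chiA w) (E.sl.frK E.zd fE_inj E.range_fE h1 h2).e =
      ∏ x : ιK e, (χ x.1.1 - χ e.src - x.1.2 * pe F χ e) :=
    (map_prod _ _ _).trans (Finset.prod_congr rfl fun x _ => by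
      rw [← bc_mono E.zd.D.orb hχ, ← E.wgt_inr]; rfl)
  have hF : bc _ (chiA w) (E.sl.frS E.zd).e = s.fac (pe F χ e) * t.fac (-pe F χ e) :=
    ((map_prod _ _ _).trans (Finset.prod_congr rfl fun (b : E.sl.ιS) _ =>
      bc_end E.zd.D.orb hχ b)).trans (E.prod_ιS fun b => bif b then -pe F χ e else pe F χ e)
  rw [fnd_eq E.tg E.sl.vec_injective hol, intT_smul, ← smul_mul_assoc]
  refine hm _ ?_ x
  rw [← inF_bc, ← inF_bc, hK, hF, smul_mul_assoc, ← map_mul, ← AlgHom.map_smul_of_tower]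
  exact congrArg _ (smul_alg (C := F ⊗[ℂ] Hev P.X) (ee_mul hχ hw hn) _ _)

end Vale.Agent.P269.Edg
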