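import Vale.Agent.P269.LG.BorL
import Vale.Agent.P269.Map.SQ

/-!
# Equivariant line bundles on a presentation of fixed points
-/

set_option linter.unusedSectionVars false

namespace Vale.Agent.P269.Edg

open Set Function Topology Filter Module TensorProduct Vale.Agent.P291Z Vale.Agent.P269.Ch
  Vale.Agent.P269.Orb Vale.Agent.P269.Loc Vale.Agent.P269.LG

variable {σ : Type} [Fintype σ] {A B W P Q : Type} [NormedRing A] [NormedAlgebra ℂ A] [NormedRing B]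
  [NormedAlgebra ℂ B] [NormedAddCommGroup W] [NormedSpace ℂ W] [AddCommGroup P] [Module ℂ P]
  [TopologicalSpace P] [IsTopologicalAddGroup P] [ContinuousSMul ℂ P] [T2Space P]
  [AddCommGroup Q] [Module ℂ Q] [TopologicalSpace Q] [IsTopologicalAddGroup Q] [ContinuousSMul ℂ Q]
  [T2Space Q] {r : ℕ}

/-- a line bundle with an eigenvector -/
theorem map_eu_line {act : A → W → W} {S : Set W} [Holo.IsAct act S] (ho : Orb Aˣ (Holo.Sp act S))
    {E : SD A W Q} (h : E.Ok act S (r + 1) r) {Y : Ch.Sp} (m : Mor Y (spA ho))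
    {χ : Y.G →ₜ* ℂˣ} {v : Y.T → Q} (hv : Continuous v)
    (hB : ∀ t, v t ∈ E.B ((presA ho).i (m.f t))) (hN : ∀ t, v t ∉ E.N ((presA ho).i (m.f t)))
    (he : ∀ g t, E.ρ ((presA ho).u (m.ρ g)) (v t) - (χ g : ℂ) • v (g • t) ∈
      E.N ((presA ho).i (m.f (g • t)))) :
    H.map m.map (hcls (E.eu act S)) = (c1 χ).1 := by
  obtain ⟨E₀, E₁, ι, M, -, hr, hm, -, hι⟩ := h.exists_isMod ho
  choose u hu e using fun t => (hm.map (m.f t)).ge (hB t)
  have e' : ∀ t, ι (u t) = v t := e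
  have hF : Fr (E₁.pb m) (fun _ : Unit => χ) fun _ t => M (m.f t) (u t) := by
    refine Fr.of_li (fun _ => hm.hom.continuous m.cf (hm.emb.continuous_iff.2
      (hv.congr fun t => (e' t).symm)) hu) (fun _ g t => ?_) (fun t =>
        linearIndependent_unique_iff.2 fun h0 => hN t (e' t ▸ (hm.ker _ _ (hu t)).1 h0))
      (fun _ t => hm.hom.mem _ _ (hu t)) (hr.trans (Nat.add_sub_cancel_left r 1)).symm
    have h1 := E₀.inv (m.ρ g) _ _ (hu t)
    have h2 : M (m.ρ g • m.f t) _ = m.ρ g • _ := hm.hom.eqv (m.ρ g) _ _ (hu t)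
    rw [← m.eqv] at h1 h2
    refine h2.symm.trans (Eq.trans ?_ (map_smul (M (m.f (g • t))) (χ g : ℂ) (u (g • t))))
    rw [hm.map_eq_iff h1 (Submodule.smul_mem _ _ (hu _)), hι, map_smul, e', e']
    exact he g t
  refine (congrArg (H.map m.map) (SD.hcls_presA ho hm)).trans ?_
  rw [← Hev.coe_map, ← E₁.eu_pb, hF.eu, Fintype.prod_unique]

variable [FiniteDimensional ℂ A] [FiniteDimensional ℂ B] [FiniteDimensional ℂ W]
  {act₀ : A → W → W} {act : B → W → W} {D : KD B W P} {Z : Set W} {c : TC σ act₀ act D Z}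
  {V : ℕ → Type} [∀ M, NormedAddCommGroup (V M)] [∀ M, NormedSpace ℂ (V M)]
  [∀ M, FiniteDimensional ℂ (V M)] {ac : ∀ M, B → V M → V M} {ZM : ∀ M, Set (V M)}

/-- the restriction of the Euler class of an equivariant line bundle to a family of fixed points -/
theorem map_eu_lv (L : ∀ M, c.Lv M (ac M) (ZM M)) (d : FD c.h.toTS) [CompactSpace d.F.X]
    {g : C(d.F.X, c.Y.X)} {i : ∀ M, C(d.F.X × Bs σ M, Quo (ac M) (ZM M))}
    (hP : Pc c.h.toTS c.k.Zs (fun M => (L M).j) g i) (hg : ∀ z, g z = d.i.map z)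
    {ρ : Tor σ →* Aˣ} (hc : Continuous ρ)
    (h1 : ∀ s t, c.b (s ^ d.m) (c.Y.ι (d.i.f t)) = act₀ (ρ s) (c.Y.ι (d.i.f t)))
    (h2 : ∀ s g, Commute (ρ s) (show Aˣ from d.i.ρ g)) {M : ℕ} {E : SD B (V M) Q}
    (hE : E.Ok (ac M) (ZM M) (r + 1) r) {χ : d.F.G →ₜ* ℂˣ} {w : σ → ℤ} {v : d.F.T → Q}
    (hv : Continuous v)
    (hB : ∀ t (p : PM σ M), v t ∈ E.B ((L M).μ (c.Y.ι (d.i.f t), p.val)))
    (hN : ∀ t (p : PM σ M), v t ∉ E.N ((L M).μ (c.Y.ι (d.i.f t), p.val)))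
    (he : ∀ g s t (p : PM σ M), E.ρ (c.U ((show Aˣ from d.i.ρ g) * (ρ s)⁻¹, s ^ d.m)) (v t) -
      ((χ g * chr w s : ℂˣ) : ℂ) • v (g • t) ∈ E.N ((L M).μ (c.Y.ι (d.i.f (g • t)), p.val))) :
    H.map (i M) (hcls (E.eu (ac M) (ZM M))) =
      evA _ M (inH _ (((d.m : ℂ)⁻¹ • lin w) ⊗ₜ 1 + 1 ⊗ₜ c1 χ)) := by
  have := fun M => (L M).nice
  have := (L M).gd.isActZ
  have ho : Orb Bˣ (Holo.Sp (ac M) (ZM M)) := (L M).gd.orbZ
  have hx : ∀ t, c.Y.ι (d.i.f t) ∈ c.FZ := fun t => by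
    obtain ⟨t', h3, h4⟩ := hP.sub ⟨d.F.π t, rfl⟩
    obtain ⟨a, h5⟩ := (c.Y.fib _ _).1 (h4.trans ((hg _).trans (d.i.map_π t)))
    exact h5 ▸ c.ivt_FZ _ (Units.isUnit a) _ (c.mem_fix.1 h3)
  let τ : d.F.G →* Aˣ := d.i.ρ
  have hτ : Continuous τ := d.i.cρ
  let θ : d.F.G × Tor σ →* Aˣ × Tor σ := MonoidHom.mk' (fun k => (τ k.1 * (ρ k.2)⁻¹, k.2 ^ d.m))
    fun k k' => Prod.ext (by
      change τ (k.1 * k'.1) * (ρ (k.2 * k'.2))⁻¹ = τ k.1 * (ρ k.2)⁻¹ * (τ k'.1 * (ρ k'.2)⁻¹)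
      rw [mul_assoc, ← mul_assoc _ (τ k'.1), (show Commute (ρ k.2) (τ k'.1) from h2 _ _).inv_left,
        mul_comm k.2, map_mul, map_mul, mul_inv_rev, mul_assoc, mul_assoc]) (mul_pow _ _ _)
  have h0 : ∀ g s t, c.Y.ι (d.i.f (g • t)) =
      act₀ (τ g * (ρ s)⁻¹ : Aˣ) (c.b (s ^ d.m) (c.Y.ι (d.i.f t))) := fun g s t => by
    rw [h1, ← c.isAct₀.mul _ _ (Units.isUnit _) (Units.isUnit _) _ trivial, ← Units.val_mul,
      inv_mul_cancel_right, d.i.eqv]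
    rfl
  let m : Mor (d.B M) (spA ho) := ⟨c.U.toMonoidHom.comp θ, fun x : d.F.T × PM σ M =>
    Holo.Sp.of (ac M) _ ((L M).mem_pm (hx x.1).1 x.2), c.continuous_U.comp
      (((hτ.comp continuous_fst).mul (hc.comp continuous_snd).inv).prodMk (continuous_snd.pow _)),
    ((L M).μ.continuous.comp ((c.Y.cι.comp (d.i.cf.comp continuous_fst)).prodMk
      (PM.continuous_val.comp continuous_snd))).subtype_mk _,
    fun (k : d.F.G × Tor σ) (x : d.F.T × PM σ M) => Holo.Sp.ext (Eq.trans (congrArg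
      (fun y => (L M).μ (y, (k.2 ^ d.m • x.2).val)) (h0 k.1 k.2 x.1))
      ((L M).eqvU (θ k) (c.Y.ι (d.i.f x.1)) x.2.val).symm)⟩
  obtain ⟨ξ, -, x2, -, x4⟩ := hP.exists_xi d hg M
  have key : ∀ y, (L M).j (m.map y) = (d.mor M).map y := fun y => by
    obtain ⟨⟨t, p⟩, rfl⟩ := (d.B M).surj y
    exact (congrArg (L M).j ((m.map_π (t, p)).trans ((L M).i_cl _ (hx t) p).symm)).trans
      (((L M).j_i p (c.g_cl _ (hx t))).trans (d.mor_π M t p).symm)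
  have e : i M = m.map.comp ξ := ContinuousMap.ext fun z =>
    (hP.emb M).injective ((x2 z).symm.trans (key _).symm)
  have h3 := map_eu_line ho hE m (χ := (d.pr M).chr χ * (TS.triv σ d.F).ch (d.P M) w)
    (v := fun x : d.F.T × PM σ M => v x.1) (hv.comp continuous_fst) (fun x => hB x.1 x.2)
    (fun x => hN x.1 x.2) fun (k : d.F.G × Tor σ) (x : d.F.T × PM σ M) =>
      he k.1 k.2 x.1 (k.2 ^ d.m • x.2)
  refine (congrArg (H.map · _) e).trans ((H.map_map ξ m.map _).symm.trans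
    ((congrArg (H.map ξ) (h3.trans ?_)).trans (x4 _)))
  rw [c1_mul, ← map_c1, ← d.ev_lin, map_add, map_add, add_comm]
  refine congrArg₂ (· + ·) ?_ ?_
  · exact ((d.evT_tmul M _ 1).trans (by rw [map_one, mul_one]; rfl)).symm
  · exact ((d.evT_tmul M 1 _).trans (by rw [map_one, one_mul]; rfl)).symm

end Vale.Agent.P269.Edg
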