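import Vale.Agent.P269.Edg.Fr
import Vale.Agent.P269.Edg.PsiA
import Vale.Agent.P269.LG.Lev
import Vale.Agent.P269.LG.Top

/-!
# The cotangent line classes at the ends of an edge
-/

set_option linter.unusedSectionVars false

namespace Vale.Agent.P269.Edg

open Set Function Topology Filter Module TensorProduct Vale.Agent.P291Z Cv Base Ch P1 Loc Holo Orb
  LG
open OnePoint hiding some map_smul

section p1

variable {ι J ν : Type} [Fintype ι] [DecidableEq ι] [Fintype J] [Fintype ν] {ch : Ch ι J}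

variable (ch) in
/-- the tangent direction of the rational normal curve -/
noncomputable def tv (y : OnePoint ℂ) : V ch.M := fun i => nv (ch.M i) y

theorem tv_mem (b : Bool) : tv ch (pt b) ∈ Psi.Tg (cone (P1.par ch)) (P1.par ch (pt b)) := by
  cases b
  · exact Submodule.subset_span ⟨fun t => P1.par ch t, an_par 0, .of_forall fun t =>
      ⟨t, 1, fun _ => one_ne_zero, (one_smul _ _).symm⟩, rfl, (hasDerivAt_par 0).deriv.symm⟩
  let γ : ℂ → V ch.M := fun t i j => (-t) ^ (ch.M i - 1 - j)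
  have e : γ 0 = P1.par ch ∞ := funext₂ fun i j => by
    have := j.2
    simp only [γ, P1.par, ver_infty, neg_zero, zero_pow_eq]
    exact if_congr (by omega) rfl rfl
  have d : HasDerivAt γ (tv ch ∞) 0 := hasDerivAt_pi.2 fun i => hasDerivAt_pi.2 fun j =>
    ((hasDerivAt_neg (0 : ℂ)).fun_pow _).congr_deriv (by
      by_cases a : (j : ℕ) + 1 = ch.M i - 1
      · simp [tv, nv, ← a]
      · rcases e : ch.M i - 1 - j with _ | _ | n
        · simp [tv, nv, a]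
        · omega
        · simp [tv, nv, a])
  refine Submodule.subset_span ⟨γ, analyticAt_pi_iff.2 fun i => analyticAt_pi_iff.2 fun j =>
    analyticAt_id.neg.pow _, .of_forall fun t => ?_, e, d.deriv.symm⟩
  by_cases a : t = 0
  · exact ⟨∞, 1, fun _ => one_ne_zero, (a ▸ e).trans (one_smul _ _).symm⟩
  refine ⟨((-t)⁻¹ : ℂ), fun i => (-t) ^ (ch.M i - 1), fun _ => pow_ne_zero _ (neg_ne_zero.2 a),
    funext₂ fun i j => ?_⟩
  exact (pow_sub₀ _ (neg_ne_zero.2 a) (Nat.le_sub_one_of_lt j.2)).trans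
    (congrArg _ (inv_pow _ _).symm)

theorem tv_notMem (r : Gz ch ν) (y : OnePoint ℂ) : tv ch y ∉ Psi.Nr (P1.par ch y) := fun h =>
  let ⟨c, e⟩ := Psi.mem_Nr.1 h
  one_ne_zero (nv_indep r.two_le (s := -c ch.o) (y := y) (by
    rw [one_smul, neg_smul, neg_add_eq_zero]
    exact (congrFun e ch.o).symm))

theorem dgA_tv {q : ν → OnePoint ℂ} {n : ν} {b : Bool} (hb : q n = pt b) {a : ℂˣ} {t : ι → ℂˣ} :
    ((dgA ch q a fun i => t i).2.2 n • fun i => (dgA ch q a fun i => t i).1 i (tv ch (pt b) i)) =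
      ((bif b then a⁻¹ else a : ℂˣ) : ℂ) • tv ch (pt b) := funext fun i => by
  cases b
  · refine (congrArg ((dgA ch q a fun i => t i).2.2 n i • ·) (diag_dver _ (t i) a 0)).trans ?_
    simp [dgA, hb, pt, tv, nv, smul_smul]
  · funext j
    by_cases e : (j : ℕ) + 1 = ch.M i - 1
    · simp [dgA, hb, pt, tv, nv, ← e, pow_succ]
      field_simp
    · simp [dgA, hb, pt, tv, nv, e]

end p1

variable {R T J K σ ν κ A' : Type} [Fintype R] [Fintype T] [DecidableEq T] [Fintype J] [Fintype K]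
  [Fintype σ] [Fintype ν] [Fintype κ] [TopologicalSpace A']

theorem Sl.b_fx {Y : HO} {h : TH σ Y} {ch : Ch (Option T) J} (S : Sl h ch ν) {t : Y.T}
    {c : Co S.n} (e : Y.ι t = S.a + S.vec c) (ht : t ∈ h.toTS.Fx S.dat) (s : Tor σ) :
    h.b (s ^ S.m) (Y.ι t) = S.r (S.ρ s) • Y.ι t := by
  rw [e, map_add, smul_add, S.b_a, S.r_a, S.b_vec, S.smul_vec]
  refine congrArg (fun c => S.a + S.vec c) (funext₂ fun j d => ?_)
  by_cases a : S.wgt j d = 0
  · rw [← S.chr_wgt j d, a, Loc.chr_zero, one_mul]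
  · rw [(S.mem_fx e).1 ht j d a, mul_zero, mul_zero]

variable [DecidableEq σ] {P : PB R J K σ}

theorem Sl.map_psi {ch : Ch (Option T) (J ⊕ σ)} {e : K → Option T → ℕ} {K₀ : Set K}
    {ℓ : Option R → Option T → ℤ} {Z : Set σ} {O : Set (ch.WF ν κ Empty)} {n : ℕ}
    (h : P.Am e K₀ ℓ Z O n) (S : Sl h.tc.h ch (Mk ν κ)) (hμ : ∀ y, S.μ y = y.2)
    (z : Zd S.red h.tc.k A') [CompactSpace A']
    (hc : ∀ t, ∃ c, h.tc.Y.ι (z.j t).1 = S.a + S.vec c) {g : C(A', h.tc.Y.X)}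
    {i : ∀ M, C(A' × Bs σ M, Quo (actF (P.EM Z M).toWt) (P.ZM ν κ ch Z M))}
    (hP : Pc h.tc.h.toTS h.tc.k.Zs (fun M => (h.lv M).j) g i)
    (hg : ∀ t, g (z.π t) = h.tc.Y.π (z.j t).1) {a : Mk ν κ} {b : Bool} (hb : S.q a = pt b)
    (M : ℕ) : H.map (i M) (hcls (psiF a)) =
      -evA _ M (inH _ (((S.m : ℂ)⁻¹ • Loc.lin (S.wS b)) ⊗ₜ 1 + 1 ⊗ₜ c1 (Y := z.D) (Sl.χS b))) := by
  have st : ∀ t, Std (h.tc.Y.ι (z.j t).1).2 S.q := fun t => hμ _ ▸ S.sub_mem.1 (z.j t).2.1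
  have sp : ∀ t, (h.tc.Y.ι (z.j t).1).2.p a = P1.par ch (pt b) := fun t => hb ▸ (st t).p a
  have k : ∀ (g : ℂˣ × Tor T) s, (ch.sdψ σ (σ × Fin (M + 1)) a).ρ (h.tc.U (S.r g, s))
      (tv ch (pt b)) = (Sl.χS b g : ℂ) • tv ch (pt b) := fun g s => by
    have := congrArg (·.p a) (S.μ_r g (0, W.mk' 0 (fun _ => tv ch (pt b)) 0 0))
    rw [hμ, hμ] at this
    refine this.trans ((dgA_tv hb).trans ?_)
    cases b <;> rfl
  refine (congrArg _ ((h.gzM M).cl_psi a)).trans ((map_neg _ _).trans (congrArg Neg.neg ?_))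
  refine map_eu_lv h.lv z.fd hP (fun x => ?_) (ρ := S.r.comp S.ρ)
    (S.continuous_r.comp S.continuous_ρ) (fun s t => S.b_fx (hc t).choose_spec (z.j t).2.2 s)
    (fun _ _ => (Commute.all _ _).map S.r) ((h.gzM M).psi a) (v := fun _ => tv ch (pt b))
    continuous_const (fun t p => ?_) (fun t p => ?_) fun g s t p => ?_
  · obtain ⟨t, rfl⟩ := z.D.surj x
    exact (hg t).trans (z.fd.i.map_π t).symm
  · change _ ∈ Psi.Tg (crv (h.tc.Y.ι (z.j t).1).2) ((h.tc.Y.ι (z.j t).1).2.p a)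
    rw [(st t).crv_eq S.gz, sp]
    exact tv_mem b
  · change _ ∉ Psi.Nr ((h.tc.Y.ι (z.j t).1).2.p a)
    rw [sp]
    exact tv_notMem S.gz _
  · refine mem_of_eq_of_mem (sub_eq_zero.2 ?_) (zero_mem _)
    refine Eq.trans ?_ ((k (g * (S.ρ s)⁻¹) (s ^ S.m)).trans ?_)
    · rw [map_mul S.r, map_inv S.r]
      rfl
    · rw [map_mul, map_inv]
      cases b
      · exact congrArg (fun c : ℂˣ => ((_ * c : ℂˣ) : ℂ) • _) (chr_neg _ _).symm
      · exact congrArg (fun c : ℂˣ => ((_ * c : ℂˣ) : ℂ) • _) (inv_inv _)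

variable [DecidableEq R] {K₀ : Set K} {k D : ℕ} {g : ℤ} {d : Option R → ℤ} {w : σ → ℂ}
  {τ : Md P P.X ν g d} (G : Geo k D w τ)

theorem _root_.Vale.Agent.P269.LG.Geo.psi_neg [Nice A'] {u : C(A', τ.A)} {a : ν}
    {y : Loc.R σ ⊗[ℂ] Hev A'} (h : ∀ M, H.map ((G.i M).comp (pr u M)) (hcls (psiF (.inl a))) =
      -evA _ M (inH _ y)) : pbE u (τ.ψ a) = -bc _ (chiA w) y := by
  obtain ⟨x, e, hx⟩ := G.psi a
  refine inF_injective ?_
  rw [← pb_inF, ← e, inF_bc, ← bc_pb, map_neg, inF_bc, ← map_neg]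
  refine congrArg _ (evA_ext fun M => ?_)
  rw [← map_evA, ← hx, H.map_map, map_neg]
  exact h M

/-- **the cotangent line class at an end** -/
theorem _root_.Vale.Agent.P269.LG.Geo.psi_sl (hP : P.Ok K₀ k D)
    {O : Set ((P.ch ν k D g d).WF ν (Fin 0) Empty)} {n : ℕ} (h : P.As K₀ ∅ O n)
    (S : Sl h.tc.h (P.ch ν k D g d) (Mk ν (Fin 0))) (hμ : ∀ y, S.μ y = y.2)
    (z : Zd S.red h.tc.k A') [Nice A'] [CompactSpace A']
    (hc : ∀ t, ∃ c, h.tc.Y.ι (z.j t).1 = S.a + S.vec c) {u : C(A', τ.A)} (hu : IsOpenEmbedding u)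
    (hg : ∀ t, G.gY hP h (u (z.π t)) = h.tc.Y.π (z.j t).1) {a : ν} {b : Bool}
    (hb : S.q (.inl a) = pt b) : pbE u (τ.ψ a) =
      -bc _ (chiA w) (((S.m : ℂ)⁻¹ • Loc.lin (S.wS b)) ⊗ₜ 1 + 1 ⊗ₜ c1 (Y := z.D) (Sl.χS b)) :=
  haveI := fun M => (h.lv M).nice
  G.psi_neg (S.map_psi h hμ z hc ((G.pc hP h).part hu) hg hb)

end Vale.Agent.P269.Edg
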