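import Vale.Agent.P269.Edg.Ed
import Vale.Agent.P269.LG.FixB
import Vale.Agent.P269.LG.Bas

/-!
# The points of the family of the edges as abstract maps
-/

set_option linter.unusedSectionVars false

namespace Vale.Agent.P269.Edg

open Set Function Topology Filter Module Cv Base Ch P1 Loc Holo LG B Tq Mono
open OnePoint hiding some map_smul

variable {R J K σ ν : Type} [Fintype R] [Fintype J] [Fintype K] [Fintype σ] [Fintype ν]
  [DecidableEq R] [DecidableEq σ] {e : Edge σ} {s t : En ν} {Y : HO} {P : PB R J K σ}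
  {h : TH σ Y} {k : KP Y.toSp} {ch : Ch (Option (Option R)) (J ⊕ σ)} (E : Ed P e s t h k ch)

namespace PtsA

theorem cone (hP : P.F.Tg) {m : AM0 R J σ ν} (hm : m.Sol (P.E ∅)) (a : m.X) :
    (bas m).vl a ∈ P.F.cone :=
  ((sol_iff hP.B ⟨fun _ hj => (hj (hP.mov ▸ trivial)).elim, hP.E⟩).1 hm).1.2.2 a

theorem sum_hat {T : Type} [Fintype T] (w : T → ℤ) : ∑ o, Tgt.hat w o = 0 := by
  simp [Tgt.hat]

theorem sum_ℓs {T : Type} [Fintype T] [DecidableEq T] (r : T) (a : Option T → ℤ) :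
    ∑ o, ℓs r o * a o = a (some r) - a none := by
  simp [ℓs, Tgt.hat, Pi.single_apply, sub_eq_neg_add]

theorem end_of {m : AM0 R J σ ν} (hN : m.N = ∅) {s : En ν} {a : m.X} (h1 : s ≠ .node)
    (h2 : s = .bare → ∀ n, m.p n ≠ a) (h3 : ∀ n, s = .mark n → m.p (.inl n) = a) : End m s a :=
  match s, h1, h2, h3 with
  | .node, c, _, _ => (c rfl).elim
  | .bare, _, c, _ => fun d => d.elim (fun ⟨n, f⟩ => c rfl n f) fun f =>
      f fun _ g => (Finset.notMem_empty _ (hN ▸ g)).elim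
  | .mark n, _, _, c => c n rfl

end PtsA

theorem Ed.exists_am (z : Zt P e) : ∃ m : AM0 R J σ ν,
    Rep ℓs univ ((Empty.elim, E.x (E.jz z).1) : ch.WF ν (Fin 0) Empty) m ∧ m.Sol (P.E ∅) ∧
      Edg m e s t ∧ ∀ y, (bas m).vl y = z.1.val := by
  obtain ⟨h1, h2⟩ := E.std_jz z
  obtain ⟨L, hL⟩ := exists_rep E.gz E.dg h1 (fun j => by rw [E.wd, PtsA.sum_hat]) h2 ℓs
  have r := hL Empty Empty.elim
  have b := h1.mem_base E.gz
  have u : ∀ a : OnePoint ℂ, connectedComponent a = univ :=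
    PreconnectedSpace.connectedComponent_eq_univ
  have d : ∀ o, degOn (L o) (connectedComponent (pt false)) = edD R e o := fun o => by
    rw [u, degOn_univ]
    exact ((r.typ b).2 o).trans ((PtsA.sum_ℓs o _).trans (by rw [E.m, add_sub_cancel_left]))
  have a := isRat_range (LIso.id P1) injective_id
  rw [range_id, ← u (pt false)] at a
  refine ⟨_, r, (r.mem_solF b E.inv fun j o => by rw [E.wd, Fam.sum_ℓs]).1
    ((E.zs _).1 ((E.range_jz _).1 ⟨z, rfl⟩)), ⟨pt false, pt true,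
      ⟨coe_ne_infty _, (u _).ge trivial, a, fun y _ c => ?_, fun y _ => ev_coE_src z y,
        fun y _ => ev_coE_tgt z y, fun y _ l c d => ?_, d none, fun o => d (some o)⟩,
      PtsA.end_of rfl E.ends.src (qE_ne_false E.ends).2 fun _ => qE_src,
      PtsA.end_of rfl E.ends.tgt (qE_ne_true E.ends).2 fun _ => qE_tgt E.ends, u _⟩,
    fun y => Prod.ext (Subsingleton.elim _ _) (funext (ev_coE_inl z y))⟩
  · exact c.elim (fun ⟨n, f⟩ => f ▸ qE_mem n) fun f =>
      (f fun _ g => (Finset.notMem_empty _ g).elim).elim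
  · exact (congrArg (ev _ y) (coE_oth z c d)).trans (map_zero _)

theorem Ed.exists_iso {m : AM0 R J σ ν} (hm : m.Sol (P.E ∅)) (he : Edg m e s t) :
    ∃ z m', Rep ℓs univ ((Empty.elim, E.x (E.jz z).1) : ch.WF ν (Fin 0) Empty) m' ∧
      AM.Iso (P.E ∅).toWt univ m' m := by
  obtain ⟨a, -⟩ := id he
  obtain ⟨m', h1, h2, h3, h4⟩ := E.exists_am (Holo.Sp.of _ _ (PtsA.cone E.tg hm a), 1, 1)
  obtain ⟨a', -⟩ := id h3
  exact ⟨_, m', h1, h3.iso h2 hm he E.ends.src E.ends.tgt (z := a') (z' := a) isUnit_one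
    ((P.F.actT_one _).symm.trans (congrArg _ (h4 a').symm))⟩

/-- there are no edges if the base is empty -/
theorem nonempty_cone (hP : P.F.Tg) {m : AM0 R J σ ν} (hm : m.Sol (P.E ∅)) (he : Edg m e s t) :
    P.F.cone.Nonempty :=
  let ⟨a, _⟩ := he; ⟨_, PtsA.cone hP hm a⟩

end Vale.Agent.P269.Edg
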