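import Vale.Agent.P269.Edg.Cns
import Vale.Agent.P269.Edg.EdM
import Vale.Agent.P269.Edg.Pts
import Vale.Agent.P269.Edg.Psi
import Vale.Agent.P269.LG.KunB
import Vale.Agent.P269.LG.TopB

/-!
# The contribution of an edge
-/

set_option linter.unusedSectionVars false
set_option linter.style.haveILetI false
set_option maxSynthPendingDepth 3

namespace Vale.Agent.P269.Edg

open Set Function Topology Filter Module TensorProduct Vale.Agent.P291Z Ch Loc Holo LG B Tq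

variable {R J K ν V ι : Type} [Fintype R] [Fintype J] [Fintype K] [Fintype ν] [DecidableEq R]
  {s t : En ν} [AddCommGroup V] [Module ℂ V] {p : Fock.Par ℂ V} [Fintype ι]
  {fr : Fock.Frame p ι} {r k D : ℕ} {P : PB R J K (Fin (r + 1))} {ac : Act fr (Hev P.X)}
  {E : Dic ac P.X} {w : Fin (r + 1) → ℂ} {c : Fin (r + 1) → Hev P.X} {i₀ : V →ₗ[ℂ] H P.XE}
  {iP : (Fin (r + 1) → V) →ₗ[ℂ] H P.XE} {e : Edge (Fin (r + 1))}
  {τ : Md P P.X ν 0 (edD R e)} (G : Geo k D w τ) (hC : Cx P k E w c i₀ iP) (hD : (P.E ∅).BigD k D)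
  (he : Ends s t)
include hC

theorem c_eq (x : F ⊗[ℂ] Hev P.X) : E.c x = x := by
  induction x with
  | zero => exact map_zero _
  | add a b ha hb => rw [map_add, ha, hb]
  | tmul k a => exact congrArg (k ⊗ₜ[ℂ] ·) (hC.jC a)

theorem edc_empty (hn : P.F.cone = ∅) : ∃ u, Edc E (chi w c) e s t τ u := by
  haveI : IsEmpty P.X := ⟨fun x => hn.le (Quo.out x).2⟩
  have a : τ.sel (Edg · e s t) = ∅ := eq_empty_of_forall_notMem fun _ ⟨_, a, b⟩ =>
    (nonempty_cone hC.tg (τ.fx a).sol b).ne_empty hn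
  have b : ∀ x y : F ⊗[ℂ] Hev P.X, x = y := fun x y => inF_injective (Subsingleton.elim _ _)
  refine ⟨⟨isEmptyElim, by fun_prop⟩, a ▸ isClopen_empty,
    ⟨.of_subsingleton _, (finite_range _).isClosed⟩,
    (range_eq_empty _).trans a.symm, fun _ => ContinuousMap.ext isEmptyElim, fun _ _ => b _ _,
    fun _ _ => b _ _, fun x => ?_⟩
  rw [Md.id, a, idE_empty, map_zero, zero_mul, map_zero, Subsingleton.elim (_ * _) 0, map_zero]

include G hD he in
theorem exists_edc : ∃ u, Edc E (chi w c) e s t τ u := by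
  refine P.F.cone.eq_empty_or_nonempty.elim (edc_empty hC) fun hn => ?_
  haveI := hC.tg.toGood.fp
  haveI := hC.tg.compact
  have hP := hC.ok hD
  obtain ⟨O, h⟩ := hP.exists_as' ν 0 (edD R e) hP.goodE
  haveI := fun M => (h.lv M).nice
  have hc : ∀ l, c l = cL P l := fun l => Subtype.ext ((hC.lc l).trans (Wt.lce_val _ _).symm)
  have hχ : ∀ l, chi w c l = (w l • tt) ⊗ₜ 1 + 1 ⊗ₜ cL P l := fun l => hc l ▸ rfl
  let C := ed hC.tg hP he hn h
  obtain ⟨u, hu, hg⟩ := C.zd.exists_part (G.pc hP h) fun z => (G.range_gY hP h).ge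
    ⟨_, ⟨TS.fx_subset (C.jz z).2.2, C.zd.mem z⟩, rfl⟩
  have k1 : ∀ z m, Rep ℓs univ ((Empty.elim, C.x (C.jz z).1) : Ch.WF _ ν (Fin 0) Empty) m →
      τ.Rp (u (πE z)) m := fun z m a => by
    rw [ed_x] at a
    exact (G.rp_iff hP h).2 ⟨_, h.tc.mem_fix.1 ⟨TS.fx_subset (C.jz z).2.2, C.zd.mem z⟩,
      h.tc.isClosedEmbedding_g.injective (hg z), a⟩
  have k2 : range u = τ.sel (Edg · e s t) := by
    refine Set.ext fun y => ⟨?_, fun ⟨m, a, b⟩ => ?_⟩
    · rintro ⟨x, rfl⟩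
      obtain ⟨z, rfl⟩ := (isQuo_πE (e := e)).oq.surjective x
      obtain ⟨m, a, -, b, -⟩ := C.exists_am z
      exact ⟨m, k1 z m a, b⟩
    · obtain ⟨z, m', d, f⟩ := C.exists_iso (τ.fx a).sol b
      exact ⟨_, τ.inj ((τ.iso (k1 z m' d)).2 f) a⟩
  have k3 := u.continuous.isClosedEmbedding hu.injective
  have k4 : ∀ {a : ν} {b : Bool}, qE s (.inl a) = pt b → pbE u (τ.ψ a) =
      -bif b then -pe F (chi w c) e else pe F (chi w c) e := fun {a b} hb =>
    (G.psi_sl hP h C.sl (fun _ => rfl) C.zd (fun z => ⟨_, C.ι_jz z⟩) hu hg hb).trans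
      (congrArg Neg.neg (bc_end _ hχ b))
  refine ⟨u, k2 ▸ ⟨k3.isClosed_range, hu.isOpen_range⟩, k3, k2,
    fun n => ContinuousMap.ext fun x => ?_, fun n a => ?_, fun n a => ?_, fun x => ?_⟩
  · obtain ⟨z, rfl⟩ := (isQuo_πE (e := e)).oq.surjective x
    obtain ⟨m, a, -, -, b⟩ := C.exists_am z
    obtain ⟨_, d⟩ := G.ev n _ m (k1 z m a)
    exact d.trans (congrArg (Quo.mk _) (Subtype.ext (b _)))
  · rw [c_eq hC]
    exact k4 (qE_src a)
  · rw [c_eq hC]
    exact (k4 (qE_tgt he a)).trans (neg_neg _)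
  · obtain ⟨I, a, b⟩ := (G.loc' hP h).part hu
    rw [c_eq hC, inF_comm, Md.id, ← k2, show E.int = intg (Tq.fnd P.F.actT P.F.cone) from
      LinearMap.ext fun y => (hC.int y).trans (Wt.intX_eq y)]
    exact (b x).symm.trans (C.main h.tc.κ (Holo.Sp.of _ _ hn.some_mem, 1, 1)
      ((G.pc hP h).part hu) hg hχ hC.li (fun l => hc l ▸ hC.nil l) a _)

end Vale.Agent.P269.Edg

namespace Vale.Agent.P269.LG

open Vale.Agent.P269.Ch B

/-- **the contribution of an edge** -/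
theorem GeoT.hE {R J K V ι : Type} [Fintype R] [Fintype J] [Fintype K] [DecidableEq R]
    [AddCommGroup V] [Module ℂ V] {p : Fock.Par ℂ V} [Fintype ι] {fr : Fock.Frame p ι} {r k D : ℕ}
    {P : PB R J K (Fin (r + 1))} {ac : Act fr (Hev P.X)} {E : Dic ac P.X} {w : Fin (r + 1) → ℂ}
    {c : Fin (r + 1) → Hev P.X} {i₀ : V →ₗ[ℂ] P291Z.H P.XE}
    {iP : (Fin (r + 1) → V) →ₗ[ℂ] P291Z.H P.XE} {T : Th P P.X} (G : GeoT k D w T)
    (hC : Cx P k E w c i₀ iP) (hD : (P.E ∅).BigD k D) :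
    HE T E (chi w c) := fun ν _ e _ _ he => Edg.exists_edc (G ν 0 (edD R e)) hC hD he

end Vale.Agent.P269.LG
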