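import Vale.Agent.P269.P1.Tan

/-!
# Induced fields on the rational normal curve
-/

set_option linter.unusedSectionVars false

namespace Vale.Agent.P269.Edg

open Set Function Topology Filter Module Cv Base Ch P1
open OnePoint hiding some map_smul

variable {ι J ν : Type} [Fintype ι] [DecidableEq ι] [Fintype J] [Fintype ν] {ch : Ch ι J}
  {n : J → ℕ} {x : ch.W ν} {q : ν → OnePoint ℂ}

variable (ch n) in
/-- `n j - 1` is the degree of the sections that induce the field `j` -/
structure Dg : Prop where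
  eq : ∀ j, (n j : ℤ) = ∑ i, ch.wd j i * ch.m i + 1
  ne : ∀ j, n j ≠ 0

theorem Dg.nonneg (hn : Dg ch n) (j : J) : 0 ≤ ∑ i, ch.wd j i * ch.m i := by
  have := hn.eq j
  have := hn.ne j
  omega

/-- the coefficients of the sections -/
abbrev Co (n : J → ℕ) : Type := ∀ j, Fin (n j) → ℂ

variable (ch n) in
/-- the fields induced by the sections with given coefficients -/
noncomputable def ind : Co n →L[ℂ] Fl ch := Classical.epsilon fun I =>
  ∀ c j μ (y : OnePoint ℂ), ev _ y (I c j μ) = ev _ y (c j) * val μ (par ch y)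

variable (r : Gz ch ν) (hn : Dg ch n) {c : Co n}
include r hn

theorem ev_ind (c : Co n) (j : J) (μ : Tens ch.M (ch.b j)) (y : OnePoint ℂ) :
    ev _ y (ind ch n c j μ) = ev _ y (c j) * val μ (par ch y) := by
  have k : ∀ j (c : Fin (n j) → ℂ), ∃ T : Tens ch.M (ch.b j) →L[ℂ] ch.E (some j),
      ∀ (y : OnePoint ℂ) μ, ev _ y (T μ) = ev _ y c * val μ (par ch y) := fun j c =>
    exists_lift (u := fun y => ev _ y) (v := fun y => ev _ y c • evL (ch.b j) (par ch y))
      fun μ => r.exists_ev (by
        have := LB.mul_mem (bz_Os (ch := ch) _ ▸ ev_mem (hn.eq j) (hn.nonneg j) c)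
          (val_mem r.full.sec μ).1
        rwa [← bz_add, show (ch.wd j + fun i => (ch.b j i : ℤ)) = fun i => (ch.a (some j) i : ℤ) from
          funext fun i => sub_add_cancel _ _] at this)
  choose T hT using k
  exact Classical.epsilon_spec (p := fun I : Co n →L[ℂ] Fl ch => ∀ c j μ (y : OnePoint ℂ),
    ev _ y (I c j μ) = ev _ y (c j) * val μ (par ch y)) ⟨LinearMap.toContinuousLinearMap
      ⟨⟨fun c j => T j (c j), fun a b => funext fun j => ContinuousLinearMap.ext fun μ =>
        ev_ext' fun z => (hT _ _ _ _).trans (.trans (by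
          rw [Pi.add_apply, map_add, add_mul, hT, hT])
            (map_add _ (T j (a j) μ) (T j (b j) μ)).symm)⟩,
        fun a b => funext fun j => ContinuousLinearMap.ext fun μ => ev_ext' fun z =>
          (hT _ _ _ _).trans (.trans (by rw [Pi.smul_apply, map_smul, smul_mul_assoc, hT])
            (map_smul _ a (T j (b j) μ)).symm)⟩, fun c j μ y => hT j (c j) y μ⟩ c j μ y

theorem ind_injective : Injective (ind ch n) := fun c c' e => funext fun j => ev_ext' fun z => by
  obtain ⟨μ, a⟩ := exists_val_one (a := ch.b j) (r.par_ne z)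
  have b := ev_ind r hn c j μ z
  rw [e, ev_ind r hn, a, mul_one, mul_one] at b
  exact b.symm

theorem ind_ind (h : x.X = ind ch n c) (j : J) :
    Ind x (par ch) (evs ch) j fun y => ev _ y (c j) := fun y μ =>
  (congrArg (fun F : Fl ch => ev _ y (F j μ)) h).trans (ev_ind r hn c j μ y)

theorem exists_co {s : J → OnePoint ℂ → ℂ} (h : ∀ j, Ind x (par ch) (evs ch) j (s j)) :
    ∃ c : Co n, x.X = ind ch n c ∧ ∀ j y, s j y = ev _ y (c j) := by
  choose c hc using fun j => (mem_O (hn.eq j) (hn.nonneg j)).1 (r.ind_iff.1 (h j)).1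
  exact ⟨c, funext fun j => ContinuousLinearMap.ext fun μ => ev_ext' fun z =>
    (h j z μ).trans (by rw [hc, ev_ind r hn]), hc⟩

theorem act_ind (h : x.X = ind ch n c) {a : ℂ} {t : ι → ℂ} (ha : a ≠ 0) (ht : ∀ i, t i ≠ 0) :
    (act (dgA ch q a t) x).X =
      ind ch n fun j e => ((∏ i, t i ^ ch.wd j i) * a ^ (e : ℕ))⁻¹ * c j e := by
  refine funext fun j => ContinuousLinearMap.ext fun μ => ev_ext' fun z => ?_
  have b := ev_diag (c := ∏ i, t i ^ ch.wd j i) ha (z / a : ℂ) (c j)
  rw [sc_coe, mul_div_cancel₀ _ ha, wt_coe, mul_one] at b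
  rw [ind_dgA ha ht (y := fun z => ev _ z (c j)) (fun μ z => ind_ind r hn h j z μ), ev_ind r hn, ← b]
  rfl

theorem scl_ind (h : x.X = ind ch n c) (s : J → ℂ) :
    (scl s x).X = ind ch n fun j e => s j * c j e :=
  funext fun j => ContinuousLinearMap.ext fun μ => ev_ext' fun z =>
    (map_smul _ (s j) (x.X j μ)).trans ((congrArg (s j • ·) (ind_ind r hn h j z μ)).trans
      ((smul_mul_assoc _ _ _).symm.trans ((congrArg (· * _) (map_smul _ (s j) (c j)).symm).trans
        (ev_ind r hn (fun j e => s j * c j e) j μ z).symm)))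

end Vale.Agent.P269.Edg
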