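import Vale.Agent.P269.Edg.Ed
import Vale.Agent.P269.LG.Amb
import Vale.Agent.P269.Base.Std

/-!
# The chart of the edges in the moduli space
-/

set_option linter.unusedSectionVars false

namespace Vale.Agent.P269.Edg

open Set Function Topology Filter Module Cv Base Ch P1 Loc Holo LG B

variable {R J K σ ν κ ι : Type} [Fintype R] [Fintype J] [Fintype K] [Fintype σ] [Fintype ν]
  [Fintype κ] [Fintype ι] [DecidableEq ι] [DecidableEq σ]

namespace Cns

section alg

variable (A B : Type) [NormedRing A] [NormedAlgebra ℂ A] [NormedRing B] [NormedAlgebra ℂ B]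

/-- isomorphisms of normed algebras -/
abbrev AE : Type := A ≃ₐ[ℂ] B

variable {A B} [FiniteDimensional ℂ A] (e : AE A B)

theorem cont : Continuous (Units.mapEquiv e.toMulEquiv) :=
  Continuous.units_map _ e.toLinearMap.continuous_of_finiteDimensional

/-- the differential -/
noncomputable def dE : A ≃L[ℂ] B := e.toLinearEquiv.toContinuousLinearEquiv

theorem exp_eq [CompleteSpace A] [CompleteSpace B] (ξ : A) :
    Units.mapEquiv e.toMulEquiv (expU ξ) = expU (dE e ξ) :=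
  Units.ext (exp_map e.toRingEquiv.toRingHom e.toLinearMap.continuous_of_finiteDimensional ξ)

end alg

variable {J' : Type} [Fintype J'] (ch : Ch ι J') (ν κ) [IsEmpty κ]

/-- the algebras without parameters and nodes -/
noncomputable def aE : AE (ch.AF ν κ Empty) (ch.A (Mk ν κ)) where
  toFun a := dup a.2
  invFun b := (1, b.1, b.2.1, fun n => b.2.2 (n.map id isEmptyElim))
  left_inv _ := Prod.ext (Subsingleton.elim _ _)
    (Prod.ext rfl (Prod.ext rfl (funext (Sum.rec (fun _ => rfl) isEmptyElim))))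
  right_inv _ := Prod.ext rfl (Prod.ext rfl (funext (Sum.rec (fun _ => rfl) fun q => isEmptyElim q.1)))
  map_mul' _ _ := rfl
  map_add' _ _ := rfl
  commutes' _ := rfl

/-- the spaces without parameters -/
noncomputable def μE : ch.WF ν κ Empty ≃L[ℂ] ch.W (Mk ν κ) :=
  LinearEquiv.toContinuousLinearEquiv
    { toFun := Prod.snd
      invFun := fun y => (Empty.elim, y)
      left_inv := fun _ => Prod.ext (Subsingleton.elim _ _) rfl
      right_inv := fun _ => rfl
      map_add' := fun _ _ => rfl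
      map_smul' := fun _ _ => rfl }

variable {ch ν κ}

theorem eta (x : ch.WF ν κ Empty) : (Empty.elim, μE ν κ ch x) = x := (μE ν κ ch).symm_apply_apply x

variable {P : PB R J K σ} {ch : Ch ι (J ⊕ σ)} {e : K → ι → ℕ} {K₀ : Set K} {ℓ : Option R → ι → ℤ}
  {O : Set (ch.WF ν κ Empty)} {n : ℕ}

/-- the chart is an open part of the smooth space -/
noncomputable def prs (h : P.Am e K₀ ℓ ∅ O n) (hm : P.F.mov = univ) :
    Prs h.tc.Y ch (Mk ν κ) where
  θ := Units.mapEquiv (aE ν κ ch).toMulEquiv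
  dθ := dE (aE ν κ ch)
  μ := μE ν κ ch
  cθ := cont _
  cθ' := cont (aE ν κ ch).symm
  eqv g v := congrArg (act _)
    ((congrArg (scl · v.2) (funext fun _ => Fintype.prod_empty _)).trans (scl_one _))
  exp := exp_eq _
  mem t := let ⟨_, _, a⟩ := h.dom.opn; (a.le (h.tc.ι_mem t)).1.2.2.1
  opn t := let ⟨_, b, a⟩ := h.dom.opn
    mem_of_superset (b.mem_nhds (a.le (h.tc.ι_mem t)).2) fun v hv c => ⟨h.tc.pt v (a.ge
      ⟨(PB.mem_cyc (PB.abs h.abs) h.std_E.inv).2 ⟨⟨trivial, c, isEmptyElim⟩, fun j hj => (hj (by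
        cases j
        exacts [hm.ge trivial, id])).elim⟩, hv⟩), rfl⟩

end Cns

variable [DecidableEq R] {P : PB R J K σ} {k D : ℕ} {e : Edge σ} {s t : En ν} {K₀ : Set K}

theorem Cns.gz (hP : P.Ok K₀ k D) (hn : P.F.cone.Nonempty) :
    Gz (P.ch ν k D 0 (edD R e)) (Mk ν (Fin 0)) := by
  obtain ⟨θ₀, N, ⟨h1, h2, h3⟩, hk⟩ := hP.big
  obtain ⟨⟨z, y⟩, hz⟩ := hn
  obtain rfl : z = Empty.elim := Subsingleton.elim _ _
  obtain ⟨α, h4, -⟩ := h3 _ (.inr ⟨none, .inr rfl⟩) (Empty.elim, Sum.elim y 1)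
    ((PB.mem_cone hP.B hP.abs).2 ⟨trivial, hz, ⟨e.src, one_ne_zero⟩, fun _ => False.elim⟩)
  have h5 : 1 ≤ θ₀ none := by
    have := h4 none
    simp only [Fintype.sum_sum_type, PB.w, Sum.elim_inl, Sum.elim_inr, Option.elim, mul_zero,
      Finset.sum_const_zero, mul_one, zero_add, Pi.sub_apply, Pi.smul_apply, Pi.single_eq_same,
      nsmul_eq_mul, Pi.mul_apply, Pi.natCast_apply] at this
    have : 0 ≤ ∑ i, (α (.inr i) : ℤ) := by positivity
    nlinarith
  have h6 : P.θ none = 3 * θ₀ none := congrFun h1 none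
  have h7 : ∑ o, P.θ o * edD R e o = P.θ none * (e.deg + 1) := by simp [edD, Fintype.sum_option]
  have hm : ∀ o, (P.ch ν k D 0 (edD R e)).m o = k * (2 * 0 - 2 + Fintype.card (Mk ν (Fin 0)) +
    ∑ o, P.θ o * edD R e o) + o.elim 0 (edD R e) := fun _ => rfl
  have h8 : ∀ o, 1 ≤ (P.ch ν k D 0 (edD R e)).m o := fun o => by
    have : 0 ≤ o.elim 0 (edD R e) := by rcases o with _ | _ | _ <;> simp [edD]; omega
    have : 1 ≤ 2 * 0 - 2 + Fintype.card (Mk ν (Fin 0)) + P.θ none * (e.deg + 1) := by nlinarith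
    rw [hm, h7]
    nlinarith
  obtain ⟨l, hl⟩ := (Fam.chart_cuts (g := 0) (n := Fintype.card (Mk ν (Fin 0))) (d := edD R e)
    hP.bigD).cut
  have hs := Cv.sum_χ 0 (Fintype.card (Mk ν (Fin 0))) (edD R e) hP.bigD
  refine ⟨rfl, fun o => (Int.toNat_of_nonneg (a := (P.ch ν k D 0 (edD R e)).m o + 1 - 0)
    (by have := h8 o; omega)).trans (sub_zero _), fun o => zero_le_one.trans (h8 o), h8 _, fun l => (Int.toNat_of_nonneg
      (a := _ + 1 - 0) ((sub_zero _).ge.trans' (add_nonneg (Finset.sum_nonneg fun o _ => mul_nonneg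
        (Nat.cast_nonneg _) (zero_le_one.trans (h8 o))) zero_le_one))).trans (sub_zero _),
    (Fam.chart_cuts hP.bigD).ne, ⟨l, fun i => le_trans (by norm_num) (hl i),
      le_trans (by norm_num) (hl _)⟩, ?_, hs⟩
  simp only [hm, mul_add, Finset.sum_add_distrib, ← Finset.sum_mul, hs]
  rw [Cv.chart_χ _ _ _ hP.bigD, Fintype.sum_option]
  simp [Tgt.hat, ← Finset.mul_sum, mul_assoc, show (P.ch ν k D 0 (edD R e)).k = k from rfl]
  ring

/-- the chart of the edges -/
noncomputable def ed (hT : P.F.Tg) (hP : P.Ok univ k D) (he : Ends s t) (hn : P.F.cone.Nonempty)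
    {O : Set ((P.ch ν k D 0 (edD R e)).WF ν (Fin 0) Empty)} {n : ℕ} (h : P.As univ ∅ O n) :
    Ed P e s t h.tc.h h.tc.k (P.ch ν k D 0 (edD R e)) where
  toPrs := Cns.prs h hT.mov
  x₀ := ((Cns.gz hP hn).exists_std (qE_inj he) 0).choose
  eK := P.td ν k D 0 (edD R e)
  i := h.tc.e
  ends := he
  tg := hT
  inv := hP.goodE.toInv
  gz := Cns.gz hP hn
  num := Fam.num₀ hP.big.two_le hP.bigD _ _ _
  std := ((Cns.gz hP hn).exists_std (qE_inj he) 0).choose_spec.1
  zero := ((Cns.gz hP hn).exists_std (qE_inj he) 0).choose_spec.2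
  wd := Cv.chart_wd _ _ _ _ _ _
  m _ := congrArg (· + _) (add_zero _).symm
  b u v := congrArg Prod.snd (h.b_apply u v)
  fits := h.std.fits
  inj := h.tc.isKP.emb.injective
  range := h.tc.isKP.range.trans (congrArg KD.P₀ h.D₀_eq)
  sec y := (h.tc.isKP.sec y).trans ((congrArg (KD.s · _) h.D₀_eq).trans
    (congrArg _ (Cns.eta _).symm))
  van y w := (h.tc.isKP.van y w).trans (congrArg (fun V : Submodule ℂ _ => h.tc.e w ∈ V)
    ((congrArg (KD.van · _) h.D₀_eq).trans (congrArg _ (Cns.eta _).symm))).to_iff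
  zs y := h.tc.mem_Zs.trans (congrArg₂ (fun (x : (P.ch ν k D 0 (edD R e)).WF ν (Fin 0) Empty)
    (T : Set _) => x ∈ T) (Cns.eta _).symm h.Z0_eq).to_iff
  all x a := ⟨h.tc.pt _ (h.tc.dom.sub (h.Z0_eq.ge a)), rfl⟩
  rk y a := (congrArg _ h.tc.k_r).trans
    (Int.toNat_of_nonneg (h.std_E.rk_nonneg (h.tc.mem_Zs.1 a).1))

theorem ed_x (hT : P.F.Tg) (hP : P.Ok univ k D) (he : Ends s t) (hn : P.F.cone.Nonempty)
    {O : Set ((P.ch ν k D 0 (edD R e)).WF ν (Fin 0) Empty)} {n : ℕ} (h : P.As univ ∅ O n)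
    (y : h.tc.Y.T) : (Empty.elim, (ed hT hP he hn h).x y) = h.tc.Y.ι y :=
  Cns.eta (h.tc.Y.ι y)

end Vale.Agent.P269.Edg
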