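import Vale.Agent.P269.Orb.Hol
import Vale.Agent.P269.Holo.Proper
import Vale.Agent.P269.Ch.Chern

/-!
# Actions through a finite covering of groups
-/

set_option linter.unusedSectionVars false

namespace Vale.Agent.P269.Edg

open Set Function Topology Filter Vale.Agent.P291Z Vale.Agent.P269.Ch Vale.Agent.P269.Holo
  Vale.Agent.P269.Orb

theorem c1_eq_zero {Y : Ch.Sp} {χ : Y.G →ₜ* ℂˣ} {s : Y.T → ℂ} (hc : Continuous s)
    (he : ∀ g t, s (g • t) = χ g * s t) (h0 : ∀ t, s t ≠ 0) : c1 χ = 0 :=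
  VB.IsSec.eu_eq_zero (E := char χ) (s := s) ⟨fun _ => trivial, hc, he⟩ h0

variable {G H N T Z X A₀ A : Type} [Group G] [TopologicalSpace G] [Group H] [TopologicalSpace H]
  [Group N] [TopologicalSpace N] [IsTopologicalGroup G] [IsTopologicalGroup H]
  [IsTopologicalGroup N] [TopologicalSpace T] [TopologicalSpace Z] [TopologicalSpace X]
  [MulAction G T] [MulAction H Z] [NormedAddCommGroup A₀] [NormedSpace ℂ A₀] [NormedAddCommGroup A]
  [NormedSpace ℂ A] {n : ℕ}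

theorem lh_of_finite [SigmaCompactSpace H] [T2Space H] [LocallyCompactSpace G] [T2Space G]
    {Ψ : H →* G} (hc : Continuous Ψ) (hs : Surjective Ψ) (hk : Finite Ψ.ker) : LH Ψ 1 := by
  have ho := Ψ.isOpenMap_of_sigmaCompact hs hc
  have h1 : ((Ψ.ker : Set H) \ {1})ᶜ ∈ 𝓝 (1 : H) :=
    ((toFinite _).subset sdiff_subset).isClosed.isOpen_compl.mem_nhds fun h => h.2 rfl
  have h2 : Tendsto (fun p : H × H => p.1⁻¹ * p.2) (𝓝 1 ×ˢ 𝓝 1) (𝓝 1) := by
    rw [← nhds_prod_eq]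
    exact Continuous.tendsto' (by fun_prop) _ _ (by simp)
  refine LH.of_open_inj (.of_forall fun _ => hc.continuousAt) (.of_forall fun y => ho.nhds_le y)
    ((h2.eventually h1).mono fun p hp e => inv_mul_eq_one.1 (by_contra fun k => hp ⟨?_, k⟩))
  rw [SetLike.mem_coe, MonoidHom.mem_ker, map_mul, map_inv, e, inv_mul_cancel]

/-- `Z = T × N`, and `H` acts through `Ψ`. -/
structure Cov (Ψ : H →* G × N) (e : Z ≃ₜ T × N) : Prop where
  surj : Surjective Ψ
  lh : LH Ψ 1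
  eqv : ∀ h z, e (h • z) = ((Ψ h).1 • (e z).1, (Ψ h).2 * (e z).2)

namespace Cov

variable {Ψ : H →* G × N} {e : Z ≃ₜ T × N} (c : Cov Ψ e) {π₀ : T → X} {ι₀ : T → A₀} {ι : Z → A}
include c

theorem isQuo (q : IsQuo G π₀) : IsQuo H fun z => π₀ (e z).1 :=
  ⟨(q.oq.comp isOpenQuotientMap_fst).comp e.isOpenQuotientMap, fun z z' => (q.eq_iff _ _).trans
    ⟨fun ⟨g, a⟩ => (c.surj (g, (e z').2 * (e z).2⁻¹)).imp fun h b => e.injective (by
      rw [c.eqv, b, a, inv_mul_cancel_right]), fun ⟨h, a⟩ => ⟨(Ψ h).1, by rw [← a, c.eqv]⟩⟩⟩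

theorem stab_eq (hf : ∀ (g : G) (t : T), g • t = t → g = 1) (z : Z) : stab H z = Nat.card Ψ.ker :=
  congrArg (fun S : Subgroup H => Nat.card S) (Subgroup.ext fun h => ⟨fun a => by
    have b := (c.eqv h z).symm.trans (congrArg e a)
    exact Prod.ext (hf _ _ (congrArg Prod.fst b)) (mul_eq_right.1 (congrArg Prod.snd b)),
    fun a => e.injective (by rw [c.eqv, show Ψ h = 1 from a]; simp)⟩)

theorem isSlice {φ : (Fin n → ℂ) → T} (hφ : IsSlice G ι₀ φ) (v : N)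
    (h1 : HolAt ι (fun z => ι₀ (e z).1) (e.symm (φ 0, v)))
    (h2 : HolAt ι₀ (fun t => ι (e.symm (t, v))) (φ 0)) :
    IsSlice H ι fun y => e.symm (φ y, v) := by
  have k : ∀ x : H × (Fin n → ℂ), x.1 • e.symm (φ x.2, v) =
      e.symm ((Ψ x.1).1 • φ x.2, (Ψ x.1).2 * v) := fun x =>
    e.eq_symm_apply.2 (by rw [c.eqv, e.apply_symm_apply])
  let s : (G × N) × (Fin n → ℂ) ≃ₜ (G × (Fin n → ℂ)) × N := (Homeomorph.prodAssoc _ _ _).trans
    (((Homeomorph.refl G).prodCongr (Homeomorph.prodComm _ _)).trans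
      (Homeomorph.prodAssoc _ _ _).symm)
  have l : LH (fun x : H × (Fin n → ℂ) => x.1 • e.symm (φ x.2, v)) (1, 0) := by
    rw [funext k]
    exact (e.symm.lh _).comp (LH.comp' (LH.prodMap hφ.1 ((Homeomorph.mulRight v).lh 1))
      ((s.lh _).comp (c.lh.prodMap (LH.id 0))) (by rw [comp_apply, Prod.map_apply, map_one]; rfl))
  obtain ⟨w, a, b⟩ := hφ.2.2
  obtain ⟨Φ, d, f⟩ := h1.comp_an (Ψ := w) (by rwa [e.apply_symm_apply])
  have t : Tendsto (fun x : H × (Fin n → ℂ) => ((Ψ x.1).1, x.2)) (𝓝 (1, 0)) (𝓝 (1, 0)) := by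
    have := (c.lh.cont.comp (f := Prod.fst)
      (continuousAt_fst (p := ((1 : H), (0 : Fin n → ℂ))))).fst.prodMk continuousAt_snd
    simpa [ContinuousAt] using this
  have u := l.cont.tendsto
  rw [one_smul] at u
  refine ⟨l, h2.an_comp hφ.cont hφ.2.1, Φ, d, ?_⟩
  filter_upwards [u.eventually f, t.eventually b] with x p q
  rw [← p, k, e.apply_symm_apply, q]

/-- **the fundamental class of a gerbe** -/
theorem fund (q : IsQuo G π₀) (hG : HolOrb G ι₀ n) (hH : HolOrb H ι n)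
    (hf : ∀ (g : G) (t : T), g • t = t → g = 1) (h1 : ∀ z, HolAt ι (fun z => ι₀ (e z).1) z)
    (h2 : ∀ t v, HolAt ι₀ (fun t => ι (e.symm (t, v))) t) :
    fundQ G ι₀ π₀ n = (Nat.card Ψ.ker : ℂ) • fundQ H ι (fun z => π₀ (e z).1) n :=
  hH.eq_smul (c.isQuo q) (hG.deg q) ((c.isQuo q).meets dense_univ) fun z _ => by
    obtain ⟨φ, a, b⟩ := hG.slice (e z).1
    refine ⟨_, 1, c.isSlice a (e z).2 (h1 _) (h2 _ _), by simp only [b, e.symm_apply_apply], ?_,
      by rw [c.stab_eq hf, mul_one]⟩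
    have := hG.val q a
    rw [stab_eq_one (hf · _), Nat.cast_one] at this
    exact this.congr (.of_forall fun y => by simp only [comp_apply, e.apply_symm_apply])

end Cov

end Vale.Agent.P269.Edg
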