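import Vale.Agent.P269.Edg.Ind
import Vale.Agent.P269.Vir.Rep
import Vale.Agent.P269.Pt.Rep

/-!
# The section and the solutions at standard points
-/

set_option linter.unusedSectionVars false

namespace Vale.Agent.P269.Edg

open Set Function Topology Filter Module Cv Base Ch P1
open OnePoint hiding some map_smul

variable {S Λ R J K ι ν κ : Type} [Fintype S] [Fintype Λ] [Fintype R] [Fintype J] [Fintype K]
  [Fintype ι] [DecidableEq ι] [Fintype ν] [Fintype κ] {ch : Ch ι J} {F : Fam S Λ R J K}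
  {e : K → ι → ℕ} {n : J → ℕ} {x x' : ch.W (Mk ν κ)} {q : Mk ν κ → OnePoint ℂ} {l : Λ → ℂ}
  {c c' : Co n} {V : Type} [NormedAddCommGroup V] [NormedSpace ℂ V] [FiniteDimensional ℂ V]
  {i : V →ₗ[ℂ] ch.P K} {Φ : ch.W (Mk ν κ) → V}

namespace ScA

/-- a map is analytic if its compositions with a separating family of linear forms are -/
theorem an_of_sep {E α : Type*} [NormedAddCommGroup E] [NormedSpace ℂ E] {f : E → V} {p : E}
    (φ : α → V →ₗ[ℂ] ℂ) (h0 : ∀ v, (∀ a, φ a v = 0) → v = 0)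
    (h : ∀ a, AnalyticAt ℂ (fun y => φ a (f y)) p) : AnalyticAt ℂ f p := by
  have k : ∀ ψ : V →ₗ[ℂ] ℂ, AnalyticAt ℂ (fun y => ψ (f y)) p := fun ψ => by
    have := FiniteDimensional.mem_span_of_iInf_ker_le_ker (L := φ) (K := ψ) fun v hv => by
      rw [h0 v fun a => (Submodule.mem_iInf _).1 hv a]
      exact zero_mem _
    induction this using Submodule.span_induction with
    | mem _ m => obtain ⟨a, rfl⟩ := m; exact h a
    | zero => exact analyticAt_const
    | add _ _ _ _ a b => exact a.add b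
    | smul c _ _ a => exact analyticAt_const.mul a
  let b := Module.finBasis ℂ V
  rw [show f = fun y => ∑ r, b.coord r (f y) • b r from funext fun y => (b.sum_repr _).symm]
  exact Finset.analyticAt_fun_sum _ fun r _ => (k _).smul analyticAt_const

/-- the coordinates of the functions -/
def cd : (Σ j, ch.Pt × ch.Th j × ch.Th j) ⊕ K × ch.Pt × ch.Zt → ch.P K →ₗ[ℂ] ℂ :=
  Sum.rec (fun a => LinearMap.proj a.2.2 ∘ₗ LinearMap.proj a.1 ∘ₗ LinearMap.fst ℂ _ _ ∘ₗ evZ a.2.1)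
    fun a => LinearMap.proj a.2.2 ∘ₗ LinearMap.proj a.1 ∘ₗ LinearMap.snd ℂ _ _ ∘ₗ evZ a.2.1

theorem an_u (j : J) (u : ch.E (some j) →L[ℂ] ℂ) (m : ch.Th j) (x : ch.W (Mk ν κ)) :
    AnalyticAt ℂ (fun x : ch.W (Mk ν κ) => u (x.X j m)) x :=
  (u.analyticAt _).comp (Holo.an_apply (W.an_X analyticAt_id j) analyticAt_const)

theorem an_cd (a) (x : ch.W (Mk ν κ)) :
    AnalyticAt ℂ (fun x : ch.W (Mk ν κ) => cd a (sctF F e (l, x))) x := by
  rcases a with ⟨j, z, m⟩ | ⟨k, z, ζ⟩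
  · exact (analyticAt_const.mul (an_u j _ _ x)).sub (analyticAt_const.mul (an_u j _ _ x))
  · change AnalyticAt ℂ (fun x : ch.W (Mk ν κ) => (sctF F e (l, x)).2 k z ζ) x
    simp only [sctF_snd, Ch.eval_hp]
    exact Finset.analyticAt_fun_sum _ fun β _ => (analyticAt_const.fun_mul
      (Finset.analyticAt_fun_prod _ fun j _ => (an_u j _ _ x).fun_pow _)).fun_mul analyticAt_const

theorem cd_fderiv (h1 : ∀ x, AnalyticAt ℂ Φ x) (h2 : ∀ x, i (Φ x) = sctF F e (l, x))
    (x v : ch.W (Mk ν κ)) (φ : ch.P K →ₗ[ℂ] ℂ) :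
    HasDerivAt (fun ε : ℂ => φ (sctF F e (l, x + ε • v))) (φ (i (fderiv ℂ Φ x v))) 0 := by
  have a : HasDerivAt (fun ε : ℂ => x + ε • v) v 0 := by
    simpa using ((hasDerivAt_id (0 : ℂ)).smul_const v).const_add x
  simpa only [← h2] using! (φ ∘ₗ i).toContinuousLinearMap.hasFDerivAt.comp_hasDerivAt (0 : ℂ)
    ((h1 x).differentiableAt.hasFDerivAt.comp_hasDerivAt_of_eq (0 : ℂ) a (by simp))

/-- the values of an induced field at a point of the curve -/
theorem yv_ind (r : Gz ch (Mk ν κ)) (hn : Dg ch n) (hc : x.X = ind ch n c) (y : OnePoint ℂ)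
    {t : ι → ℂ} (ht : ∀ i, t i ≠ 0) (j : J) :
    yv x (t • par ch y, fun l => chr (ch.a l) t • evs ch y l) j =
      ((∏ i, t i ^ ch.wd j i) * ev _ y (c j)) • tvZ (t • par ch y) j :=
  LinearMap.ext fun μ => by
    change chr _ t * evs ch y (some j) (x.X j μ) = _ * val μ _
    rw [ind_ind r hn hc j y μ, Base.val_smul, chr_wd ht]
    ring

end ScA

open ScA

/-- the section as an analytic map to a finite dimensional space -/
theorem exists_an (hf : ch.Fits F e) (l : Λ → ℂ) (hi : Injective i)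
    (hr : LinearMap.range i = ch.polF F e) : ∃ Φ : ch.W (Mk ν κ) → V,
      (∀ x, AnalyticAt ℂ Φ x) ∧ ∀ x, i (Φ x) = sctF F e (l, x) := by
  choose Φ h using fun x : ch.W (Mk ν κ) => hr.ge (hf.sctF_mem (l, x))
  refine ⟨Φ, fun x => an_of_sep (fun a => cd a ∘ₗ i) (fun v hv => hi ((map_zero i).symm ▸ ?_))
    fun a => by simpa only [LinearMap.comp_apply, h] using an_cd a x, h⟩
  exact P_ext (fun j z m => hv (.inl ⟨j, z, m⟩)) fun k z ζ => hv (.inr ⟨k, z, ζ⟩)

theorem evZ_fderiv (h1 : ∀ x, AnalyticAt ℂ Φ x) (h2 : ∀ x, i (Φ x) = sctF F e (l, x))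
    (x : ch.W (Mk ν κ)) (X : Fl ch) (z : ch.Pt) : evZ z (i (fderiv ℂ Φ x (fl ch _ X))) =
      (pd F e (l, x) z).dEq pwT (yv (fl ch (Mk ν κ) X) z) := by
  have a : ∀ (ε : ℂ) j, yv (x + ε • fl ch (Mk ν κ) X) z j =
      yv x z j + ε • yv (fl ch (Mk ν κ) X) z j := fun ε j => LinearMap.ext fun μ =>
    (map_add (z.2 (some j)) _ _).trans (congrArg _ (map_smul (z.2 (some j)) ε _))
  refine Prod.ext (funext₂ fun j m => ?_) (funext₂ fun k ζ => ?_)
  · refine (cd_fderiv h1 h2 x _ (cd (.inl ⟨j, z, m⟩))).unique ?_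
    have : HasDerivAt (fun ε : ℂ => Vir.kos (tvZ z.1 j) (yv x z j) m +
        ε * Vir.kos (tvZ z.1 j) (yv (fl ch (Mk ν κ) X) z j) m) _ 0 :=
      ((hasDerivAt_id' (0 : ℂ)).mul_const _).const_add _
    rw [one_mul] at this
    simpa only [← Vir.kos_smul, ← Vir.kos_add, ← a] using! this
  · refine (cd_fderiv h1 h2 x _ (cd (.inr ⟨k, z, ζ⟩))).unique
      ((Vir.hasDerivAt_eval (hp F e l k ζ z.1) (fun j => yv x z j (pwT ζ j))
        fun j => yv (fl ch (Mk ν κ) X) z j (pwT ζ j)).congr_of_eventuallyEq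
          (.of_forall fun ε => (sctF_snd _ k z ζ).trans ?_))
    exact congrArg (MvPolynomial.eval · _) (funext fun j => LinearMap.congr_fun (a ε j) _)

theorem vanM_eq (h : Std x q) (h' : Std x' q) : vanM F e (l, x) = vanM F e (l, x') := by
  have : gr x = gr x' := by rw [gr, gr, (h.unique h').1]
  simp only [vanM, this]

section ker

variable (r : Gz ch (Mk ν κ)) (hn : Dg ch n) (hf : ch.Fits F e) (hm : F.mov = univ)
  (h1 : ∀ x, AnalyticAt ℂ Φ x) (h2 : ∀ x, i (Φ x) = sctF F e (l, x)) (h : Std x q)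
  (hc : x.X = ind ch n c)
include r hn hf hm h1 h2 h hc

/-- the deformations of the fields are sections of the pull-back of the tangent bundle -/
theorem exists_of_van {X : Fl ch} (hX : i (fderiv ℂ Φ x (fl ch _ X)) ∈ vanM F e (l, x)) :
    ∃ c' : Co n, X = ind ch n c' ∧
      ∀ y k, ∑ j, F.jac (l, fun j => ev _ y (c j)) k j * ev _ y (c' j) = 0 := by
  have a := fun y => (evZ_fderiv h1 h2 x X _).symm.trans ((mem_vanM.1 hX).2 _ (h.par_mem r y))
  choose η b using fun y => Vir.PD.exists_eta (mov := univ)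
    (fun j _ => tvZ_ne (r.par_ne y) j) (fun _ k => (k trivial).elim) (congrArg Prod.fst (a y))
  obtain ⟨c', d1, d2⟩ := exists_co r hn (x := fl ch (Mk ν κ) X) (s := fun j y => η y j)
    fun j y μ => LinearMap.congr_fun (congrFun (b y).2 j) μ
  refine ⟨c', d1, fun y => congrFun (Vir.PD.nrm_injective (d := pd F e (l, x) (par ch y, evs ch y))
    (fun k => (exists_Zt (r.par_ne y)).imp fun ζ o => by simp [pd, o]) ?_)⟩
  have g := (hf.rel (x := (l, x)) (z := (par ch y, evs ch y)) (y := fun j => ev _ y (c j))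
    fun j => LinearMap.ext (ind_ind r hn hc j y)).dEq_tv (η := η y)
      fun j k => (k (hm ▸ trivial)).elim
  simp only [← d2]
  exact (g.symm.trans ((congrArg _ (b y).2.symm).trans (a y))).trans (map_zero _).symm

theorem mem_van (hr : ∀ v, i v ∈ ch.polF F e)
    (h0 : ∀ j, c' j = 0 ∨ ∀ y k, F.jac (l, y) k j = 0) :
    i (fderiv ℂ Φ x (fl ch _ (ind ch n c'))) ∈ vanM F e (l, x) := by
  refine mem_vanM.2 ⟨hr _, fun z hz => ?_⟩
  obtain ⟨y, t, ht, rfl⟩ := (h.mem_gr r).1 hz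
  rw [evZ_fderiv h1 h2, funext (yv_ind r hn (fl_X _) y ht)]
  refine ((hf.rel (x := (l, x)) (yv_ind r hn hc y ht)).dEq_tv fun j k =>
    (k (hm ▸ trivial)).elim).trans ((congrArg _ (funext fun k => ?_)).trans (map_zero _))
  exact Finset.sum_eq_zero fun j _ => (h0 j).elim (fun a => by simp [a]) fun a => by simp [a]

end ker

/-- the projective line with marked points -/
@[reducible] noncomputable def acP (q : Mk ν κ → OnePoint ℂ) (hq : Injective q) : AC ν κ where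
  X := OnePoint ℂ
  R := P1
  N := ∅
  p := q
  nd := nd_empty
  inj := hq
  sm _ _ h := (Finset.notMem_empty _ h).elim

variable [IsEmpty κ] (r : Gz ch (Mk ν κ)) (hn : Dg ch n) (h : Std x q)
  (hw : ∀ j, ∑ i, ch.wd j i = 0)
include r hn h hw

/-- the abstract map of a standard point -/
theorem exists_rep (hc : x.X = ind ch n c) (ℓ : R → ι → ℤ) : ∃ L : R → LB P1,
    ∀ (Λ : Type) [Fintype Λ] (l : Λ → ℂ),
      Rep ℓ univ (l, x) ⟨acP q h.inj, L, l, fun j y => ev _ y (c j)⟩ := by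
  obtain ⟨ξ, -, a⟩ := h.exists_cr r
  have z : ∀ y (i : ι), (ξ y)⁻¹ ≠ 0 := fun y _ => inv_ne_zero (a.ne y)
  obtain ⟨B, u, b⟩ := a.rescale (c := fun y _ => (ξ y)⁻¹) z (by simp)
  have d : (fun y => ξ y * ∏ i, (ξ y)⁻¹ ^ ch.χ i) = (acP q h.inj).sg ^ ch.k := funext fun y => by
    rw [← zpow_sum_ne (inv_ne_zero (a.ne y)), r.one, zpow_one, mul_inv_cancel₀ (a.ne y),
      Pi.pow_apply, AC.sg, if_neg fun ⟨p, _⟩ => isEmptyElim p, one_pow]
  refine ⟨fun s => bz B (ℓ s), fun Λ _ l => ⟨rfl, B, _, CRep.of (c := acP q h.inj) (d ▸ b)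
    (s := fun m _ => ξ (q (m.map id fun p => (p, false)))) fun m => ?_, fun _ => Eqv.refl _,
      fun j _ y => ?_⟩⟩
  · rcases m with m | m
    · rw [h.p, smul_smul]
      exact (one_smul _ _).symm.trans (congrArg (· • _) (funext fun _ =>
        (mul_inv_cancel₀ (a.ne _)).symm))
    · exact isEmptyElim m.1
  · have := (a.val_iff y (z y)).2 (ind_ind r hn hc j y)
    rwa [← zpow_sum_ne (inv_ne_zero (a.ne y)), hw, zpow_zero, one_mul] at this

theorem mem_solF {ℓ : R → ι → ℤ} (hF : F.Inv) (hl : ∀ j i, ch.wd j i = ∑ r, F.w j r * ℓ r i) :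
    (l, x) ∈ ch.solF ν κ F ↔
      ∃ c : Co n, x.X = ind ch n c ∧ ∀ y, (l, fun j => ev _ y (c j)) ∈ F.cone := by
  refine ⟨fun a => ?_, fun ⟨c, a, b⟩ => ⟨⟨(b ∞).1, h.mem_base r, fun p => isEmptyElim p⟩,
    h.mem_base r, fun z hz => ?_⟩⟩
  · choose s b d using fun y => a.2.2 _ (h.par_mem r y)
    obtain ⟨c, d1, d2⟩ := exists_co r hn (x := x) (s := fun j y => s y j) fun j y => d y j
    exact ⟨c, d1, fun y => ⟨a.1.1, (funext (d2 · y) : s y = _) ▸ b y⟩⟩
  · obtain ⟨y, t, ht, rfl⟩ := (h.mem_gr r).1 hz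
    have d : (l, fun j => (∏ i, t i ^ ch.wd j i) * ev _ y (c j)) ∈ F.cone :=
      mem_of_eq_of_mem (Prod.ext (F.actL_one _).symm (funext fun j => by
        simp [Wt.actT, prod_prod_zpow ht, hl])) (hF.cone_act (t := (1, fun r => ∏ i, t i ^ ℓ r i))
          (Prod.isUnit_iff.2 ⟨isUnit_one, isUnit_pi_iff.2 fun _ => prod_zpow_ne ht _⟩) (b y))
    exact ⟨_, d.2, fun j => LinearMap.congr_fun (yv_ind r hn a y ht j)⟩

end Vale.Agent.P269.Edg
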