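import Vale.Agent.P269.Edg.Zt
import Vale.Agent.P269.Edg.Sec
import Vale.Agent.P269.Vir.Sd

/-!
# The family of the edges of a given type
-/

set_option linter.unusedSectionVars false

namespace Vale.Agent.P269.Edg

open Set Function Topology Filter Module Cv Base Ch P1 Loc Holo LG B Tq Mono
open OnePoint hiding some map_smul
open Vale.Agent.P269.Orb

variable {R J K σ ν : Type} [Fintype R] [Fintype J] [Fintype K] [Fintype σ] [Fintype ν]
  [DecidableEq R] [DecidableEq σ] {e : Edge σ} {s t : En ν}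

variable {Y : HO}

/-- the chart of the maps of the degree of an edge -/
structure Ed (P : PB R J K σ) (e : Edge σ) (s t : En ν) (h : TH σ Y) (k : KP Y.toSp)
    (ch : Ch (Option (Option R)) (J ⊕ σ)) extends Prs Y ch (Mk ν (Fin 0)) where
  /-- the origin -/
  x₀ : ch.W (Mk ν (Fin 0))
  /-- the degrees of the tests -/
  eK : K → Option (Option R) → ℕ
  /-- the embedding of the presentation -/
  i : k.P.W →ₗ[ℂ] ch.P K
  ends : Ends s t
  tg : P.F.Tg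
  inv : (P.E ∅).Inv
  gz : Gz ch (Mk ν (Fin 0))
  num : Num₀ ch
  std : Std x₀ (qE s)
  zero : x₀.X = 0
  wd : ∀ j, ch.wd j = Tgt.hat (P.w j)
  m : ∀ o, ch.m (some o) = ch.m none + edD R e o
  b : ∀ u v, μ (h.b u v) = scl (Sum.elim 1 fun l => (u l : ℂ)) (μ v)
  fits : ch.Fits (P.E ∅) eK
  inj : Injective i
  range : LinearMap.range i = ch.polF (P.E ∅) eK
  sec : ∀ y, i (k.s y) = sctF (P.E ∅) eK (Empty.elim, μ (Y.ι y))
  van : ∀ y w, w ∈ k.van y ↔ i w ∈ vanM (P.E ∅) eK (Empty.elim, μ (Y.ι y))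
  zs : ∀ y, y ∈ k.Zs ↔ (Empty.elim, μ (Y.ι y)) ∈ ch.solF ν (Fin 0) (P.E ∅)
  all : ∀ x, (Empty.elim, x) ∈ ch.solF ν (Fin 0) (P.E ∅) → ∃ y, μ (Y.ι y) = x
  rk : ∀ y ∈ k.Zs, (k.r : ℤ) = ch.rk (P.E ∅) ℓs univ

variable {P : PB R J K σ}

theorem ev_at0 (d : ℕ) (c : Fin (d + 1) → ℂ) : ev (d + 1) (0 : ℂ) c = c 0 := by
  simp [ev_apply, Fin.sum_univ_succ]

namespace Ed

variable {h : TH σ Y} {k : KP Y.toSp} {ch : Ch (Option (Option R)) (J ⊕ σ)}
  (E : Ed P e s t h k ch)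

include E in
theorem sum_m (w : Option R → ℤ) : ∑ i, Tgt.hat w i * ch.m i = w none * (e.deg + 1) := by
  rw [Fintype.sum_option]
  simp only [E.m, mul_add, Finset.sum_add_distrib, Tgt.hat, Option.elim, ← Finset.sum_mul, neg_mul,
    neg_add_cancel_left]
  simp [Fintype.sum_option, edD, mul_add]

include E in
theorem dg : Dg ch (nE J e) := by
  refine ⟨fun j => ?_, by rintro (_ | _) <;> exact Nat.succ_ne_zero _⟩
  rw [E.wd, E.sum_m]
  cases j <;> simp [nE, PB.w, add_assoc]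

include E in
theorem abs : P.F.Abs := ⟨fun _ a => (a (E.tg.mov ▸ trivial)).elim, E.tg.E⟩

include E in
theorem mov : (P.E ∅).mov = univ := eq_univ_of_forall fun j => by
  cases j
  exacts [E.tg.mov.ge trivial, id]

theorem b' (u : Tor σ) (v : Y.A) : E.μ (h.b u v) =
    scl (fun j => (chr (Sum.elim 0 (fun l => Pi.single l 1) j : σ → ℤ) u : ℂ)) (E.μ v) :=
  (E.b u v).trans (congrArg (scl · _) (funext fun j => by
    cases j
    exacts [(congrArg Units.val (Loc.chr_zero u)).symm, (congrArg Units.val (chr_single _ u)).symm]))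

/-- the slice -/
@[reducible] noncomputable def sl : Sl h ch (Mk ν (Fin 0)) where
  toPrs := E.toPrs
  q := qE s
  x₀ := E.x₀
  w := P.w
  wt := Sum.elim 0 fun l => Pi.single l 1
  n := nE J e
  m := e.deg + 1
  wa := Pi.single e.src 1 - Pi.single e.tgt 1
  wT o := o.elim (-((e.deg + 1) • Pi.single e.src 1)) fun _ => 0
  hm := e.deg.succ_ne_zero
  gz := E.gz
  num := E.num
  std := E.std
  zero := E.zero
  hq := qE_mem
  ne h := by simpa [e.ne] using congrFun h e.src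
  wd := E.wd
  dg := E.dg
  b := E.b'

theorem wgt_inl (j : J) : E.sl.wgt (.inl j) 0 = 0 := by
  simp [Sl.wgt, Fintype.sum_option, PB.w]

theorem wgt_inr (l : σ) (a : ℕ) : E.sl.wgt (.inr l) a = (e.deg + 1) • (Pi.single l 1 -
    Pi.single e.src 1) - a • (Pi.single e.tgt 1 - Pi.single e.src 1) := by
  simp only [Sl.wgt, Fintype.sum_option, PB.w, Sum.elim_inr, Option.elim, smul_zero, one_smul,
    Finset.sum_const_zero, add_zero, smul_sub]
  abel

theorem wgt_ne (l : σ) (a : ℕ) : E.sl.wgt (.inr l) a ≠ 0 ↔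
    (l, a) ≠ (e.tgt, e.deg + 1) ∧ (l, a) ≠ (e.src, 0) := by
  have n := e.ne
  rw [wgt_inr]
  refine ⟨fun f => ⟨fun g => f ?_, fun g => f ?_⟩, fun ⟨f, g⟩ c => ?_⟩
  · cases g
    exact sub_self _
  · cases g
    simp
  · have := congrFun c l
    by_cases d : l = e.src
    · simp [d, n] at this g
      exact g this
    · by_cases d' : l = e.tgt
      · simp [d', n.symm] at this f
        omega
      · simp [d, d'] at this
        omega

theorem range_fE (x : Σ j, Fin (nE J e j)) : x ∈ Set.range (fE J) ↔ E.sl.wgt x.1 x.2 ≠ 0 := by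
  obtain ⟨j | l, a⟩ := x
  · refine iff_of_false (fun ⟨_, f⟩ => Sum.inr_ne_inl (congrArg Sigma.fst f)) (not_not.2 ?_)
    rw [show (a : ℕ) = 0 from Nat.lt_one_iff.1 a.2, wgt_inl]
  · refine Iff.trans ⟨fun ⟨y, f⟩ => ?_, fun f => ⟨⟨(l, a), Finset.mem_erase.2 ⟨f.1,
      Finset.mem_erase.2 ⟨f.2, Finset.mem_product.2 ⟨Finset.mem_univ _, Finset.mem_range.2 a.2⟩⟩⟩⟩,
        rfl⟩⟩ (E.wgt_ne l a).symm
    cases f
    exact ⟨Finset.ne_of_mem_erase y.2, Finset.ne_of_mem_erase (Finset.mem_of_mem_erase y.2)⟩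

include E in
theorem mem_sol {x : ch.W (Mk ν (Fin 0))} (a : Std x (qE s)) :
    (Empty.elim, x) ∈ ch.solF ν (Fin 0) (P.E ∅) ↔ ∃ c : Co (nE J e), x.X = ind ch (nE J e) c ∧
      ∀ y, (Empty.elim, fun j => ev _ y (c j)) ∈ (P.E ∅).cone :=
  mem_solF E.gz E.dg a (fun j => E.wd j ▸ sum_hat _) E.inv fun j i => E.wd j ▸ (Fam.sum_ℓs _ i).symm

theorem sol_pt (z : Zt P e) :
    (Empty.elim, E.μ (E.sl.a + E.sl.vec (coE z))) ∈ ch.solF ν (Fin 0) (P.E ∅) :=
  (E.mem_sol (E.sl.std_pt _).1).2 ⟨_, (E.sl.std_pt _).2, coE_mem E.tg z⟩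

theorem exists_pt (z : Zt P e) : ∃ y : E.sl.red.T, Y.ι y.1 = E.sl.a + E.sl.vec (coE z) := by
  obtain ⟨y, a⟩ := E.all _ (E.sol_pt z)
  replace a := E.μ.injective a
  refine ⟨⟨y, E.sl.sub_mem.2 ((congrArg (fun v => Std (E.μ v) _) a).mpr (E.sl.std_pt _).1),
    (E.sl.mem_fx a).2 ?_⟩, a⟩
  rintro (j | l) b f
  · exact (f ((congrArg _ (Nat.lt_one_iff.1 b.2)).trans (E.wgt_inl j))).elim
  · obtain ⟨f, g⟩ := (E.wgt_ne l b).1 f
    exact (if_neg fun c => g (Prod.ext c.1 c.2)).trans (if_neg fun c => f (Prod.ext c.1 c.2))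

/-- the point of the chart -/
noncomputable def jz (z : Zt P e) : E.sl.red.T := (E.exists_pt z).choose

theorem ι_jz (z : Zt P e) : Y.ι (E.jz z).1 = E.sl.a + E.sl.vec (coE z) :=
  (E.exists_pt z).choose_spec

theorem range_jz (y : E.sl.red.T) : y ∈ Set.range E.jz ↔ y.1 ∈ k.Zs := by
  refine ⟨fun ⟨z, a⟩ => a ▸ (E.zs _).2 (E.ι_jz z ▸ E.sol_pt z), fun a => ?_⟩
  have b := E.sl.sub_mem.1 y.2.1
  obtain ⟨c, a1, a2⟩ := (E.mem_sol b).1 ((E.zs _).1 a)
  have f := E.sl.eq_pt b a1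
  have g := fun l a w => (E.sl.mem_fx f).1 y.2.2 (.inr l) a ((E.wgt_ne l a).2 w)
  obtain ⟨-, -, ⟨l, u⟩, -⟩ := (PB.mem_cone E.tg.B E.abs).1 (a2 (0 : ℂ))
  obtain ⟨-, v, ⟨l', u'⟩, -⟩ := (PB.mem_cone E.tg.B E.abs).1 (a2 ∞)
  replace u : c (.inr l) ⟨0, Nat.succ_pos _⟩ ≠ 0 := (ev_at0 _ _).symm.trans_ne u
  replace u' : c (.inr l') (Fin.last _) ≠ 0 := (ev_infty _ _).symm.trans_ne u'
  obtain rfl : l = e.src := by_contra fun d => u (g _ _ ⟨by simp, by simp [d]⟩)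
  obtain rfl : l' = e.tgt := by_contra fun d => u' (g _ _ ⟨by simp [d], by simp⟩)
  refine ⟨(Holo.Sp.of _ _ v, .mk0 _ u, .mk0 _ u'), Subtype.ext (Y.emb.injective
    ((E.ι_jz _).trans ((congrArg _ (congrArg _ (funext₂ ?_))).trans f.symm)))⟩
  rintro (j | l) a
  · exact (ev_infty 0 _).trans (congrArg _ (Fin.ext (Nat.lt_one_iff.1 a.2).symm))
  · change ite _ _ (ite _ _ _) = _
    split_ifs with d d'
    · obtain ⟨rfl, d⟩ := d
      exact congrArg _ (Fin.ext d.symm)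
    · obtain ⟨rfl, d'⟩ := d'
      exact congrArg _ (Fin.ext d'.symm)
    · exact (g l a ⟨fun w => d' (Prod.ext_iff.1 w), fun w => d (Prod.ext_iff.1 w)⟩).symm

theorem std_jz (z : Zt P e) : Std (E.x (E.jz z).1) (qE s) ∧
    (E.x (E.jz z).1).X = ind ch (nE J e) (coE z) := by
  rw [show E.x (E.jz z).1 = _ from congrArg E.μ (E.ι_jz z)]
  exact E.sl.std_pt _

/-- the virtual dimension -/
theorem dim_eq (z : Zt P e) : Fintype.card J - Fintype.card K - Fintype.card R + k.r +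
    Fintype.card (ιK e) = Y.n + Fintype.card E.sl.ιS := by
  have a1 := Ch.vdim_eq (F := P.E ∅) (ℓ := ℓs) (K₀ := univ) (b := 0)
    (x := (Empty.elim, E.x (E.jz z).1)) E.num.a_ne (E.mem _) 0
  have a2 := E.toPrs.dim E.num (E.jz z).1
  have a3 := E.rk _ ((E.range_jz _).1 ⟨z, rfl⟩)
  have a4 := E.sl.card_ιS
  have a5 := card_ιK (e := e)
  have a6 := E.tg.card_le ⟨_, z.1.val_mem⟩
  have a7 : ∀ j, ch.eu (ch.wd j) = nE J e j := fun j => by rw [Ch.eu, E.gz.g, E.dg.eq, sub_zero]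
  have a8 : ∀ q, ch.eu ((P.E ∅).dk ℓs q) = 1 := fun q => by
    rw [Ch.eu, show (P.E ∅).dk ℓs q = _ from funext (Fam.sum_ℓs _), E.sum_m, E.gz.g]
    simp
  rw [E.dθ.toLinearEquiv.finrank_eq, finrank_A] at a2
  rw [Ch.vdim, Ch.dimM, E.mov] at a1
  simp only [finrank_AF, a7, a8, E.gz.g, ← a2, ← a3, nE] at a1
  simp [Fintype.sum_sum_type] at a1 a4
  have a9 := congrArg (Nat.cast : ℕ → ℤ) a5
  push_cast at a9
  omega

variable [FP P.F.actT P.F.cone]

/-- the family of the edges -/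
@[reducible] noncomputable def zd : Zd E.sl.red k P.X where
  Z := Zt P e
  j := E.jz
  π := πE
  emb := (Y.emb.comp IsEmbedding.subtypeVal).of_comp_iff.1 ((congrArg _ (funext E.ι_jz)).mpr
    ((Homeomorph.addLeft E.sl.a).isEmbedding.comp ((LinearMap.isClosedEmbedding_of_injective
      (LinearMap.ker_eq_bot.2 E.sl.vec_injective)).isEmbedding.comp isEmbedding_coE)))
  eqv g z := Subtype.ext (Y.emb.injective (by
    rw [E.ι_jz, Red.val_smul, Y.eqv, E.ι_jz, smul_add, coE_smul]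
    exact congrArg₂ _ (E.sl.r_a g).symm (E.sl.smul_vec g _).symm))
  rng := E.range_jz
  quo := isQuo_πE

theorem exists_sec : ∃ (Φ : Y.A → k.P.W) (V : Submodule ℂ k.P.W), Sec E.sl.red k Φ V ∧
    (∀ z, ∀ u ∈ E.sl.Fl ⊓ V.comap (E.zd.d Φ z), ∃ c, E.sl.vec c = u) ∧
    (∀ z x, E.sl.mono (fE J x) ∈ E.sl.Fl ⊓ V.comap (E.zd.d Φ z)) ∧
    ∀ z, finrank ℂ (E.sl.Fl ⊓ V.comap (E.zd.d Φ z) : Submodule ℂ Y.A) ≤
      finrank ℂ (ℂ × (Option R → ℂ)) + (Fintype.card J - Fintype.card K - Fintype.card R) +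
        Fintype.card (ιK e) := by
  obtain ⟨Φ, h1, h2⟩ := exists_an (ν := ν) (κ := Fin 0) E.fits Empty.elim E.inj E.range
  have v : ∀ z u, u ∈ ((vanM (P.E ∅) E.eK (Empty.elim, E.x₀)).comap E.i).comap
      (E.zd.d (Φ ∘ E.μ) z) ↔ E.i (fderiv ℂ Φ (E.x (E.jz z).1) (E.μ u)) ∈
        vanM (P.E ∅) E.eK (Empty.elim, E.x (E.jz z).1) := fun z u => by
    rw [vanM_eq (E.std_jz z).1 E.std, Zd.d, E.μ.comp_right_fderiv]
    rfl
  have w : ∀ z, ∀ u ∈ E.sl.Fl ⊓ ((vanM (P.E ∅) E.eK (Empty.elim, E.x₀)).comap E.i).comap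
      (E.zd.d (Φ ∘ E.μ) z), ∃ c, E.sl.vec c = u ∧ ∀ q, ∑ j, (P.E ∅).jac
        (Empty.elim, fun j => ev _ ∞ (coE z j)) q j * ev _ ∞ (c j) = 0 := fun z u ⟨⟨X, a⟩, b⟩ =>
    let ⟨c, d, f⟩ := exists_of_van E.gz E.dg E.fits E.mov h1 h2 (E.std_jz z).1 (E.std_jz z).2
      (X := X) ((congrArg (fun y => E.i (fderiv ℂ Φ _ y) ∈ _) a).mpr ((v z u).1 b))
    ⟨c, E.μ.injective ((E.sl.μ_vec c).trans (d ▸ a)), f ∞⟩
  refine ⟨Φ ∘ E.μ, (vanM (P.E ∅) E.eK (Empty.elim, E.x₀)).comap E.i, ⟨fun t _ =>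
    (h1 _).comp (E.μ.analyticAt _), fun t _ => E.inj ((E.sec t).trans (h2 _).symm),
    fun t ht => Submodule.ext fun w => (E.van t w).trans (by
      rw [vanM_eq (E.sl.sub_mem.1 ht) E.std]; rfl)⟩, fun z u a => (w z u a).imp fun _ a => a.1,
    fun z x => ⟨E.sl.vec_mem _, (v z _).2 ?_⟩, fun z : Zt P e => ?_⟩
  · rw [show E.μ (E.sl.mono (fE J x)) = _ from E.sl.μ_vec _]
    refine mem_van E.gz E.dg E.fits E.mov h1 h2 (E.std_jz z).1 (E.std_jz z).2
      (fun v => E.range.le ⟨v, rfl⟩) ?_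
    rintro (j | l)
    exacts [.inl (@Pi.single_eq_of_ne _ _ _ (_) _ _ Sum.inl_ne_inr _), .inr fun _ _ => PB.jac_inr _ _ _]
  · let L : Co (nE J e) →ₗ[ℂ] K → ℂ := LinearMap.pi fun q => ∑ j, (P.E ∅).jac
      (Empty.elim, fun j => ev _ ∞ (coE z j)) q j • (ev _ ∞).toLinearMap ∘ₗ LinearMap.proj j
    have l : ∀ c q, L c q = ∑ j, (P.E ∅).jac (Empty.elim, fun j => ev _ ∞ (coE z j)) q j *
        ev _ ∞ (c j) := fun c q => by simp [L]
    have a1 := L.finrank_range_add_finrank_ker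
    have a2 : LinearMap.range L = ⊤ := LinearMap.range_eq_top.2 fun c => by
      obtain ⟨η, -, a⟩ := (PB.reg E.tg.B E.abs E.tg.reg).ind _ (coE_mem E.tg z ∞) c
      refine ⟨fun j _ => η j, funext fun q => (l _ q).trans (.trans (Finset.sum_congr rfl ?_)
        (a q trivial))⟩
      rintro (j | j) - <;> exact congrArg _ (ev_infty _ _)
    have a3 := (Submodule.finrank_mono (fun u a => let ⟨c, d, f⟩ := w z u a
      ⟨c, funext fun q => (l c q).trans (f q), d⟩ : _ ≤ (LinearMap.ker L).map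
        E.sl.vec.toLinearMap)).trans (Submodule.finrank_map_le _ _)
    have a5 := card_ιK (e := e)
    have a6 := E.tg.card_le ⟨_, z.1.val_mem⟩
    have a7 : finrank ℂ (Co (nE J e)) = Fintype.card J + Fintype.card σ * (e.deg + 2) := by
      rw [finrank_pi_fintype, Finset.sum_congr rfl fun j _ => finrank_fin_fun ℂ (n := nE J e j)]
      simp [nE]
    rw [a2, a7, finrank_top, finrank_fintype_fun_eq_card] at a1
    refine a3.trans ?_
    rw [finrank_prod, finrank_self, finrank_fintype_fun_eq_card, Fintype.card_option]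
    change finrank ℂ (LinearMap.ker L) ≤ _
    omega

end Ed

end Vale.Agent.P269.Edg
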