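import Vale.Agent.P269.Loc.Wb

/-!
# Equivariant Euler classes of the moving parts in exact sequences
-/

set_option linter.unusedSectionVars false

namespace Vale.Agent.P269.Edg

open Set Function Topology Filter Module TensorProduct Vale.Agent.P291Z Vale.Agent.P269.Ch
  Vale.Agent.P269.Orb Vale.Agent.P269.Loc Submodule

variable {σ ι : Type} [Fintype σ] [Fintype ι]

section lin

variable {V₁ V : Type} [AddCommGroup V₁] [Module ℂ V₁] [FiniteDimensional ℂ V₁] [AddCommGroup V]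
  [Module ℂ V] [FiniteDimensional ℂ V] {τ₁ : Tor σ →* End ℂ V₁} {τ : Tor σ →* End ℂ V}
  {U₁ : Submodule ℂ V₁} {U₂ U K : Submodule ℂ V} {f : V₁ →ₗ[ℂ] V}

theorem finrank_sup_map (U₁ : Submodule ℂ V₁) (U₂ : Submodule ℂ V) (f : V₁ →ₗ[ℂ] V) :
    finrank ℂ (U₂ ⊔ U₁.map f : Submodule ℂ V) + finrank ℂ (U₁ ⊓ U₂.comap f : Submodule ℂ V₁) =
      finrank ℂ U₁ + finrank ℂ U₂ := by
  have h1 := finrank_sup_add_finrank_inf_eq U₂ (U₁.map f)
  have h2 := finrank_inf_ker U₁ f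
  have h3 := finrank_inf_ker (U₁ ⊓ U₂.comap f) f
  rw [← map_inf_eq_map_inf_comap, inf_comm, inf_assoc, inf_eq_right.2 (LinearMap.ker_le_comap f)]
    at h3
  omega

/-- `U` is the sum of `U₂` and the image of `U₁`, compatibly with the torus -/
structure GS (τ₁ : Tor σ →* End ℂ V₁) (τ : Tor σ →* End ℂ V) (U₁ : Submodule ℂ V₁)
    (U₂ U : Submodule ℂ V) (f : V₁ →ₗ[ℂ] V) : Prop where
  w₁ : Wtd τ₁
  w : Wtd τ
  inv₁ : ∀ s, ∀ v ∈ U₁, τ₁ s v ∈ U₁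
  inv₂ : ∀ s, ∀ v ∈ U₂, τ s v ∈ U₂
  mem_wsp : ∀ {w v}, v ∈ U₁ ⊓ wsp τ₁ w → f v ∈ wsp τ w
  sup : U = U₂ ⊔ U₁.map f

namespace GS

variable (h : GS τ₁ τ U₁ U₂ U f)
include h

theorem wpr_mem (w : σ → ℤ) {v : V₁} (hv : v ∈ U₁) : wpr τ₁ w v ∈ U₁ ⊓ wsp τ₁ w :=
  ⟨h.w₁.wpr_mem_of_gen (h.inv₁ _) w hv, h.w₁.wpr_mem w v⟩

theorem map_wpr (w : σ → ℤ) {v : V₁} (hv : v ∈ U₁) : f (wpr τ₁ w v) = wpr τ w (f v) := by
  classical
  obtain ⟨W, hW⟩ := exists_wts τ₁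
  conv_rhs => rw [← h.w₁.sum_wpr (W := insert w W)
    (fun u hu => hW u fun e => hu (Finset.mem_insert_of_mem e)) v]
  rw [map_sum, map_sum, Finset.sum_eq_single w
    (fun u _ hu => h.w.wpr_of_ne hu (h.mem_wsp (h.wpr_mem u hv))) (by simp),
    h.w.wpr_of_mem (h.mem_wsp (h.wpr_mem w hv))]

theorem sup_wsp (w : σ → ℤ) : U ⊓ wsp τ w = U₂ ⊓ wsp τ w ⊔ (U₁ ⊓ wsp τ₁ w).map f := by
  rw [h.sup]
  refine le_antisymm (fun x hx => ?_) (sup_le (inf_le_inf_right _ le_sup_left) ?_)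
  · obtain ⟨u, hu, _, ⟨v, hv, rfl⟩, rfl⟩ := mem_sup.1 hx.1
    rw [← h.w.wpr_of_mem hx.2, map_add, ← h.map_wpr w hv]
    exact add_mem_sup ⟨h.w.wpr_mem_of_gen (h.inv₂ _) w hu, h.w.wpr_mem w u⟩
      ⟨_, h.wpr_mem w hv, rfl⟩
  · rintro _ ⟨v, hv, rfl⟩
    exact ⟨mem_sup_right ⟨v, hv.1, rfl⟩, h.mem_wsp hv⟩

theorem finrank (w : σ → ℤ) : finrank ℂ (U ⊓ wsp τ w : Submodule ℂ V) +
    finrank ℂ (U₁ ⊓ U₂.comap f ⊓ wsp τ₁ w : Submodule ℂ V₁) =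
      finrank ℂ (U₁ ⊓ wsp τ₁ w : Submodule ℂ V₁) + finrank ℂ (U₂ ⊓ wsp τ w : Submodule ℂ V) := by
  rw [h.sup_wsp, show U₁ ⊓ U₂.comap f ⊓ wsp τ₁ w = _ from le_antisymm
    (fun v hv => ⟨⟨hv.1.1, hv.2⟩, hv.1.2, h.mem_wsp ⟨hv.1.1, hv.2⟩⟩)
    fun v (hv : v ∈ U₁ ⊓ wsp τ₁ w ⊓ (U₂ ⊓ wsp τ w).comap f) => ⟨⟨hv.1.1, hv.2.1⟩, hv.1.2⟩]
  exact finrank_sup_map ..

end GS

/-- a basis of weight vectors of the moving part of `K` -/
structure MF (τ : Tor σ →* End ℂ V) (K : Submodule ℂ V) (wt : ι → σ → ℤ) (v : ι → V) : Prop where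
  li : LinearIndependent ℂ v
  mem : ∀ i, v i ∈ K
  wsp : ∀ i, v i ∈ wsp τ (wt i)
  span : ∀ u ∈ K, ∃ u₀ ∈ Loc.wsp τ 0, u - u₀ ∈ span ℂ (range v)

variable {wt : ι → σ → ℤ} {v : ι → V}

theorem MF.inf_eq (h : MF τ K wt v) (hw : Wtd τ) {w : σ → ℤ} (h0 : w ≠ 0) :
    K ⊓ Loc.wsp τ w = Submodule.span ℂ (range fun i : {i // wt i = w} => v i) := by
  refine le_antisymm (fun u hu => ?_) (span_le.2 ?_)
  · obtain ⟨u₀, h1, h2⟩ := h.span u hu.1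
    obtain ⟨c, hc⟩ := (mem_span_range_iff_exists_fun ℂ).1 h2
    rw [← hw.wpr_of_mem hu.2, ← sub_zero (wpr τ w u), ← hw.wpr_of_ne h0.symm h1, ← map_sub, ← hc,
      map_sum]
    refine sum_mem fun i _ => ?_
    rw [map_smul]
    by_cases e : wt i = w
    · rw [hw.wpr_of_mem (e ▸ h.wsp i)]
      exact smul_mem _ _ (subset_span ⟨⟨i, e⟩, rfl⟩)
    · rw [hw.wpr_of_ne e (h.wsp i), smul_zero]
      exact zero_mem _
  · rintro _ ⟨⟨i, rfl⟩, rfl⟩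
    exact ⟨h.mem i, h.wsp i⟩

theorem MF.finrank (h : MF τ K wt v) (hw : Wtd τ) {w : σ → ℤ} (h0 : w ≠ 0) :
    finrank ℂ (K ⊓ Loc.wsp τ w : Submodule ℂ V) = Nat.card {i // wt i = w} := by
  classical
  rw [h.inf_eq hw h0, Nat.card_eq_fintype_card]
  exact finrank_span_eq_card (h.li.comp _ Subtype.val_injective)

/-- the rank of the fixed part is determined by the other ranks -/
theorem finrank_wsp_eq (hw : Wtd τ) {U U' : Submodule ℂ V} (h : ∀ s, ∀ v ∈ U, τ s v ∈ U)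
    (h' : ∀ s, ∀ v ∈ U', τ s v ∈ U') (e : finrank ℂ U = finrank ℂ U')
    (e' : ∀ w ≠ 0, finrank ℂ (U ⊓ wsp τ w : Submodule ℂ V) =
      finrank ℂ (U' ⊓ wsp τ w : Submodule ℂ V)) (w : σ → ℤ) :
    finrank ℂ (U ⊓ wsp τ w : Submodule ℂ V) = finrank ℂ (U' ⊓ wsp τ w : Submodule ℂ V) := by
  classical
  by_cases h0 : w = 0
  · subst h0
    obtain ⟨W, hW⟩ := exists_wts τ
    have hW' : ∀ u ∉ insert 0 W, wsp τ u = ⊥ := fun u hu =>
      hW u fun e => hu (Finset.mem_insert_of_mem e)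
    rw [finrank_eq_sum hw hW' fun w v hv => hw.wpr_mem_of_gen (h _) w hv,
      finrank_eq_sum hw hW' fun w v hv => hw.wpr_mem_of_gen (h' _) w hv,
      ← Finset.add_sum_erase _ _ (Finset.mem_insert_self _ _),
      ← Finset.add_sum_erase _ _ (Finset.mem_insert_self _ _),
      Finset.sum_congr rfl fun u hu => e' u (Finset.ne_of_mem_erase hu)] at e
    exact Nat.add_right_cancel e
  · exact e' w h0

end lin

variable {F : Ch.Sp} {E₁ E₂ E : VB F} {b₁ : TV (TS.triv σ F) E₁} {b₂ : TV (TS.triv σ F) E₂}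
  {b : TV (TS.triv σ F) E}

theorem nonempty_rk (hw : Wtd b.b) (h : ∀ w t t', finrank ℂ (E.F t ⊓ wsp b.b w : Submodule ℂ E.W) =
    finrank ℂ (E.F t' ⊓ wsp b.b w : Submodule ℂ E.W)) : Nonempty b.Rk := by
  classical
  obtain ⟨W, hW⟩ := exists_wts b.b
  refine ⟨⟨fun w => ⨆ t, finrank ℂ (E.F t ⊓ wsp b.b w : Submodule ℂ E.W), W.erase 0, hw,
    fun w t => ?_, Finset.notMem_erase _ _, fun w h1 h2 => ?_⟩⟩
  · have : Nonempty F.T := ⟨t⟩
    exact ((congrArg iSup (funext fun t' => h w t' t)).trans ciSup_const).symm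
  · refine Nat.le_zero.1 (ciSup_le' fun t => ?_)
    rw [hW w fun e => h1 (Finset.mem_erase.2 ⟨h2, e⟩), inf_bot_eq, finrank_bot]

theorem eqc_eq (k : b.Rk) (m : ℕ) {W : Finset (σ → ℤ)} (h : k.W ⊆ W) (h0 : 0 ∉ W) :
    k.eqc m = ∏ w ∈ W, ew _ m w (k.wb w).chern :=
  Finset.prod_subset h fun w hw hw' => by
    rw [(k.wb w).chern_zero (k.out w hw' fun e => h0 (e ▸ hw)), map_one]

theorem chern_mul {B : F.T → E₁.W →ₗ[ℂ] E.W} (hB : Hom (Mor.id F) E₁ E B) (e : E₂.W ≃ₗ[ℂ] E.W)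
    (e1 : ∀ (g : F.G) w, e (g • w) = g • e w)
    (e2 : ∀ t, E.F t = (E₂.F t).map e.toLinearMap ⊔ (E₁.F t).map (B t))
    {χ : ι → F.G →ₜ* ℂˣ} {v : ι → F.T → E₁.W} (cont : ∀ i, Continuous (v i))
    (eqv : ∀ i (g : F.G) t, g • v i t = (χ i g : ℂ) • v i (g • t))
    (li : ∀ t, LinearIndependent ℂ fun i => v i t)
    (sp : ∀ t, E₁.F t ⊓ ((E₂.F t).map e.toLinearMap).comap (B t) = span ℂ (range fun i => v i t)) :
    E₁.chern * E₂.chern = (∏ i, (Polynomial.X + Polynomial.C (c1 (χ i)))) * E.chern := by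
  let K := E₁.sub (fun t => span ℂ (range fun i => v i t)) (Fintype.card ι) (by
      simp only [← sp]
      exact isClosed_of_closure_subset fun x hx => by
        have h1 := closure_minimal (fun _ h => And.left h) E₁.closed hx
        obtain ⟨l, l1, l2⟩ := mem_closure_iff_ultrafilter.1 hx
        have h2 := (hB.continuous_clm.comp continuous_fst).clm_apply continuous_snd
        refine ⟨h1, e.symm (B x.1 x.2), E₂.closed.mem_of_tendsto (f := fun y : F.T × E₁.W =>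
          (y.1, e.symm (hB.clm y.1 y.2))) (b := l) (x := (x.1, _)) (hB.clm_eq h1 ▸
            ((continuous_fst.prodMk (e.symm.toLinearMap.continuous_of_finiteDimensional.comp
              h2)).tendsto x).mono_left l2) (mem_of_superset l1 fun y hy => ?_), e.apply_symm_apply _⟩
        obtain ⟨u, h3, h4⟩ := hy.2
        rw [mem_ofPred_eq, hB.clm_eq hy.1, ← h4]
        exact (e.symm_apply_apply u).symm ▸ h3)
    (fun t => finrank_span_eq_card (li t)) fun g t w hw => by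
      rw [← sp] at hw ⊢
      obtain ⟨u, h3, h4⟩ := hw.2
      exact ⟨E₁.inv g t w hw.1, g • u, E₂.inv g t u h3,
        (e1 g u).trans ((congrArg (g • ·) h4).trans (hB.eqv g t w hw.1).symm)⟩
  have m : ∀ t, ∀ w ∈ K.F t, w ∈ E₁.F t ∧ e.symm (B t w) ∈ E₂.F t := fun t w hw =>
    let ⟨h1, u, h2, h3⟩ := (sp t).ge hw
    ⟨h1, h3 ▸ (e.symm_apply_apply u).symm ▸ h2⟩
  have e3 : ∀ (g : F.G) w, e.symm (g • w) = g • e.symm w := fun g w =>
    e.injective (by rw [e1, e.apply_symm_apply, e.apply_symm_apply])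
  rw [← (show Fr K χ v from ⟨cont, eqv, li, fun _ => rfl⟩).chern, ← VB.chern_sum]
  refine Exact.chern (A := fun t => LinearMap.id.prod (e.symm.toLinearMap ∘ₗ B t))
    (B := fun t => (B t).coprod (-e.toLinearMap)) ⟨⟨m, ?_, fun g t w hw => Prod.ext rfl ?_⟩,
      ⟨fun t w hw => (e2 t).ge (add_mem (mem_sup_right ⟨_, hw.1, rfl⟩)
        (mem_sup_left (neg_mem ⟨_, hw.2, rfl⟩))), ?_, fun g t w hw => ?_⟩,
      fun t w _ h => congrArg Prod.fst h, fun t w hw => ?_, fun t w hw => ⟨fun h => ?_, ?_⟩⟩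
  · exact (continuous_snd.comp continuous_subtype_val).prodMk
      (e.symm.toLinearMap.continuous_of_finiteDimensional.comp (hB.continuous (by fun_prop)
        (by fun_prop) fun x : K.V => (m _ _ x.2).1))
  · exact (congrArg e.symm (hB.eqv g t w (m t w hw).1)).trans (e3 g _)
  · exact (hB.continuous (by fun_prop) (by fun_prop) fun x : (E₁.sum E₂).V => x.2.1).add
      (e.toLinearMap.continuous_of_finiteDimensional.comp (by fun_prop)).neg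
  · change B (g • t) (g • w.1) + -e (g • w.2) = g • (B t w.1 + -e w.2)
    rw [hB.eqv g t _ hw.1, e1, smul_add, smul_neg]
    rfl
  · obtain ⟨_, ⟨u, h1, rfl⟩, _, ⟨x, h2, rfl⟩, rfl⟩ := mem_sup.1 ((e2 t).le hw)
    exact ⟨(x, -u), ⟨h2, neg_mem h1⟩, by simp [add_comm]⟩
  · have h1 : e w.2 = B t w.1 := (add_neg_eq_zero.1 h).symm
    exact ⟨w.1, (sp t).le ⟨hw.1, _, hw.2, h1⟩, Prod.ext rfl (e.symm_apply_eq.2 h1.symm)⟩
  · rintro ⟨u, -, rfl⟩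
    simp

/-- **the moving parts in an exact sequence** `0 → K → E₁ ⊕ E₂ → E → 0` -/
theorem eqc_mul (k₁ : b₁.Rk) (k₂ : b₂.Rk) (k : b.Rk) {B : F.T → E₁.W →ₗ[ℂ] E.W}
    (hB : Hom (Mor.id F) E₁ E B) (e : E₂.W ≃ₗ[ℂ] E.W) (e1 : ∀ (g : F.G) w, e (g • w) = g • e w)
    (e2 : ∀ s w, e (b₂.b s w) = b.b s (e w))
    (hG : ∀ t, GS b₁.b b.b (E₁.F t) ((E₂.F t).map e.toLinearMap) (E.F t) (B t))
    {wt : ι → σ → ℤ} (h0 : ∀ i, wt i ≠ 0) {χ : ι → F.G →ₜ* ℂˣ} {v : ι → F.T → E₁.W}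
    (cont : ∀ i, Continuous (v i)) (eqv : ∀ i (g : F.G) t, g • v i t = (χ i g : ℂ) • v i (g • t))
    (hv : ∀ t, MF b₁.b (E₁.F t ⊓ ((E₂.F t).map e.toLinearMap).comap (B t)) wt fun i => v i t)
    (m : ℕ) : k₁.eqc m * k₂.eqc m =
      (∏ i, (((m : ℂ)⁻¹ • lin (wt i)) ⊗ₜ 1 + 1 ⊗ₜ c1 (χ i))) * k.eqc m := by
  classical
  let W := k₁.W ∪ k₂.W ∪ k.W ∪ Finset.univ.image wt
  have hW : 0 ∉ W := by simp [W, k₁.zero, k₂.zero, k.zero, h0]
  have e4 : ∀ t w, (E₂.F t ⊓ wsp b₂.b w).map e.toLinearMap =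
      (E₂.F t).map e.toLinearMap ⊓ wsp b.b w := fun t w => le_antisymm (by
    rintro _ ⟨u, hu, rfl⟩
    exact ⟨⟨u, hu.1, rfl⟩, map_mem_wsp e2 hu.2⟩) (by
    rintro _ ⟨⟨u, hu, rfl⟩, h⟩
    exact ⟨u, ⟨hu, fun s => e.injective (by rw [e2, map_smul]; exact h s)⟩, rfl⟩)
  rw [eqc_eq k₁ m (W := W) (fun _ h => by simp [W, h]) hW,
    eqc_eq k₂ m (W := W) (fun _ h => by simp [W, h]) hW,
    eqc_eq k m (W := W) (fun _ h => by simp [W, h]) hW,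
    ← Finset.prod_fiberwise_of_maps_to (g := wt) (t := W) (fun i _ => by simp [W]),
    ← Finset.prod_mul_distrib, ← Finset.prod_mul_distrib]
  refine Finset.prod_congr rfl fun w hw => ?_
  have w0 : w ≠ 0 := fun e => hW (e ▸ hw)
  rw [← map_mul, chern_mul (E₁ := k₁.wb w) (E₂ := k₂.wb w) (E := k.wb w) (B := B)
    (ι := {i // wt i = w}) ⟨fun t u hu => ⟨hB.mem t u hu.1, (hG t).mem_wsp hu⟩,
      hB.continuous (by fun_prop) (by fun_prop) fun x : (k₁.wb w).V => x.2.1,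
      fun g t u hu => hB.eqv g t u hu.1⟩ e e1 (fun t => by rw [e4]; exact (hG t).sup_wsp w)
    (fun i => cont i) (fun i => eqv i) (fun t => (hv t).li.comp _ Subtype.val_injective)
    (fun t => by
      rw [e4, ← (hv t).inf_eq k₁.wtd w0]
      exact le_antisymm (fun u hu => ⟨⟨hu.1.1, hu.2.1⟩, hu.1.2⟩)
        fun u hu => ⟨⟨hu.1.1, hu.2⟩, hu.1.2, (hG t).mem_wsp ⟨hu.1.1, hu.2⟩⟩), map_mul, map_prod,
    Finset.prod_subtype (p := fun i => wt i = w) _ (by simp)]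
  congr 1
  exact Finset.prod_congr rfl fun i _ => by rw [map_add, ew_X, ew_C, i.2]

end Vale.Agent.P269.Edg
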