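import Vale.Agent.P269.Loc.TH
import Vale.Agent.P269.Loc.Nrm
import Vale.Agent.P269.Orb.TZ
import Vale.Agent.P269.Orb.Vir2
import Vale.Agent.P269.Orb.Brg

/-!
# Unobstructed Kuranishi presentations
-/

set_option linter.unusedSectionVars false

namespace Vale.Agent.P269.Edg

open Set Function Topology Filter Module Asymptotics Vale.Agent.P291Z Vale.Agent.P269.Ch
  Vale.Agent.P269.Holo Vale.Agent.P269.Orb Vale.Agent.P269.Loc

variable {n : ℕ} {X Z : Type} [TopologicalSpace X] [TopologicalSpace Z]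

/-- derivatives of the section lie in the obstruction space -/
theorem deriv_mem_obs {Y : Ch.Sp} (k : KP Y) {B : Type} [NormedAddCommGroup B] [NormedSpace ℂ B]
    {φ : B → Y.T} {u : B → k.P.W} (hφ : ContinuousAt φ 0) (h : φ 0 ∈ k.Zs)
    (hu : ∀ᶠ z in 𝓝 0, u z - k.s (φ z) ∈ k.van (φ z)) (h0 : u 0 = 0) {L : B →L[ℂ] k.P.W}
    (hL : HasFDerivAt u L 0) (v : B) : L v ∈ k.obs (φ 0) := by
  have h1 : HasDerivAt (fun e : ℂ => e • v) v 0 := by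
    simpa using (hasDerivAt_id (0 : ℂ)).smul_const v
  have h2 := (HasFDerivAt.comp_hasDerivAt_of_eq (0 : ℂ) hL h1 (zero_smul _ _).symm).tendsto_slope_zero
  have h3 : Tendsto (fun e : ℂ => e • v) (𝓝[≠] 0) (𝓝 0) :=
    (h1.continuousAt.tendsto.mono_left nhdsWithin_le_nhds).congr' EventuallyEq.rfl |>.trans
      (by rw [zero_smul])
  refine k.cone _ _ h (mem_closure_of_tendsto ((hφ.tendsto.comp h3).prodMk_nhds h2)
    ((h3.eventually hu).mono fun e he => ⟨e⁻¹, ?_⟩))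
  simpa [h0, smul_sub] using (k.van _).smul_mem e⁻¹ he

theorem exists_obs {Y : Ch.Sp} (k : KP Y) {t : Y.T} (ht : t ∈ k.Zs) {Q : k.P.W →ₗ[ℂ] Fin k.r → ℂ}
    (h1 : ∀ w ∈ k.obs t, Q w = 0 → w ∈ k.van t) (h2 : ∀ w ∈ k.van t, Q w = 0) (b : Fin k.r → ℂ) :
    ∃ w ∈ k.obs t, Q w = b := by
  have h3 := finrank_inf_ker (k.obs t) Q
  rw [show k.obs t ⊓ LinearMap.ker Q = k.van t from le_antisymm (fun w hw => h1 w hw.1 hw.2)
    fun w hw => ⟨k.le_obs t ht hw, h2 w hw⟩, k.obs_rank t ht, k.van_rank] at h3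
  have h4 : (k.obs t).map Q = ⊤ := Submodule.eq_top_of_finrank_eq (by
    rw [finrank_fin_fun]; omega)
  exact h4.ge (Submodule.mem_top (x := b))

variable (Y : HO) [MulAction Y.G Z] [ContinuousSMul Y.G Z] {j : Z → Y.T} (hj : IsEmbedding j)
  (he : ∀ (g : Y.G) z, j (g • z) = g • j z) {π : Z → X} (hπ : IsQuo Y.G π) {i : X → Y.X}
  (hi : ∀ z, i (π z) = Y.π (j z))

include hj he hπ hi

theorem gys_model {Y₀ : Ch.Sp} {k : KP Y₀} {m : Mor Y.toSp Y₀} {E : VB Y.toSp}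
    {M : Y.T → k.P.W →ₗ[ℂ] E.W} (hM : k.Model m E M) (hn : Y.n = n + k.r)
    (hz : ∀ t, t ∈ range j ↔ m.f t ∈ k.Zs) (hz' : ∀ t, M t (k.s (m.f t)) = 0 → m.f t ∈ k.Zs)
    (hv : ∀ z, ∀ᶠ t in 𝓝 (j z), k.van (m.f t) = k.van (m.f (j z)))
    (hol : ∀ z, ∃ Φ : Y.A → k.P.W, AnalyticAt ℂ Φ (Y.ι (j z)) ∧
      (∀ᶠ t in 𝓝 (j z), k.s (m.f t) = Φ (Y.ι t)) ∧ ∀ w ∈ k.obs (m.f (j z)), ∃ v ∈ tan Y.ι (j z),
        fderiv ℂ Φ (Y.ι (j z)) v - w ∈ k.van (m.f (j z))) :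
    (∀ z, IsMfd (fun z => Y.ι (j z)) (finrank ℂ Y.L + n) z) ∧
      gys i hM.isSec.eul Y.fund = fundQ Y.G (fun z => Y.ι (j z)) π n := by
  have hj' : IsClosedEmbedding j :=
    ⟨hj, by rw [show range j = _ from Set.ext hz]; exact k.isClosed_Zs.preimage m.cf⟩
  have : Nice Z := Nice.of_isEmbedding hj hj'.isClosed_range.isLocallyClosed
  have h1 := hπ.isClosedEmbedding_map Y.isQuo hi (fun g t => ⟨g, he g t⟩) hj'
  obtain ⟨N, hN, hN'⟩ := hM.toPre.exists_clm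
  have key : ∀ z, ∃ (φ : (Fin n → ℂ) × (Fin k.r → ℂ) → Y.T) (φ' : (Fin n → ℂ) → Z)
      (L : (Fin k.r → ℂ) →L[ℂ] E.W), IsSlK Y.κ Y.ι φ (0, 0) ∧
      IsSlK Y.κ (fun s => Y.ι (j s)) φ' 0 ∧ φ' 0 = z ∧ φ (0, 0) = j z ∧
      (∀ᶠ y in 𝓝 0, j (φ' y) = φ (y, 0)) ∧ Injective L ∧
      (fun p => M (φ p) (k.s (m.f (φ p))) - L p.2) =o[𝓝 (0, 0)] fun p => p.2 := fun z => by
    have z0 := (hz _).1 ⟨z, rfl⟩
    obtain ⟨q, hq⟩ := exists_fibre_coord E hM.rank (j z)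
    obtain ⟨Φ, h2, h3, h4⟩ := hol z
    let Q := q ∘L N (j z)
    have q1 : ∀ w ∈ k.van (m.f (j z)), Q w = 0 := fun w hw =>
      (congrArg q ((hN' _ w (k.van_le _ hw)).trans (hM.van _ w hw))).trans (map_zero q)
    have q2 : ∀ w ∈ k.obs (m.f (j z)), N (j z) w = 0 → w ∈ k.van (m.f (j z)) := fun w hw e =>
      hM.ker _ z0 w hw ((hN' _ w (k.obs_le _ z0 hw)).symm.trans e)
    have q3 : ∀ w ∈ k.obs (m.f (j z)), Q w = 0 → w ∈ k.van (m.f (j z)) := fun w hw e =>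
      q2 w hw (hq _ ((hN' _ w (k.obs_le _ z0 hw)).symm ▸ hM.hom.mem _ w (k.obs_le _ z0 hw)) e)
    obtain ⟨φ, φ', h5, h6, h7, h8, h9, h10⟩ := (Y.mfd (j z)).exists_slK_zero Y.exp hj he (Y.hol _)
      (Y.inf_inj _) (n := n) (f := fun t => Q (k.s (m.f t))) (Φ := fun a => Q (Φ a))
      ((Q.analyticAt _).comp h2) (h3.mono fun t ht => congrArg Q ht) (fun b => by
        obtain ⟨w, hw, rfl⟩ := exists_obs k z0 (Q := Q.toLinearMap) q3 q1 b
        obtain ⟨v, h5, h6⟩ := h4 w hw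
        exact ⟨v, h5, (DFunLike.congr_fun (Q.hasFDerivAt.comp _
          h2.differentiableAt.hasFDerivAt).fderiv v).trans
            (sub_eq_zero.1 ((map_sub Q _ _).symm.trans (q1 _ h6)))⟩)
      (((hv z).and (k.eventually_mem z0 m.cf.continuousAt (M := fun _ => Q) tendsto_const_nhds
        ((hv z).mono fun t ht w hw => q1 w (ht ▸ hw)) q3)).mono fun t ht => (hz t).trans
          ⟨fun e => q1 _ (ht.1 ▸ e), ht.2⟩) (by simp [hn])
    have c1 : Tendsto φ (𝓝 (0, 0)) (𝓝 (j z)) := h8 ▸ h5.cont Y.exp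
    let u := fun p => k.q (m.f (j z)) (k.s (m.f (φ p)))
    have a1 : AnalyticAt ℂ u (0, 0) := ((k.q _).analyticAt _).comp
      (HolAt.an_comp (f := fun t => k.s (m.f t)) ⟨Φ, h8 ▸ h2, h8 ▸ h3⟩ (h5.cont Y.exp) (h5.an Y.exp))
    have u1 : ∀ᶠ p in 𝓝 (0, 0), u p - k.s (m.f (φ p)) ∈ k.van (m.f (φ p)) :=
      (c1.eventually (hv z)).mono fun p hp => hp ▸ neg_sub (k.s (m.f (φ p))) (u p) ▸
        neg_mem (k.sub_q _ _)
    have u2 : ∀ᶠ y in 𝓝 0, u (y, 0) = 0 :=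
      (h10.and ((c1.comp (tendsto_inl _ _)).eventually (hv z))).mono fun y hy =>
        KP.q_eq_zero.2 (hy.2 ▸ (hz _).1 ⟨_, hy.1⟩)
    let D := (fderiv ℂ u (0, 0)).comp (ContinuousLinearMap.inr ℂ _ _)
    have d1 : HasFDerivAt (fun b => u (0, b)) D 0 :=
      a1.differentiableAt.hasFDerivAt.comp (0 : Fin k.r → ℂ) (hasFDerivAt_prodMk_right _ _)
    have d2 : ∀ b, D b ∈ k.obs (m.f (j z)) := fun b => h8 ▸ deriv_mem_obs k
      (φ := fun b => m.f (φ (0, b))) (m.cf.continuousAt.comp ((h5.cont Y.exp).comp (f := fun b =>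
        ((0 : Fin n → ℂ), b)) (by fun_prop))) (h8 ▸ z0) ((tendsto_inr _ _).eventually u1)
          u2.self_of_nhds d1 b
    have d3 : ∀ b, Q (D b) = b := fun b => by
      have e : (fun b => Q (u (0, b))) =ᶠ[𝓝 0] id := ((tendsto_inr _ _).eventually h9).mono
        fun b hb => (sub_eq_zero.1 ((map_sub Q _ _).symm.trans (q1 _ (k.sub_q _ _)))).symm.trans hb
      exact DFunLike.congr_fun (((Q.hasFDerivAt.comp _ d1).congr_of_eventuallyEq e.symm).unique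
        (hasFDerivAt_id _)) b
    refine ⟨φ, φ', N (j z) ∘L D, h5, h6, h7, h8, h10, (injective_iff_map_eq_zero _).2 fun b e =>
      (d3 b).symm.trans (q1 _ (q2 _ (d2 b) e)), ?_⟩
    have o1 : (fun p => u p - D p.2) =o[𝓝 (0, 0)] fun p => p.2 := by
      have := a1.hasStrictFDerivAt.isLittleO.comp_tendsto (l' := 𝓝 (0, 0))
        (k := fun p => (p, (p.1, 0))) (Continuous.tendsto' (by fun_prop) _ _ rfl)
      refine (this.congr' ((continuousAt_fst.eventually u2).mono fun ⟨a, b⟩ hp => ?_)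
        EventuallyEq.rfl).trans_isBigO (IsBigO.of_bound 1 (Eventually.of_forall fun ⟨a, b⟩ => by simp))
      simp [show u (a, 0) = 0 from hp, D, -map_sub]
    have c2 := hN.continuousAt.tendsto.comp c1
    refine (((clm_isBigO c2 _).trans_isLittleO o1).add ((clm_isLittleO c2 fun p => D p.2).trans_isBigO
      (D.isBigO_comp _ _))).congr' (u1.mono fun p hp => ?_) EventuallyEq.rfl
    have e1 := k.van_le _ hp
    have e2 := hN' (φ p) _ e1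
    rw [hM.van _ _ hp, map_sub, sub_eq_zero, hN' _ _ (k.sec.mem _)] at e2
    simp [e2]
  have h2 : ∀ z, IsMfd (fun z => Y.ι (j z)) (finrank ℂ Y.L + n) z := fun z => by
    obtain ⟨-, φ', -, -, h2, rfl, -⟩ := key z
    simpa using h2.isMfd Y.exp
  have h3 := Y.holOrb_sub hj.continuous he h2
  refine ⟨h2, ?_⟩
  rw [HO.fund, hn, ← one_smul ℂ (fundQ Y.G (fun z => Y.ι (j z)) π n)]
  refine h3.gys_eul hπ (hn ▸ Y.holOrb') hM.isSec hM.rank (finrank_fin_fun ℂ) (finrank_fin_fun ℂ) h1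
    (fun t ht => ?_) (hπ.meets dense_univ) fun z _ => ?_
  · obtain ⟨z, rfl⟩ := (hz t).2 (hz' t ht)
    exact ⟨_, hi z⟩
  obtain ⟨φ, φ', L, h5, h6, h7, h8, h9, h10, h11⟩ := key z
  exact ⟨φ', φ, 0, L, h6.isSl Y.exp, h7, h5.isSl Y.exp, h9.mono fun v hv => by rw [hi, hv], h10,
    h11, by rw [h8, stab_of_injective hj.injective he, one_mul]⟩

/-- **the virtual class of an unobstructed presentation is the fundamental class** -/
theorem unob (k : KP Y.toSp) (hn : Y.n = n + k.r) (hz : ∀ t, t ∈ range j ↔ t ∈ k.Zs)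
    (hv : ∀ z, ∀ᶠ t in 𝓝 (j z), k.van t = k.van (j z))
    (hol : ∀ z, ∃ Φ : Y.A → k.P.W, AnalyticAt ℂ Φ (Y.ι (j z)) ∧
      (∀ᶠ t in 𝓝 (j z), k.s t = Φ (Y.ι t)) ∧ ∀ w ∈ k.obs (j z), ∃ v ∈ tan Y.ι (j z),
        fderiv ℂ Φ (Y.ι (j z)) v - w ∈ k.van (j z)) :
    k.IsZ i ∧ (∀ z, IsMfd (fun z => Y.ι (j z)) (finrank ℂ Y.L + n) z) ∧
      k.vir i Y.fund = fundQ Y.G (fun z => Y.ι (j z)) π n := by
  have hZ : k.IsZ i := KP.IsZ.of_range
    (hπ.isEmbedding_map Y.isQuo hi (fun g t => ⟨g, he g t⟩) hj)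
    ((hπ.range_map Y.isQuo hi).trans (congrArg _ (Set.ext hz)))
  obtain ⟨U, hU, E, M, h1, h2, h3, -⟩ := k.exists_model
  let j' : Z → (Y.opn U hU).T := fun z => (⟨j z, h1 ((hz _).1 ⟨z, rfl⟩)⟩ : U)
  have hv' := hU.isOpenEmbedding_subtypeVal
  let _ : MulAction (Y.opn U hU).G Z := ‹MulAction Y.G Z›
  have : ContinuousSMul (Y.opn U hU).G Z := ‹ContinuousSMul Y.G Z›
  have hπ' : IsQuo (Y.opn U hU).G π := hπ
  obtain ⟨i', hi'⟩ := hπ'.exists_map (Y.opn U hU).isQuo (j := j') fun g z => Subtype.ext (he g z)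
  have c : ∀ z, Tendsto (fun t : (Y.opn U hU).T => t.1) (𝓝 (j' z)) (𝓝 (j z)) := fun z =>
    continuous_subtype_val.tendsto (j' z)
  obtain ⟨h4, h5⟩ := gys_model (Y.opn U hU) (j := j') (hj.codRestrict _ _)
    (fun g z => Subtype.ext (he g z)) hπ' hi' (m := Y.toSp.subI U _) h2 hn
    (fun t => Iff.trans ⟨fun ⟨z, e⟩ => ⟨z, congrArg Subtype.val e⟩,
      fun ⟨z, e⟩ => ⟨z, Subtype.ext e⟩⟩ (hz t.1)) (fun t => (h3 t).1)
    (fun z => (c z).eventually (hv z)) fun z => by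
      obtain ⟨Φ, a, b, b'⟩ := hol z
      exact ⟨Φ, a, (c z).eventually b, fun w hw =>
        let ⟨v, d, e⟩ := b' w hw
        ⟨v, (tan_comp_lh (ι := Y.ι) (hv'.lh (j' z))).ge d, e⟩⟩
  refine ⟨hZ, h4, ?_⟩
  rw [hZ.vir_eq_gys h2 (Sp.isOpenEmbedding_subI hU) (i' := i') (fun x => by
    obtain ⟨z, rfl⟩ := hπ.oq.surjective x
    rw [hi, hi']
    exact Mor.map_π _ _) fun t ht => by
      obtain ⟨z, e⟩ := (hz t.1).2 ((h3 t).1 ht)
      exact ⟨_, (hi' z).trans (congrArg _ (Subtype.ext e))⟩]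
  refine Eq.trans (congrArg _ ?_) h5
  exact Y.holOrb.res_open (T' := U) (Y.opn U hU).isQuo Y.isQuo hv' (fun _ _ => rfl)
    (Y.toSp.subI U _).map_π

end Vale.Agent.P269.Edg
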