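import Vale.Agent.P269.Edg.FC
import Vale.Agent.P269.Edg.Unob
import Vale.Agent.P269.Loc.Imm

/-!
# The contribution of an unobstructed fixed component
-/

set_option linter.unusedSectionVars false
set_option maxSynthPendingDepth 3

namespace Vale.Agent.P269.Edg

open Set Function Topology Filter Module TensorProduct Vale.Agent.P291Z Vale.Agent.P269.Ch
  Vale.Agent.P269.Holo Vale.Agent.P269.Orb Vale.Agent.P269.Loc Vale.Agent.P269.LG

variable {σ : Type} [Fintype σ] {K : Type} [Field K] [Algebra ℂ K] {χ : R σ →ₐ[ℂ] K}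
  {X : ℕ → Type} [∀ M, TopologicalSpace (X M)] [∀ M, Nice (X M)] {A A' : Type} [TopologicalSpace A]
  [Nice A] [CompactSpace A] [TopologicalSpace A'] [Nice A'] [CompactSpace A']

theorem lc_ind {U : Set A} (h : IsClopen U) : IsLocallyConstant (U.indicator 1 : A → ℂ) :=
  ((LocallyConstant.const A (1 : ℂ)).indicator h).isLocallyConstant

theorem intg_part (e : C(A', A)) (h : IsOpenEmbedding e) (β : BM A) (y : H A) :
    intg β (y * hcls (fn ((range e).indicator 1))) = intg (res e β) (H.map e y) := by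
  obtain ⟨t, ht, rfl⟩ := hcls_surj y
  have h2 := (isCompact_range e.continuous).isClosed
  have h3 := cocycle_fn.2 (lc_ind ⟨h2, h.isOpen_range⟩)
  rw [← hcls_mul ht h3, H.map_hcls _ ht, intg_hcls _ (cocycle_pull e.continuous ht),
    intg_hcls _ (cocycle_mul ht h3),
    ← ev_res h β ⟨(isClosed_supp _).isCompact, cocycle_mul ht h3⟩ fun x hx => by_contra fun h =>
      fn_van.2 (mem_of_superset (h2.isOpen_compl.mem_nhds h) fun z hz =>
        indicator_of_notMem hz _) (supp_mul _ _ hx).2, map_mul, pull_fn,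
    show (range e).indicator (1 : A → ℂ) ∘ e = fun _ => 1 from funext fun z =>
      indicator_of_mem (mem_range_self (f := e) z) fun _ => (1 : ℂ), fn_one, mul_one]

/-- the contribution of an open and closed part -/
theorem isLoc_part {β : ∀ M, BM (X M)} {i : ∀ M, C(A × Bs σ M, X M)} {I : K ⊗[ℂ] H A →ₗ[K] K}
    {I' : K ⊗[ℂ] H A' →ₗ[K] K} (h : IsLoc χ β i I) {e : C(A', A)} (he : IsOpenEmbedding e)
    (h' : IsLoc χ β (fun M => (i M).comp (pr e M)) I') (x : K ⊗[ℂ] H A) :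
    I' (pb K e x) = I (x * 1 ⊗ₜ hcls (fn ((range e).indicator 1))) := by
  obtain ⟨p, u, hp, hu, h⟩ := h
  have h1 : ∀ M, IsOpenEmbedding (pr (σ := σ) e M) := fun M => he.prodMap IsOpenEmbedding.id
  have h2 := h'.any (hu.pull (f := fun _ => id) (fun _ => continuous_id) h'.emb
    (fun _ _ => rfl) fun M => isol_comp (hu.emb M).isInducing (Isol.refl _)
      (Isol.of_isOpen (h1 M).isOpen_range Subset.rfl inter_subset_left))
  simp only [pull_id] at h2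
  refine LinearMap.congr_fun (ext_bc (χ := χ) (J := I' ∘ₗ (pb K e).toLinearMap)
    (J' := I ∘ₗ LinearMap.mulRight K _) fun x => mul_left_cancel₀ hp ?_) x
  have h3 := h (x * 1 ⊗ₜ hcls (fn ((range e).indicator 1)))
  have h4 := h2 (pb _ e x)
  rw [map_mul, bc_tmul, map_one] at h3
  rw [bc_pb] at h4
  refine h4.unique (h3.congr fun M f => ?_)
  have h5 : hcls (fn ((range (pr (σ := σ) e M)).indicator 1)) =
      evA A M (1 ⊗ₜ hcls (fn ((range e).indicator 1))) := by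
    rw [evA_tmul, map_one, map_one, one_mul,
      map_fn _ (lc_ind ⟨(isCompact_range e.continuous).isClosed, he.isOpen_range⟩),
      show range (pr (σ := σ) e M) = Prod.fst ⁻¹' range e from Set.ext fun z =>
        ⟨fun ⟨y, h⟩ => ⟨y.1, congrArg Prod.fst h⟩, fun ⟨y, h⟩ => ⟨(y, z.2), Prod.ext h rfl⟩⟩]
    rfl
  rw [mul_tmul_one, mul_tmul_one, ← smul_mul_assoc, map_mul, ← h5, intg_part _ (h1 M), map_evA,
    map_smul (pb _ e), res_lgys_part (hu.emb M) (hu.lco M) (h1 M)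
      (isCompact_range (pr e M).continuous).isClosed]
  rfl

omit [Nice A] [CompactSpace A] in
theorem bc_comm (x : R σ ⊗[ℂ] Hev A) (y : K ⊗[ℂ] H A) :
    bc _ χ (inH A x) * y = y * bc _ χ (inH A x) := by
  induction x with
  | zero => rw [map_zero, map_zero, zero_mul, mul_zero]
  | add a b ha hb => rw [map_add, map_add, add_mul, mul_add, ha, hb]
  | tmul f c =>
    induction y with
    | zero => rw [zero_mul, mul_zero]
    | add a b ha hb => rw [add_mul, mul_add, ha, hb]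
    | tmul k d =>
      change χ f ⊗ₜ c.1 * _ = _ * χ f ⊗ₜ c.1
      rw [Algebra.TensorProduct.tmul_mul_tmul, Algebra.TensorProduct.tmul_mul_tmul, mul_comm,
        Hev.commute c.2 d]

theorem MF.rank_eq {V ι : Type} [AddCommGroup V] [Module ℂ V] [FiniteDimensional ℂ V] [Fintype ι]
    {τ : Tor σ →* End ℂ V} {U : Submodule ℂ V} {wt : ι → σ → ℤ} {v : ι → V} (h : MF τ U wt v)
    (hw : Wtd τ) (h0 : ∀ i, wt i ≠ 0) :
    Module.finrank ℂ U = Module.finrank ℂ (U ⊓ Loc.wsp τ 0 : Submodule ℂ V) + Fintype.card ι := by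
  have h1 : Submodule.span ℂ (range v) ≤ U := Submodule.span_le.2 (range_subset_iff.2 h.mem)
  have h2 : Submodule.span ℂ (range v) ≤ mov τ :=
    Submodule.span_le.2 (range_subset_iff.2 fun i => wsp_le_mov τ (h0 i) (h.wsp i))
  have := Submodule.finrank_sup_add_finrank_inf_eq (U ⊓ Loc.wsp τ 0) (Submodule.span ℂ (range v))
  rw [((hw.isCompl 0).disjoint.mono inf_le_right h2).eq_bot, finrank_bot, finrank_span_eq_card h.li,
    le_antisymm (sup_le inf_le_left h1) fun u hu => ?_] at this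
  · exact this
  obtain ⟨u₀, e1, e2⟩ := h.span u hu
  exact Submodule.mem_sup.2 ⟨u₀, ⟨(U.sub_mem_iff_right hu).1 (h1 e2), e1⟩, _, e2,
    add_sub_cancel _ _⟩

theorem ev_alg {C T K : Type} [CommMonoid C] [Monoid T] (f : C →* T) (cm : ∀ a y, f a * y = y * f a)
    {I J : T → K} {o l t v b s k : C} (e1 : o * l = s * t) (e2 : l * v = k * b) (ul : IsUnit (f l))
    (ut : IsUnit (f t)) (uv : IsUnit (f v)) (h : ∀ x, I (x * (f t * f v)) = J (x * (f b * f o)))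
    {e : T} (he : e * f k = f s) (x : T) : I x = J (e * x) := by
  have u := ul.mul uv
  rw [← map_mul, e2, map_mul] at u
  obtain ⟨w, hw⟩ := (((Commute.isUnit_mul_iff (cm _ _)).1 u).1.mul (ut.mul uv)).exists_left_inv
  have e4 := h (x * w * f k)
  rw [mul_assoc, mul_assoc, hw, mul_one, mul_assoc, ← map_mul, ← map_mul, ← mul_assoc k, ← e2,
    mul_right_comm l, mul_comm l, e1, mul_assoc s, ← cm, map_mul, ← he, mul_assoc e, mul_assoc e,
    ← map_mul, cm, map_mul, map_mul, mul_assoc x, hw, mul_one] at e4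
  exact e4

variable {Y : HO} {h : TH σ Y} {c : Red h} {k : KP Y.toSp}

theorem Red.exists_par (c : Red h) {t : Y.T} (ht : Y.ι t - c.a ∈ c.Fl) : ∃ φ : c.Fl → Y.T,
    φ 0 = t ∧ ContinuousAt φ 0 ∧ ∀ᶠ y in 𝓝 0, Y.ι (φ y) = Y.ι t + y ∧ Y.ι (φ y) - c.a ∈ c.Fl := by
  have : Nonempty Y.T := ⟨t⟩
  have h1 : Continuous fun y : c.Fl => Y.ι t + y := by fun_prop
  have h2 : ∀ y : c.Fl, Y.ι t + y - c.a ∈ c.Fl := fun y => add_sub_right_comm (Y.ι t) y c.a ▸
    add_mem ht y.2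
  have h3 : ∀ᶠ y : c.Fl in 𝓝 0, Y.ι (invFun Y.ι (Y.ι t + y)) = Y.ι t + y :=
    ((h1.tendsto' _ _ (add_zero _)).eventually (c.opn t ht)).mono fun y hy => invFun_eq (hy (h2 y))
  exact ⟨fun y => invFun Y.ι (Y.ι t + y), Y.emb.injective (h3.self_of_nhds.trans (add_zero _)),
    Y.emb.isInducing.continuousAt_iff.2 (h1.continuousAt.congr (EventuallyEq.symm h3)),
    h3.mono fun y hy => ⟨hy, hy ▸ h2 y⟩⟩

variable (c k) in
/-- On the affine subspace the section is analytic and the subbundle is constant. -/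
structure Sec (Φ : Y.A → k.P.W) (V : Submodule ℂ k.P.W) : Prop where
  an : ∀ t, Y.ι t - c.a ∈ c.Fl → AnalyticAt ℂ Φ (Y.ι t)
  s : ∀ t, Y.ι t - c.a ∈ c.Fl → k.s t = Φ (Y.ι t)
  van : ∀ t, Y.ι t - c.a ∈ c.Fl → k.van t = V

namespace Sec

variable {Φ : Y.A → k.P.W} {V : Submodule ℂ k.P.W} (hS : Sec c k Φ V) {t : Y.T}
  (ht : Y.ι t - c.a ∈ c.Fl)
include hS ht

theorem der : HasFDerivAt (fun y : c.Fl => Φ (Y.ι t + y))
    ((fderiv ℂ Φ (Y.ι t)).comp c.Fl.subtypeL) 0 :=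
  HasFDerivAt.comp (f := fun y : c.Fl => Y.ι t + y) 0
    (by rw [ZeroMemClass.coe_zero, add_zero]; exact (hS.an t ht).differentiableAt.hasFDerivAt)
    (c.Fl.subtypeL.hasFDerivAt.const_add _)

theorem eqv {P : Y.A →ₗ[ℂ] Y.A} {Q : k.P.W →ₗ[ℂ] k.P.W} {p : Y.T → Y.T}
    (h1 : ∀ t, Y.ι (p t) = P (Y.ι t)) (h2 : ∀ t, k.s (p t) = Q (k.s t)) (h3 : P c.a = c.a)
    (h4 : ∀ v ∈ c.Fl, P v ∈ c.Fl) {v : Y.A} (hv : v ∈ c.Fl) :
    fderiv ℂ Φ (Y.ι (p t)) (P v) = Q (fderiv ℂ Φ (Y.ι t) v) := by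
  have h5 : ∀ t, Y.ι t - c.a ∈ c.Fl → Y.ι (p t) - c.a ∈ c.Fl := fun t ht => by
    rw [h1, ← h3, ← map_sub]; exact h4 _ ht
  obtain ⟨φ, -, -, h6⟩ := c.exists_par ht
  let P' := LinearMap.toContinuousLinearMap (P.restrict h4)
  have e1 := HasFDerivAt.comp (f := P') 0 ((map_zero P').symm ▸ hS.der (h5 t ht)) P'.hasFDerivAt
  have e2 := (LinearMap.toContinuousLinearMap Q).hasFDerivAt.comp 0 (hS.der ht)
  refine DFunLike.congr_fun (e1.unique (e2.congr_of_eventuallyEq (h6.mono fun y hy => ?_))) ⟨v, hv⟩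
  change Φ (Y.ι (p t) + P y) = Q (Φ (Y.ι t + y))
  rw [h1, ← map_add, ← hy.1, ← h1, ← hS.s _ hy.2, ← hS.s _ (h5 _ hy.2), h2]

theorem mem_obs (hz : t ∈ k.Zs) {v : Y.A} (hv : v ∈ c.Fl) : fderiv ℂ Φ (Y.ι t) v ∈ k.obs t := by
  obtain ⟨φ, rfl, h1, h2⟩ := c.exists_par ht
  refine deriv_mem_obs k h1 hz (h2.mono fun y hy => ?_) (by simp) ((hS.der ht).sub_const
    (Φ (Y.ι (φ 0)))) ⟨v, hv⟩
  rw [← hy.1, ← hS.s _ hy.2, sub_sub_cancel_left, hS.van _ hy.2, ← hS.van _ ht, ← hS.s _ ht]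
  exact neg_mem hz

end Sec

variable (c k) in
/-- a presentation of the zero set in the component -/
structure Zd (B : Type) [TopologicalSpace B] where
  /-- the zero set -/
  Z : Type
  [tZ : TopologicalSpace Z]
  [aZ : MulAction c.H Z]
  [cZ : ContinuousSMul c.H Z]
  /-- the inclusion -/
  j : Z → c.T
  /-- the quotient map -/
  π : Z → B
  emb : IsEmbedding j
  eqv : ∀ (g : c.H) z, j (g • z) = g • j z
  rng : ∀ t, t ∈ range j ↔ t.1 ∈ k.Zs
  quo : IsQuo c.H π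

attribute [instance] Zd.tZ Zd.aZ Zd.cZ

namespace Zd

variable {B : Type} [TopologicalSpace B] (z : Zd c k B)

instance : Nice z.Z := Nice.of_isEmbedding z.emb (by
  rw [show range z.j = _ from Set.ext z.rng]
  exact (k.isClosed_Zs.preimage continuous_subtype_val).isLocallyClosed)

/-- the zero set as an orbifold -/
@[reducible] def D : Ch.Sp := Ch.Sp.of (G := c.H) ⟨inferInstance,
  properSMul_of_map z.emb.continuous z.eqv, inferInstance,
    fun _ => LocFree.of_map z.emb.continuous z.eqv (c.F.free _)⟩ z.quo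

/-- the inclusion -/
@[reducible] def mor : Mor z.D c.F.toSp := ⟨MonoidHom.id _, z.j, continuous_id, z.emb.continuous, z.eqv⟩

/-- the presentation of the zero set -/
noncomputable abbrev fd : FD h.toTS := c.fd.pre z.mor

/-- the embedding -/
def ι (t : z.Z) : Y.A := Y.ι (z.j t).1

theorem mem (t : z.Z) : (z.j t).1 ∈ k.Zs := (z.rng _).1 ⟨t, rfl⟩

theorem isClosedEmbedding : IsClosedEmbedding z.mor.map :=
  z.quo.isClosedEmbedding_map c.F.isQuo z.mor.map_π (fun g t => ⟨g, z.eqv g t⟩) ⟨z.emb, by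
    rw [show range z.j = _ from Set.ext z.rng]
    exact k.isClosed_Zs.preimage continuous_subtype_val⟩

/-- the bundle of the directions of the affine subspace -/
@[reducible] noncomputable def flB : VB z.D :=
  (Y.tanB.pb z.fd.i).sub (fun _ => c.Fl) (finrank ℂ c.Fl)
    (c.Fl.closed_of_finiteDimensional.preimage continuous_snd) (fun _ => rfl) fun g _ => c.r_Fl g

/-- the action on it -/
@[reducible] noncomputable def flV : TV (TS.triv σ z.D) z.flB :=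
  (z.fd.tv h.tanV).sub fun s _ => c.τ_Fl s

/-- a frame of weight vectors of the moving part -/
structure Fr {E : VB Y.toSp} (b : TV h.toTS E) (U : z.Z → Submodule ℂ E.W) (ι : Type) where
  /-- the weights -/
  wt : ι → σ → ℤ
  /-- the characters -/
  χ : ι → c.H →ₜ* ℂˣ
  /-- the vectors -/
  v : ι → z.Z → E.W
  ne : ∀ i, wt i ≠ 0
  cont : ∀ i, Continuous (v i)
  eqv : ∀ i g t, c.r g • v i t = (χ i g : ℂ) • v i (g • t)
  mf : ∀ t, MF (b.τ c.toDat) (U t) wt fun i => v i t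

/-- the Euler class -/
noncomputable def Fr.e {z : Zd c k B} {E : VB Y.toSp} {b : TV h.toTS E} {U : z.Z → Submodule ℂ E.W}
    {ι : Type} [Fintype ι] (f : z.Fr b U ι) : R σ ⊗[ℂ] Hev B :=
  ∏ i, (((c.m : ℂ)⁻¹ • lin (f.wt i)) ⊗ₜ 1 + 1 ⊗ₜ c1 (Y := z.D) (f.χ i))

variable (κ : TKP h.toTS k) {Φ : Y.A → k.P.W} {V : Submodule ℂ k.P.W} (hS : Sec c k Φ V)

variable (Φ) in
/-- the differential of the section -/
noncomputable def d (t : z.Z) : Y.A →ₗ[ℂ] k.P.W := fderiv ℂ Φ (z.ι t)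

variable {ιS ιK : Type} [Fintype ιS] [Fintype ιK]
  (fS : z.Fr h.tanV (fun t => Y.orbB.F (z.j t).1 ⊓ c.Fl) ιS)
  (fK : z.Fr h.tanV (fun t => c.Fl ⊓ V.comap (z.d Φ t)) ιK) {n : ℕ}
  (hn : n + k.r + Fintype.card ιK = Y.n + Fintype.card ιS)
  (hK : ∀ t, finrank ℂ (c.Fl ⊓ V.comap (z.d Φ t) : Submodule ℂ Y.A) ≤
    finrank ℂ c.L + n + Fintype.card ιK)

include hS fS fK hn hK

theorem obs_eq (t : z.Z) : k.obs (z.j t).1 = V ⊔ c.Fl.map (z.d Φ t) ∧
    finrank ℂ (c.Fl ⊓ V.comap (z.d Φ t) ⊓ wsp c.τ 0 : Submodule ℂ Y.A) = finrank ℂ c.L + n := by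
  have h1 := finrank_sup_map c.Fl V (z.d Φ t)
  have h2 := Submodule.finrank_sup_add_finrank_inf_eq (Y.orbB.F (z.j t).1) c.Fl
  have h3 := (fS.mf t).rank_eq (h.wtd_τ _) fS.ne
  have h4 := (fK.mf t).rank_eq (h.wtd_τ _) fK.ne
  have h5 := k.van_rank (z.j t).1
  have h6 := k.obs_rank _ (z.mem t)
  have h7 : V ⊔ c.Fl.map (z.d Φ t) ≤ k.obs (z.j t).1 := sup_le
    (hS.van _ (z.j t).2.1 ▸ k.le_obs _ (z.mem t))
    (by rintro _ ⟨v, hv, rfl⟩; exact hS.mem_obs (z.j t).2.1 (z.mem t) hv)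
  have h8 := Submodule.finrank_mono h7
  have h9 := hK t
  rw [sup_comm, ← c.tan_eq (z.j t).2.1, (Y.mfd _).finrank_tan, Y.orbB.rank] at h2
  rw [hS.van _ (z.j t).2.1] at h5
  have h10 : finrank ℂ (Y.orbB.F (z.j t).1 ⊓ c.Fl ⊓ wsp c.τ 0 : Submodule ℂ Y.A) = _ := c.rk_zero _
  change finrank ℂ (Y.orbB.F (z.j t).1 ⊓ c.Fl : Submodule ℂ Y.A) =
    finrank ℂ (Y.orbB.F (z.j t).1 ⊓ c.Fl ⊓ wsp c.τ 0 : Submodule ℂ Y.A) + _ at h3
  change finrank ℂ (c.Fl ⊓ V.comap (z.d Φ t) : Submodule ℂ Y.A) =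
    finrank ℂ (c.Fl ⊓ V.comap (z.d Φ t) ⊓ wsp c.τ 0 : Submodule ℂ Y.A) + _ at h4
  dsimp only at h2 h3 h10
  exact ⟨(Submodule.eq_of_le_of_finrank_le h7 (by omega)).symm, by omega⟩

theorem gs (t : z.Z) : GS c.τ (κ.τ c.fd) c.Fl V (k.obs (z.j t).1) (z.d Φ t) where
  w₁ := h.wtd_τ _
  w := κ.toTV.wtd_τ _
  inv₁ := c.τ_Fl
  inv₂ s v hv := (hS.van _ (z.j t).2.1).le
    ((κ.vanT c.fd).inv s (z.j t) v ((hS.van _ (z.j t).2.1).ge hv))
  mem_wsp {w v} hv := (κ.toTV.mem_wsp _).2 fun s hs => by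
    obtain ⟨g, e⟩ := c.lift s
    have h1 := hS.eqv (z.j t).2.1 (h.eqv (s ^ c.m)) (κ.s_eqv _) (c.b_a _) (c.b_Fl _) hv.1
    have h2 := hS.eqv (P := DistribSMul.toLinearMap ℂ _ (c.r g)) (Q := DistribSMul.toLinearMap ℂ _ (c.r g))
      (z.j t).2.1 (Y.eqv _) (k.sec.eqv _) (c.r_a _) (c.r_Fl _) hv.1
    have h3 : h.b (ph (s ^ c.m)) v = _ := (h.tanV.mem_wsp _).1 hv.2 s hs
    rw [(z.j t).2.2 s, h3, map_smul, ← e] at h1
    exact h1.symm.trans (congrArg _ (e ▸ h2))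
  sup := (z.obs_eq hS fS fK hn hK t).1

omit fS fK hn hK hS in
/-- the zero set in the component is an open and closed part of the fixed locus -/
theorem exists_part {j : ∀ M, C(X M, (h.toTS.B M).X)} {g : C(A, Y.X)} {i : ∀ M, C(A × Bs σ M, X M)}
    (hP : Pc h.toTS k.Zs j g i) (ha : ∀ t, Y.π (z.j t).1 ∈ range g) :
    ∃ u : C(B, A), IsOpenEmbedding u ∧ ∀ t, g (u (z.π t)) = Y.π (z.j t).1 := by
  have h1 := c.emb.comp z.isClosedEmbedding.isEmbedding
  have h2 := (g.continuous.isClosedEmbedding hP.inj).isEmbedding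
  have h3 : ∀ t, c.fd.i.map (z.mor.map (z.π t)) = Y.π (z.j t).1 := fun t =>
    (congrArg _ (z.mor.map_π t)).trans (c.fd.i.map_π _)
  have h4 : ∀ x : B, ∃ a, g a = c.fd.i.map (z.mor.map x) := fun x => by
    obtain ⟨t, rfl⟩ := z.quo.oq.surjective x
    exact h3 t ▸ ha t
  choose u hu using h4
  have h5 : IsEmbedding (g ∘ u) := (funext hu : g ∘ u = _) ▸ h1
  have h6 := h2.continuous_iff.2 h5.continuous
  refine ⟨⟨u, h6⟩, ⟨h5.of_comp h6 h2.continuous, isOpen_iff_mem_nhds.2 ?_⟩,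
    fun t => (hu _).trans (h3 t)⟩
  rintro _ ⟨x, rfl⟩
  obtain ⟨t, rfl⟩ := z.quo.oq.surjective x
  have h7 := Y.quo.isOpenMap.image_mem_nhds (c.fc.opn (z.j t))
  refine mem_of_superset (g.continuous.continuousAt.preimage_mem_nhds
    (((hu _).trans (h3 t)).symm ▸ h7)) ?_
  rintro a ⟨y, hy, e⟩
  obtain ⟨y', h8, e'⟩ := hP.sub ⟨a, rfl⟩
  obtain ⟨x, hx⟩ := hy (TS.mem_fix_of_π h8.1 (e'.trans e.symm))
  obtain ⟨x, rfl⟩ := c.F.surj x
  have e'' := (c.fc.i.map_π x).symm.trans (hx.trans e)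
  obtain ⟨s, rfl⟩ := (z.rng x).2 (KP.mem_Z.1 (e'' ▸ e' ▸ KP.mem_Z.2 h8.2))
  exact ⟨z.π s, hP.inj (((hu _).trans (h3 s)).trans e'')⟩

/-- **the contribution of an unobstructed component** -/
theorem main [Nice B] [CompactSpace B] [Nonempty z.Z] {j : ∀ M, C(X M, (h.toTS.B M).X)}
    {g : C(B, Y.X)} {i : ∀ M, C(B × Bs σ M, X M)} (hP : Pc h.toTS k.Zs j g i)
    (hg : ∀ t, g (z.π t) = Y.π (z.j t).1) (hχ : ∀ w ≠ 0, χ (lin w) ≠ 0) {I : K ⊗[ℂ] H B →ₗ[K] K}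
    (hI : IsLoc χ (fun M => (κ.bo (pm σ M)).vir (j M) (h.fundB M)) i I) :
    HolOrb c.H z.ι n ∧ ∀ e, e * bc _ χ (inH B fK.e) = bc _ χ (inH B fS.e) →
      ∀ x, I x = intT K (intg (fundQ c.H z.ι z.π n)) (e * x) := by
  obtain ⟨t₀⟩ := ‹Nonempty z.Z›
  have G := z.gs κ hS fS fK hn hK
  have hv : ∀ t : c.T, finrank ℂ (k.van t.1 ⊓ wsp (κ.τ c.fd) 0 : Submodule ℂ k.P.W) =
      finrank ℂ (V ⊓ wsp (κ.τ c.fd) 0 : Submodule ℂ k.P.W) := fun t => by rw [hS.van _ t.2.1]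
  have h1 : ∀ t, finrank ℂ (k.obs (z.j t).1 ⊓ wsp (κ.τ c.fd) 0 : Submodule ℂ k.P.W) + n =
      c.n + finrank ℂ (V ⊓ wsp (κ.τ c.fd) 0 : Submodule ℂ k.P.W) := fun t => by
    have := (G t).finrank 0
    rw [(z.obs_eq hS fS fK hn hK t).2, ← c.n_add (z.j t)] at this
    omega
  have h2 : n ≤ c.n := by
    have := Submodule.finrank_mono (inf_le_inf_right (wsp (κ.τ c.fd) 0) (le_sup_left.trans (G t₀).sup.ge))
    have := h1 t₀
    omega
  have hr : ∀ t : c.T, t.1 ∈ k.Zs → finrank ℂ (k.obs t.1 ⊓ wsp (κ.τ c.fd) 0 : Submodule ℂ k.P.W) =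
      finrank ℂ (V ⊓ wsp (κ.τ c.fd) 0 : Submodule ℂ k.P.W) + (c.n - n) := fun t ht => by
    obtain ⟨t, rfl⟩ := (z.rng t).2 ht
    have := h1 t
    omega
  obtain ⟨h3, h4, h5⟩ := unob c.F z.emb z.eqv z.quo z.mor.map_π (κ.fix c.fd hv hr)
    (Nat.add_sub_cancel' h2).symm (fun t => (z.rng t).trans (κ.mem_Zs_fix c.fd hv hr).symm)
    (fun t => Eventually.of_forall fun t' => congrArg (· ⊓ _)
      ((hS.van _ t'.2.1).trans (hS.van _ (z.j t).2.1).symm)) fun t =>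
    ⟨Φ, hS.an _ (z.j t).2.1, Eventually.of_forall fun t' => hS.s _ t'.2.1, fun w hw => by
      obtain ⟨u, hu, _, ⟨v, hv, rfl⟩, rfl⟩ := Submodule.mem_sup.1 (((G t).sup_wsp 0).le hw)
      refine ⟨v, (c.isMfd' _).2.ge hv, ?_⟩
      change z.d Φ t v - (u + z.d Φ t v) ∈ k.van (z.j t).1 ⊓ _
      rw [sub_add_cancel_right]
      exact neg_mem ⟨(hS.van _ (z.j t).2.1).ge hu.1, hu.2⟩⟩
  refine ⟨c.F.holOrb_sub z.emb.continuous z.eqv h4, fun e he x => ?_⟩
  obtain ⟨kF⟩ := nonempty_rk (b := z.flV) (h.wtd_τ _) fun _ _ _ => rfl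
  obtain ⟨kV⟩ := nonempty_rk (b := κ.vanT z.fd) (κ.toTV.wtd_τ _) fun w t t' => congrArg
    (fun U : Submodule ℂ k.P.W => finrank ℂ (U ⊓ wsp (κ.τ c.fd) w : Submodule ℂ k.P.W))
      ((hS.van _ (z.j t).2.1).trans (hS.van _ (z.j t').2.1).symm)
  obtain ⟨kB⟩ := nonempty_rk (b := κ.obsT z.fd z.mem) (κ.toTV.wtd_τ _) fun w t t' => by
    rcases eq_or_ne w 0 with rfl | hw
    · exact (hr _ (z.mem t)).trans (hr _ (z.mem t')).symm
    have a := (G t).finrank w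
    have a' := (G t').finrank w
    rw [show finrank ℂ (c.Fl ⊓ V.comap (z.d Φ t) ⊓ wsp c.τ w : Submodule ℂ Y.A) = _ from
      ((fK.mf t).finrank (h.wtd_τ _) hw).trans ((fK.mf t').finrank (h.wtd_τ _) hw).symm, ← a'] at a
    exact Nat.add_right_cancel a
  have r : ∀ {W : Type} [AddCommGroup W] [Module ℂ W] (U : Submodule ℂ W),
      U.map (LinearEquiv.refl ℂ W).toLinearMap = U := fun U => U.map_id
  have e1 := eqc_mul (c.fc.kO.pre z.mor) kF (c.fc.kT.pre z.mor) (B := fun _ => LinearMap.id)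
    (Hom.of_continuous (by rintro t _ ⟨x, rfl⟩; exact Y.inf_mem_tan _ x) continuous_snd
      fun _ _ _ _ => rfl) (LinearEquiv.refl ℂ _) (fun _ _ => rfl) (fun _ _ => rfl)
    (fun t => (r c.Fl).symm ▸ c.gs (z.j t)) fS.ne fS.cont fS.eqv
    (fun t => (r c.Fl).symm ▸ fS.mf t) c.m
  have e2 := eqc_mul kF kV kB (B := z.d Φ) ⟨fun t w hw => hS.mem_obs (z.j t).2.1 (z.mem t) hw,
      (show Continuous fun t => fderiv ℂ Φ (z.ι t) from continuous_iff_continuousAt.2 fun t =>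
        (hS.an _ (z.j t).2.1).fderiv.continuousAt.comp (f := z.ι)
          (c.F.cι.comp z.emb.continuous).continuousAt).comp
            (continuous_fst.comp continuous_subtype_val) |>.clm_apply
              (continuous_snd.comp continuous_subtype_val), fun g t w hw => by
      have := hS.eqv (P := DistribSMul.toLinearMap ℂ _ (c.r g))
        (Q := DistribSMul.toLinearMap ℂ _ (c.r g)) (z.j t).2.1 (Y.eqv _) (k.sec.eqv _) (c.r_a _)
        (c.r_Fl _) hw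
      rwa [← c.val_smul, ← z.eqv] at this⟩ (LinearEquiv.refl ℂ _) (fun _ _ => rfl) (fun _ _ => rfl)
    (fun t => ((r _).trans (hS.van _ (z.j t).2.1)).symm ▸ G t) fK.ne fK.cont fK.eqv
    (fun t => ((r _).trans (hS.van _ (z.j t).2.1)).symm ▸ fK.mf t) c.m
  have e3 := IsLoc.ev κ c.fc hv hr h3 z.mem kV kB hP (fun x => by
    obtain ⟨t, rfl⟩ := z.quo.oq.surjective x
    exact (hg t).trans ((c.fc.i.map_π _).symm.trans (congrArg _ (z.mor.map_π t).symm))) hχ hI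
  rw [c.fund_eq (z.j t₀), h5] at e3
  let f := (bc (H B) χ).comp (inH B)
  have u : ∀ {E : VB z.D} {b : TV (TS.triv σ z.D) E} (k : b.Rk), IsUnit (f (k.eqc c.m)) :=
    fun k => (c.fc.invUp h3.emb k).isUnit χ (by
      rintro _ ⟨w, hw, rfl⟩
      exact (hχ w fun e => k.zero (e ▸ hw)).isUnit)
  exact ev_alg (f : _ →* _) bc_comm e1 e2 (u kF) (u _) (u kV) (fun x => by
    have := e3 x
    rwa [map_mul (bc _ χ), map_mul (bc _ χ)] at this) he x

end Zd

end Vale.Agent.P269.Edg
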