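import Vale.Agent.P269.Edg.Eqc
import Vale.Agent.P269.Loc.FP
import Vale.Agent.P269.Loc.FE

/-!
# Fixed components that lie in an affine slice
-/

set_option linter.unusedSectionVars false

namespace Vale.Agent.P269.Edg

open Set Function Topology Filter Module Vale.Agent.P291Z Vale.Agent.P269.Ch
  Vale.Agent.P269.Holo Vale.Agent.P269.Orb Vale.Agent.P269.Loc

variable {σ : Type} [Fintype σ] {Y : HO}

/-- an open part of an affine subspace -/
theorem isMfd_aff {Z A : Type} [TopologicalSpace Z] [NormedAddCommGroup A] [NormedSpace ℂ A]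
    [FiniteDimensional ℂ A] {j : Z → A} (hj : IsEmbedding j) {a : A} {U : Submodule ℂ A}
    (h1 : ∀ z, j z - a ∈ U) {z : Z} (h2 : ∀ᶠ x in 𝓝 (j z), x - a ∈ U → x ∈ range j) :
    IsMfd j (finrank ℂ U) z ∧ tan j z = U := by
  obtain ⟨U', hc⟩ := U.exists_isCompl
  let p := LinearMap.toContinuousLinearMap (U'.projectionOnto U hc.symm)
  have hp : HasFDerivAt (fun x => p (x - a)) p (j z) :=
    p.hasFDerivAt.comp _ ((hasFDerivAt_id _).sub_const a)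
  have := IsMfd.zeroSet hj (Φ := fun x => p (x - a))
    ((p.analyticAt _).comp (analyticAt_id.sub analyticAt_const))
    (by rw [hp.fderiv]; exact Submodule.projectionOnto_surjective hc.symm) (h2.mono fun x hx => Iff.trans
      ⟨fun ⟨z, e⟩ => e ▸ h1 z, hx⟩ (Submodule.projectionOnto_apply_eq_zero_iff hc.symm).symm)
    (Submodule.finrank_add_eq_of_isCompl hc)
  rw [hp.fderiv] at this
  exact ⟨this.1, this.2.trans (Submodule.ker_projectionOnto hc.symm)⟩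

theorem exists_ad (Y : HO) (g : Y.G) :
    ∃ Ad : Y.L → Y.L, ∀ t x, Y.inf (g • t) (Ad x) = g • Y.inf t x := by
  obtain ⟨k, h0, h1, h2, h3⟩ := Y.exp.lh.exists_inv
  rw [Y.exp.zero] at h0 h1 h3
  refine ⟨fderiv ℂ (fun y => k (g * Y.κ y * g⁻¹)) 0, fun t x => ?_⟩
  have hc : Tendsto (fun y => g * Y.κ y * g⁻¹) (𝓝 0) (𝓝 1) := by
    have := (Y.exp.tendsto.const_mul g).mul_const g⁻¹
    rwa [mul_one, mul_inv_cancel] at this
  have hk : Tendsto (fun y => k (g * Y.κ y * g⁻¹)) (𝓝 0) (𝓝 0) := by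
    have := h1.cont.tendsto.comp hc
    rwa [h0] at this
  have e : ∀ᶠ y in 𝓝 0, Y.ι (Y.κ (k (g * Y.κ y * g⁻¹)) • g • t) = g • Y.ι (Y.κ y • t) :=
    (hc.eventually h3).mono fun y hy => by rw [hy, smul_smul, inv_mul_cancel_right, mul_smul, Y.eqv]
  obtain ⟨w, hw, hw'⟩ := exists_leftInv (Y.an_orbit (g • t)) (Y.inf_inj (g • t))
  have a1 : AnalyticAt ℂ (fun y => g • Y.ι (Y.κ y • t)) 0 :=
    ((Ch.lin Y.A g).analyticAt _).comp (Y.an_orbit t)
  have e0 : g * Y.κ 0 * g⁻¹ = 1 := by rw [Y.exp.zero, mul_one, mul_inv_cancel]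
  have a2 : AnalyticAt ℂ (fun y => k (g * Y.κ y * g⁻¹)) 0 :=
    (hw.comp_of_eq a1 (by rw [← e.self_of_nhds, e0, h0])).congr
      ((e.and (hk.eventually hw')).mono fun y hy => by rw [comp_apply, ← hy.1, hy.2])
  have e1 := fderiv_comp_an (g := fun x => Y.ι (Y.κ x • g • t)) (by rw [e0, h0]; exact Y.an_orbit _) a2
  rw [e0, h0, EventuallyEq.fderiv_eq e] at e1
  refine (DFunLike.congr_fun e1 x).symm.trans ?_
  exact DFunLike.congr_fun ((Ch.lin Y.A g).hasFDerivAt.comp (0 : Y.L)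
    (Y.an_orbit t).differentiableAt.hasFDerivAt).fderiv x

/-- the weight of a fundamental vector field does not depend on the fixed point -/
theorem inf_mem_wsp (h : TH σ Y) {d : Dat σ Y.G} {t t' : Y.T} (ht : t ∈ h.toTS.Fx d)
    (ht' : t' ∈ h.toTS.Fx d) {w : σ → ℤ} {x : Y.L} (hx : Y.inf t x ∈ wsp (h.τ d) w) :
    Y.inf t' x ∈ wsp (h.τ d) w := (h.tanV.mem_wsp d).2 fun s hs => by
  obtain ⟨Ad, e⟩ := exists_ad Y (d.ρ s)
  have := (h.b_inf _ t x).symm.trans ((h.tanV.mem_wsp d).1 hx s hs)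
  rw [ht s, ← e, ← map_smul] at this
  refine (h.b_inf _ t' x).trans ?_
  rw [ht' s, ← e, ← map_smul, ← Y.inf_inj _ this]

theorem finrank_orb (t : Y.T) (U : Submodule ℂ Y.A) :
    finrank ℂ (Y.orbB.F t ⊓ U : Submodule ℂ Y.A) =
      finrank ℂ (U.comap (Y.inf t : Y.L →ₗ[ℂ] Y.A)) := by
  rw [← Submodule.map_comap_eq]
  exact (Submodule.equivMapOfInjective _ (Y.inf_inj t) _).finrank_eq.symm

/-- A part of the fixed locus that is swept out by an affine subspace `a + Fl`, with the residual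
group `H`. -/
structure Red (h : TH σ Y) extends Dat σ Y.G where
  /-- the residual group -/
  H : Type
  /-- its Lie algebra -/
  L : Type
  [gH : CommGroup H]
  [tH : TopologicalSpace H]
  [tg : IsTopologicalGroup H]
  [nL : NormedAddCommGroup L]
  [sL : NormedSpace ℂ L]
  [fL : FiniteDimensional ℂ L]
  /-- the exponential map -/
  κ : L → H
  /-- the inclusion -/
  r : H →* Y.G
  /-- its differential -/
  dr : L →L[ℂ] Y.L
  /-- the origin -/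
  a : Y.A
  /-- the directions -/
  Fl : Submodule ℂ Y.A
  exp : IsExp κ
  prop : IsProperMap r
  inj : Injective r
  hd : ∀ x, Y.κ (dr x) = r (κ x)
  lift : ∀ s, ∃ g, r g = ρ s
  r_a : ∀ g, r g • a = a
  r_Fl : ∀ g, ∀ v ∈ Fl, r g • v ∈ Fl
  b_a : ∀ s, h.b s a = a
  b_Fl : ∀ s, ∀ v ∈ Fl, h.b s v ∈ Fl
  opn : ∀ t, Y.ι t - a ∈ Fl → ∀ᶠ x in 𝓝 (Y.ι t), x - a ∈ Fl → x ∈ range Y.ι
  tan_le : ∀ t, Y.ι t - a ∈ Fl → tan Y.ι t ≤ Fl ⊔ Y.orbB.F t
  stb : ∀ t t' x, Y.ι t - a ∈ Fl → Y.ι t' - a ∈ Fl → Y.inf t x ∈ Fl → Y.inf t' x ∈ Fl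
  lie : ∀ t x, Y.ι t - a ∈ Fl → t ∈ h.toTS.Fx toDat → Y.inf t x ∈ Fl ⊓ wsp (h.τ toDat) 0 →
    ∃ y, dr y = x
  full : ∀ t (g : Y.G), Y.ι t - a ∈ Fl → t ∈ h.toTS.Fx toDat → Y.ι (g • t) - a ∈ Fl →
    g • t ∈ h.toTS.Fx toDat → ∃ g', r g' = g

attribute [instance] Red.gH Red.tH Red.tg Red.nL Red.sL Red.fL

namespace Red

variable {h : TH σ Y} (c : Red h)

theorem comm (s : Tor σ) (g : c.H) : Commute (c.ρ s) (c.r g) := by
  obtain ⟨g', e⟩ := c.lift s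
  exact e ▸ (Commute.all g' g).map c.r

/-- the twisted action -/
noncomputable abbrev τ : Tor σ →* End ℂ Y.A := h.τ c.toDat

theorem τ_Fl (s : Tor σ) (v : Y.A) (hv : v ∈ c.Fl) : c.τ s v ∈ c.Fl :=
  cx_mem (h.tanV.tw_cont _) (fun s _ v hv => by
    obtain ⟨g, e⟩ := c.lift s
    rw [TV.tw_apply, ← e, ← map_inv]
    exact c.r_Fl _ _ (c.b_Fl _ _ hv)) s hv

theorem a_mem : c.a ∈ wsp c.τ 0 := (h.tanV.mem_wsp _).2 fun s _ => by
  obtain ⟨g, e⟩ := c.lift s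
  rw [← e, c.r_a, chr_zero, Units.val_one, one_smul]
  exact c.b_a _

/-- the fixed points in the affine subspace -/
def T : Type := {t : Y.T // Y.ι t - c.a ∈ c.Fl ∧ t ∈ h.toTS.Fx c.toDat}

instance : TopologicalSpace c.T := instTopologicalSpaceSubtype

theorem smul_mem (g : c.H) {t : Y.T} (ht : Y.ι t - c.a ∈ c.Fl) : Y.ι (c.r g • t) - c.a ∈ c.Fl := by
  rw [Y.eqv, ← c.r_a g, ← smul_sub]
  exact c.r_Fl _ _ ht

instance : MulAction c.H c.T where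
  smul g t := ⟨c.r g • t.1, c.smul_mem g t.2.1, TS.smul_mem_fx t.2.2 (c.comm · g)⟩
  one_smul t := Subtype.ext (show c.r 1 • t.1 = t.1 by rw [map_one, one_smul])
  mul_smul g g' t := Subtype.ext (show c.r (g * g') • t.1 = c.r g • c.r g' • t.1 by
    rw [map_mul, mul_smul])

theorem val_smul (g : c.H) (t : c.T) : (g • t).1 = c.r g • t.1 := rfl

instance : ContinuousSMul c.H c.T := ⟨((c.prop.continuous.comp continuous_fst).smul
  (continuous_subtype_val.comp continuous_snd)).subtype_mk _⟩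

instance : Nice c.T := Nice.of_isLocallyClosed (IsClosed.isLocallyClosed
  (((c.Fl.closed_of_finiteDimensional.preimage (Y.cι.sub continuous_const))).inter
    (h.toTS.isClosed_fx _)))

instance : ProperSMul c.H c.T := properSMul_of_hom c.prop continuous_subtype_val c.val_smul

/-- the embedding -/
def ι (t : c.T) : Y.A := Y.ι t.1

theorem mem_iff {t : Y.T} : Y.ι t - c.a ∈ c.Fl ⊓ wsp c.τ 0 ↔
    Y.ι t - c.a ∈ c.Fl ∧ t ∈ h.toTS.Fx c.toDat :=
  and_congr_right fun _ => ((wsp c.τ 0).sub_mem_iff_left c.a_mem).trans (h.mem_fx_iff _).symm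

theorem isMfd' (t : c.T) : IsMfd c.ι (finrank ℂ (c.Fl ⊓ wsp c.τ 0 : Submodule ℂ Y.A)) t ∧
    tan c.ι t = c.Fl ⊓ wsp c.τ 0 :=
  isMfd_aff (Y.emb.comp IsEmbedding.subtypeVal) (fun z => c.mem_iff.2 z.2)
    ((c.opn _ t.2.1).mono fun _ hx h' => let ⟨y, e⟩ := hx h'.1; ⟨⟨y, c.mem_iff.1 (e ▸ h')⟩, e⟩)

theorem tan_eq {t : Y.T} (ht : Y.ι t - c.a ∈ c.Fl) : tan Y.ι t = c.Fl ⊔ Y.orbB.F t := by
  refine le_antisymm (c.tan_le t ht) (sup_le ?_ (by rintro _ ⟨x, rfl⟩; exact Y.inf_mem_tan _ x))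
  exact (isMfd_aff (j := fun z : {t // Y.ι t - c.a ∈ c.Fl} => Y.ι z)
    (Y.emb.comp IsEmbedding.subtypeVal) (fun z => z.2) (z := ⟨t, ht⟩) ((c.opn _ ht).mono
      fun _ hx h' => let ⟨y, e⟩ := hx h'; ⟨⟨y, e ▸ h'⟩, e⟩)).2.ge.trans
        (tan_le_of_comp continuous_subtype_val.continuousAt)

theorem an (v : Y.A) : AnalyticAt ℂ (fun p : c.L × Y.A => c.r (c.κ p.1) • p.2) (0, v) := by
  simp only [← c.hd]
  exact (Y.an v).comp_of_eq (((c.dr.analyticAt _).comp analyticAt_fst).prod analyticAt_snd)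
    (by simp)

theorem holAct (t : c.T) : HolAct c.κ c.ι t :=
  ⟨_, c.an _, Eventually.of_forall fun _ => Y.eqv _ _⟩

theorem inf_eq (t : c.T) (x : c.L) : inf c.κ c.ι t x = Y.inf t.1 (c.dr x) := by
  have := fderiv_comp_an (g := fun x => Y.ι (Y.κ x • t.1)) (f := c.dr) (x := 0)
    (by rw [map_zero]; exact Y.an_orbit _) (c.dr.analyticAt _)
  rw [c.dr.fderiv, map_zero] at this
  simp only [c.hd] at this
  exact DFunLike.congr_fun this x

theorem inf_inj (t : c.T) : Injective (inf c.κ c.ι t) :=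
  (c.holAct t).inf_injective c.exp (c.isMfd' t).1.eventually_eq
    (((c.prop.continuous.tendsto' _ _ (map_one _)).eventually (Y.eventually_stab t.1)).mono
      fun _ hg e => c.inj ((hg (congrArg Subtype.val e)).trans (map_one _).symm))

/-- the dimension -/
noncomputable def n : ℕ := finrank ℂ (c.Fl ⊓ wsp c.τ 0 : Submodule ℂ Y.A) - finrank ℂ c.L

theorem n_add (t : c.T) : finrank ℂ c.L + c.n = finrank ℂ (c.Fl ⊓ wsp c.τ 0 : Submodule ℂ Y.A) :=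
  Nat.add_sub_cancel' ((c.isMfd' t).1.finrank_le c.exp (c.holAct t) (c.inf_inj t))

theorem holOrb : HolOrb c.H c.ι c.n :=
  HolOrb.of_mfd c.exp c.holAct c.inf_inj (fun t => c.n_add t ▸ (c.isMfd' t).1) fun g _ =>
    ⟨_, (Ch.lin Y.A (c.r g)).analyticAt _, Eventually.of_forall fun _ => Y.eqv _ _⟩

/-- the component as a complex orbifold -/
@[reducible] noncomputable def F : HO where
  toSp := Ch.Sp.of c.holOrb.orb ⟨Q.isOpenQuotientMap, fun _ _ => Q.mk_eq⟩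
  L := c.L
  A := Y.A
  aA := DistribMulAction.compHom Y.A c.r
  cA := @SMulCommClass.mk _ _ _ (_) _ fun g => smul_comm (c.r g)
  tA := @ContinuousSMul.mk _ _ (_) _ _
    ((c.prop.continuous.comp continuous_fst).smul continuous_snd)
  κ := c.κ
  ι := c.ι
  n := c.n
  exp := c.exp
  an := c.an
  emb := Y.emb.comp IsEmbedding.subtypeVal
  eqv _ _ := Y.eqv _ _
  mfd t := c.n_add t ▸ (c.isMfd' t).1

/-- the presentation of the component -/
@[reducible] noncomputable def fd : FD h.toTS where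
  toDat := c.toDat
  F := c.F.toSp
  i := ⟨c.r, Subtype.val, c.prop.continuous, continuous_subtype_val, c.val_smul⟩
  fix t := t.2.2
  comm := c.comm

theorem gs (t : c.T) : GS c.τ c.τ (Y.orbB.F t.1) c.Fl (tan Y.ι t.1) LinearMap.id :=
  ⟨h.wtd_τ _, h.wtd_τ _, h.τ_mem_orb t.2.2, c.τ_Fl, fun hv => hv.2, by
    rw [Submodule.map_id, c.tan_eq t.2.1]⟩

theorem loc (z : c.T) {U : Set c.T} (hU : U ∈ 𝓝 z) :
    ∀ᶠ x in 𝓝 z.1, x ∈ h.toTS.Fix → ∃ (g : Y.G) (u : c.T), u ∈ U ∧ g • u.1 = x := by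
  obtain ⟨φ, rfl, hφ⟩ := c.F.exists_slK z
  have : ContinuousSMul Y.G h.fixS := IsInducing.subtypeVal.continuousSMul continuous_id rfl
  let φ' y : h.fixS := ⟨(φ y).1, TS.fx_subset (φ y).2.2⟩
  have h1 := h.isMfd_of_fx (S := h.fixS) (fun _ h => h) (z := φ' 0) (φ 0).2.2
    (Eventually.of_forall fun _ h => h)
  have c1 := hφ.cont c.exp
  have e1 : inf Y.κ (fun z : h.fixS => Y.ι z) (φ' 0) = Y.inf (φ 0).1 := inf_pull (fun _ _ => rfl) _
  have m1 := fun v => (hφ.mem_tan c.exp (c.holAct _) (v := v)).symm.trans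
    (SetLike.ext_iff.1 (c.isMfd' (φ 0)).2 v)
  have h2 : IsSlK Y.κ (fun z : h.fixS => Y.ι z) φ' 0 := by
    refine IsSlK.of_range Y.exp h1.1 ((Y.hol _).pull continuous_subtype_val.continuousAt
      fun _ _ => rfl) (IsInducing.subtypeVal.continuousAt_iff.2
        (continuous_subtype_val.continuousAt.comp (f := φ) c1)) (IsSlK.an (ι := c.ι) c.exp hφ)
      ((injective_iff_map_eq_zero _).2 fun p hp => ?_) fun v hv => ?_
    · rw [e1, ContinuousLinearMap.coprod_apply] at hp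
      obtain ⟨y, e⟩ := c.lie _ p.1 (φ 0).2.1 (φ 0).2.2 (eq_neg_of_add_eq_zero_left hp ▸
        neg_mem ((m1 _).1 ⟨0, p.2, by rw [map_zero, zero_add]; rfl⟩))
      have := (injective_iff_map_eq_zero _).1 (hφ.injective c.exp (c.holAct _)) (y, p.2)
        ((congrArg (· + _) ((c.inf_eq _ y).trans (congrArg _ e))).trans hp)
      exact Prod.ext (e ▸ (congrArg (fun q => c.dr q.1) this).trans (map_zero _))
        (congrArg (fun q => q.2) this)
    · rw [h1.2, (c.gs (φ 0)).sup_wsp, Submodule.map_id, sup_assoc,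
        sup_eq_right.2 (inf_le_left : Y.orbB.F (φ 0).1 ⊓ _ ≤ _)] at hv
      obtain ⟨u, hu, _, ⟨x, rfl⟩, rfl⟩ := Submodule.mem_sup.1 hv
      obtain ⟨y, z, rfl⟩ := (m1 _).2 hu
      refine ⟨c.dr y + x, z, ?_⟩
      rw [e1, map_add, add_right_comm]
      exact congrArg (· + _ + _) (c.inf_eq _ y).symm
  have h3 : ∀ᶠ x in 𝓝 (φ' 0), ∃ (g : Y.G) (u : c.T), u ∈ U ∧ g • u.1 = x.1 := by
    have := h2.lh.map_nhds
    rw [Y.exp.zero, one_smul] at this
    rw [← this, eventually_map]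
    exact ((c1.tendsto.comp continuousAt_snd.tendsto).eventually hU).mono fun p hp =>
      ⟨_, _, hp, rfl⟩
  exact (eventually_of_emb IsEmbedding.subtypeVal h3).mono fun x hx h' => hx ⟨x, h'⟩ rfl

theorem π_eq {t t' : c.T} (e : Y.π t.1 = Y.π t'.1) : c.F.π t = c.F.π t' := by
  obtain ⟨g, hg⟩ := (Y.fib _ _).1 e
  obtain ⟨g, rfl⟩ := c.full _ g t.2.1 t.2.2 (hg ▸ t'.2.1) (hg ▸ t'.2.2)
  exact (c.F.fib _ _).2 ⟨g, Subtype.ext hg⟩

theorem emb : IsEmbedding c.fd.i.map := by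
  refine ⟨isInducing_iff_nhds.2 fun x => le_antisymm c.fd.i.map.continuous.continuousAt.le_comap
    fun U hU => ?_, fun x x' e => ?_⟩
  · obtain ⟨z, rfl⟩ := c.F.surj x
    refine mem_comap.2 ⟨_, c.fd.i.map_π z ▸ Y.quo.isOpenMap.image_mem_nhds
      (c.loc z (c.F.cont.continuousAt hU)), ?_⟩
    rintro y ⟨x, hx, e⟩
    obtain ⟨y, rfl⟩ := c.F.surj y
    have e' := e.trans (c.fd.i.map_π y)
    obtain ⟨g, u, hu, rfl⟩ := hx (TS.mem_fix_of_π (TS.fx_subset y.2.2) e'.symm)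
    exact c.π_eq ((Y.π_smul g _).symm.trans e') ▸ hu
  · obtain ⟨z, rfl⟩ := c.F.surj x
    obtain ⟨z', rfl⟩ := c.F.surj x'
    exact c.π_eq ((c.fd.i.map_π z).symm.trans (e.trans (c.fd.i.map_π z')))

theorem rk_orb (w : σ → ℤ) (t t' : c.T) :
    finrank ℂ (Y.orbB.F t.1 ⊓ wsp c.τ w : Submodule ℂ Y.A) =
      finrank ℂ (Y.orbB.F t'.1 ⊓ wsp c.τ w : Submodule ℂ Y.A) := by
  rw [finrank_orb, finrank_orb]
  exact congrArg (fun S : Submodule ℂ Y.L => finrank ℂ S) (Submodule.ext fun _ =>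
    ⟨inf_mem_wsp h t.2.2 t'.2.2, inf_mem_wsp h t'.2.2 t.2.2⟩)

theorem rk_stb (w : σ → ℤ) (t t' : c.T) :
    finrank ℂ (Y.orbB.F t.1 ⊓ c.Fl ⊓ wsp c.τ w : Submodule ℂ Y.A) =
      finrank ℂ (Y.orbB.F t'.1 ⊓ c.Fl ⊓ wsp c.τ w : Submodule ℂ Y.A) := by
  rw [inf_assoc, inf_assoc, finrank_orb, finrank_orb]
  exact congrArg (fun S : Submodule ℂ Y.L => finrank ℂ S) (Submodule.ext fun _ =>
    ⟨fun e => ⟨c.stb _ _ _ t.2.1 t'.2.1 e.1, inf_mem_wsp h t.2.2 t'.2.2 e.2⟩,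
      fun e => ⟨c.stb _ _ _ t'.2.1 t.2.1 e.1, inf_mem_wsp h t'.2.2 t.2.2 e.2⟩⟩)

theorem rk_zero (t : c.T) :
    finrank ℂ (Y.orbB.F t.1 ⊓ c.Fl ⊓ wsp c.τ 0 : Submodule ℂ Y.A) = finrank ℂ c.L := by
  rw [← LinearMap.finrank_range_of_inj (f := (inf c.κ c.ι t : c.L →ₗ[ℂ] Y.A)) (c.inf_inj t)]
  refine congrArg (fun S : Submodule ℂ Y.A => finrank ℂ S) (le_antisymm ?_ ?_)
  · rintro _ ⟨⟨⟨x, rfl⟩, h1⟩, h2⟩
    obtain ⟨y, rfl⟩ := c.lie _ x t.2.1 t.2.2 ⟨h1, h2⟩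
    exact ⟨y, c.inf_eq t y⟩
  · rintro _ ⟨y, rfl⟩
    have := (c.isMfd' t).2.le ((c.holAct t).inf_mem_tan c.exp y)
    exact ⟨⟨⟨_, (c.inf_eq t y).symm⟩, this.1⟩, this.2⟩

/-- the fixed component -/
@[reducible] noncomputable def fc : FC h where
  toFD := c.fd
  emb := c.emb
  opn t := (c.loc t univ_mem).mono fun _ hx h' =>
    let ⟨g, u, _, e⟩ := hx h'
    ⟨_, (c.fd.i.map_π u).trans (e ▸ (Y.π_smul g _).symm)⟩
  kT := (nonempty_rk (b := c.fd.tv h.tanV) (h.wtd_τ _) fun w t t' => by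
    have h1 := (c.gs t).finrank w
    have h2 := (c.gs t').finrank w
    rw [Submodule.comap_id, c.rk_stb w _ t'] at h1
    rw [Submodule.comap_id, c.rk_orb w _ t, ← h1] at h2
    exact (Nat.add_right_cancel h2).symm).some
  kO := (nonempty_rk (b := c.fd.tv h.orbV) (h.wtd_τ _) c.rk_orb).some

theorem n_eq (t : c.T) : c.fc.n = c.n := by
  have h1 := (c.gs t).finrank 0
  rw [Submodule.comap_id, c.rk_zero, ← c.n_add t] at h1
  have h2 : finrank ℂ (tan Y.ι t.1 ⊓ wsp c.τ 0 : Submodule ℂ Y.A) = _ := c.fc.kT.rank 0 t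
  have h3 : finrank ℂ (Y.orbB.F t.1 ⊓ wsp c.τ 0 : Submodule ℂ Y.A) = _ := c.fc.kO.rank 0 t
  rw [FC.n, ← h2, ← h3]
  omega

theorem fund_eq (t : c.T) : c.fc.fund = c.F.fund := by
  have := c.fc.fund_eq (ι := c.ι) (c.n_eq t ▸ c.holOrb) (fun _ => HolAt.self)
    (fun t g e => let ⟨g', e'⟩ := c.full _ g t.2.1 t.2.2 (e.symm ▸ t.2.1) (e.symm ▸ t.2.2)
      ⟨g', Subtype.ext (e' ▸ e :), e'⟩) (l := 1) fun t => Nat.card_eq_one_iff_exists.2
        ⟨⟨1, one_smul _ _, map_one _⟩, fun g => Subtype.ext (c.inj (g.2.2.trans (map_one _).symm))⟩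
  rw [this, c.n_eq t, Nat.cast_one, one_smul]
  rfl

end Red

end Vale.Agent.P269.Edg
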