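import Vale.Agent.P269.Edg.Sl

/-!
# Frames of the moving parts
-/

set_option linter.unusedSectionVars false

namespace Vale.Agent.P269.Edg

open Set Function Topology Filter Module Cv Base Ch P1 Loc Holo Orb
open OnePoint hiding some map_smul

variable {T J ν σ : Type} [Fintype T] [DecidableEq T] [Fintype J] [Fintype ν] [Fintype σ]
  {Y : HO}

/-- the two fixed points -/
noncomputable def pt (b : Bool) : OnePoint ℂ := bif b then ∞ else (0 : ℂ)

/-- the vector field that does not vanish at `pt b` -/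
noncomputable def vfl (b : Bool) : Fin 3 → ℂ := bif b then ![0, 0, 1] else ![1, 0, 0]

namespace Sl

variable {h : TH σ Y} {ch : Ch (Option T) J} (S : Sl h ch ν) {k : KP Y.toSp} {B : Type}
  [TopologicalSpace B] (z : Zd S.red k B)

/-- the fixed points that are not marked -/
abbrev ιS : Type := {b : Bool // ∀ n, S.q n ≠ pt b}

open Classical in
noncomputable instance : Fintype S.ιS := Subtype.fintype _

theorem card_ιS : Fintype.card S.ιS + Fintype.card ν = 2 := by
  have : ∀ n, ∃ b, pt b = S.q n := fun n => (S.hq n).elim (⟨false, ·.symm⟩) (⟨true, ·.symm⟩)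
  choose f hf using this
  have i : Injective pt := by
    rintro (_ | _) (_ | _) e
    exacts [rfl, (coe_ne_infty _ e).elim, (coe_ne_infty _ e.symm).elim, rfl]
  rw [← Fintype.card_sum, ← Fintype.card_bool]
  refine Fintype.card_of_bijective (f := Sum.elim Subtype.val f) ⟨Subtype.val_injective.sumElim
    (fun n n' e => S.std.inj (by rw [← hf, e, hf])) fun a n e => a.2 n (e ▸ (hf n).symm), fun b => ?_⟩
  by_cases e : ∀ n, S.q n ≠ pt b
  · exact ⟨.inl ⟨b, e⟩, rfl⟩
  · obtain ⟨n, e⟩ := not_forall.1 e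
    exact ⟨.inr n, i ((hf n).trans (not_not.1 e))⟩

/-- the character of the vector field -/
noncomputable def χS (b : Bool) : ℂˣ × Tor T →ₜ* ℂˣ :=
  bif b then (ContinuousMonoidHom.fst _ _)⁻¹ else ContinuousMonoidHom.fst _ _

/-- the weight of the vector field -/
def wS (b : Bool) : σ → ℤ := bif b then S.wa else -S.wa

/-- the fundamental vector field -/
noncomputable def vS (b : Bool) (t : Y.T) : Y.A := Y.inf t (S.dθ.symm (lie ch S.q (vfl b, 0)))

theorem smul_vS (b : Bool) (g : ℂˣ × Tor T) (t : Y.T) :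
    S.r g • S.vS b t = (χS b g : ℂ) • S.vS b (S.r g • t) := by
  rw [vS, vS, S.r_inf, ← map_smul, ← map_smul, ← map_smul, Prod.smul_mk, smul_zero]
  refine congrArg (fun v => Y.inf _ (S.dθ.symm (lie ch S.q (v, 0)))) (funext fun i => ?_)
  have : (((ContinuousMonoidHom.fst ℂˣ (Tor T))⁻¹ g : ℂˣ) : ℂ) = (g.1 : ℂ)⁻¹ :=
    Units.val_inv_eq_inv_val _
  cases b <;> fin_cases i <;> simp [adv, vfl, χS, this]

theorem tw_inf {t : Y.T} (h2 : t ∈ h.toTS.Fx S.dat) {s : Tor σ} (hs : s ∈ cpt σ) (ξ : Y.L) :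
    h.tanV.tw S.dat s (Y.inf t ξ) = S.r (S.ρ s)⁻¹ • Y.inf (S.r (S.ρ s) • t) ξ := by
  have e : S.dat.ρ s = S.r (S.ρ s) := by rw [dat_ρ, ph_of_mem hs]
  rw [map_inv, ← e, ← h2 s, ← h.b_inf]
  rfl

theorem mf_vS {t : Y.T} (h1 : Y.ι t - S.a ∈ S.Fl) (h2 : t ∈ h.toTS.Fx S.dat) :
    MF (h.τ S.dat) (Y.orbB.F t ⊓ S.Fl) (fun b : S.ιS => S.wS b) fun b => S.vS b t := by
  have st := (S.sub_mem.1 h1).stb_eq S.gz
  let L : (Fin 3 → ℂ) × (Option T → ℂ) →ₗ[ℂ] Y.A :=
    (Y.inf t : Y.L →ₗ[ℂ] Y.A) ∘ₗ (S.dθ.symm : ch.A ν →ₗ[ℂ] Y.L) ∘ₗ lie ch S.q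
  have hL : Injective L := (Y.inf_inj t).comp (S.dθ.symm.injective.comp S.gz.lie_injective)
  refine ⟨?_, fun b => ⟨⟨_, rfl⟩, S.inf_mem_Fl.2 (st.ge ⟨(vfl b, 0), ?_,
    (S.dθ.apply_symm_apply _).symm⟩)⟩, fun b => (mem_wsp_cx (h.tanV.tw_cont _)).2 fun s hs => ?_,
      ?_⟩
  · have : LinearIndependent ℂ vfl := Fintype.linearIndependent_iff.2 fun c e b => by
      cases b
      · simpa [vfl] using congrFun e 0
      · simpa [vfl] using congrFun e 2
    exact (this.comp _ Subtype.val_injective).map' (L ∘ₗ .inl ℂ _ _)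
      (LinearMap.ker_eq_bot.2 (hL.comp LinearMap.inl_injective))
  · refine (cst_apply _ _).trans (Prod.ext (funext fun n => ?_) ?_)
    · change ev 3 (S.q n) _ = 0
      obtain ⟨_ | _, hb⟩ := b
      · rw [(S.hq n).resolve_left (hb n)]
        exact ev_infty 2 _
      · rw [(S.hq n).resolve_right (hb n)]
        simp [ev_three, vfl]
    · have : (vfl b.1) 1 = 0 := by cases b.1 <;> rfl
      rw [lg_apply, Finset.sum_eq_zero fun n _ => by rcases S.hq n with e | e <;> simp [e, this]]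
      simp [this]
  · refine (S.tw_inf h2 hs _).trans ((S.smul_vS b _ _).trans ?_)
    rw [map_inv S.r, inv_smul_smul]
    obtain ⟨_ | _, -⟩ := b
    · exact congrArg (fun c : ℂˣ => (c : ℂ) • _) (chr_neg _ _).symm
    · exact congrArg (fun c : ℂˣ => (c : ℂ) • _) (inv_inv _)
  · rintro _ ⟨⟨ξ, rfl⟩, hu⟩
    obtain ⟨⟨v, α⟩, a, e⟩ := st.le (S.inf_mem_Fl.1 hu)
    obtain rfl := S.dθ.symm_apply_eq.2 e
    replace a : ∀ n, ev 3 (S.q n) v = 0 := congrFun (congrArg Prod.fst ((cst_apply _ _).symm.trans a))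
    refine ⟨L (![0, v 1, 0], α), (mem_wsp_cx (h.tanV.tw_cont _)).2 fun s hs =>
      (S.tw_inf h2 hs _).trans ((S.r_inf ..).trans ?_), ?_⟩
    · rw [map_inv S.r, inv_smul_smul, Loc.chr_zero, Units.val_one, one_smul]
      refine congrArg (fun v => L (v, α)) (funext fun i => ?_)
      fin_cases i <;> simp [adv]
    · have k : ∀ b (c : ℂ), ((∃ n, S.q n = pt b) → c = 0) →
          c • L (vfl b, 0) ∈ Submodule.span ℂ (range fun b : S.ιS => S.vS b t) := fun b c e => by
        by_cases d : ∃ n, S.q n = pt b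
        · rw [e d, zero_smul]
          exact zero_mem _
        · exact Submodule.smul_mem _ _ (Submodule.subset_span ⟨⟨b, not_exists.1 d⟩, rfl⟩)
      have d : L (v, α) - L (![0, v 1, 0], α) = v 0 • L (vfl false, 0) + v 2 • L (vfl true, 0) := by
        rw [← map_sub, ← map_smul, ← map_smul, ← map_add]
        refine congrArg L (Prod.ext (funext fun i => ?_) (by simp))
        fin_cases i <;> simp [vfl, Matrix.vecHead, Matrix.vecTail]
      refine d.symm ▸ add_mem (k _ _ fun ⟨n, e⟩ => ?_) (k _ _ fun ⟨n, e⟩ => ?_)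
      · simpa [e, pt, ev_three] using a n
      · exact (ev_infty 2 v).symm.trans ((congrArg (ev 3 · v) e).symm.trans (a n))

/-- the infinitesimal automorphisms -/
noncomputable def frS : z.Fr h.tanV (fun t => Y.orbB.F (z.j t).1 ⊓ S.Fl) S.ιS where
  wt b := S.wS b
  χ b := χS b
  v b t := S.vS b (z.j t).1
  ne b := by
    rcases b with ⟨_ | _, -⟩
    exacts [neg_ne_zero.2 S.ne, S.ne]
  cont _ := (Y.continuous_inf.comp (continuous_subtype_val.comp z.emb.continuous)).clm_apply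
    continuous_const
  eqv b g t := (S.smul_vS b g _).trans (by rw [z.eqv]; rfl)
  mf t := S.mf_vS (z.j t).2.1 (z.j t).2.2

open Classical in
/-- a monomial field -/
noncomputable def mono (x : Σ j, Fin (S.n j)) : Y.A := S.vec (Pi.single x.1 (Pi.single x.2 1))

theorem smul_mono (g : ℂˣ × Tor T) (x : Σ j, Fin (S.n j)) :
    S.r g • S.mono x = (chH (S.w x.1) x.2 g : ℂ) • S.mono x := by
  classical
  rw [mono, smul_vec, ← map_smul]
  refine congrArg S.vec (funext₂ fun j e => ?_)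
  obtain ⟨i, d⟩ := x
  obtain rfl | a := eq_or_ne j i
  · obtain rfl | a := eq_or_ne e d <;> simp [*]
  · simp [a]

theorem mono_mem (x : Σ j, Fin (S.n j)) : S.mono x ∈ wsp (h.τ S.dat) (S.wgt x.1 x.2) := by
  classical
  refine S.vec_mem_wsp.2 fun j e k => ?_
  obtain ⟨i, d⟩ := x
  obtain rfl | a := eq_or_ne j i
  · simp [show e ≠ d from fun a => k (a ▸ rfl)]
  · simp [a]

variable {ιK : Type} [Fintype ιK] {f : ιK → Σ j, Fin (S.n j)} (hf : Injective f)
  (hr : ∀ x, x ∈ range f ↔ S.wgt x.1 x.2 ≠ 0)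

include hf hr in
theorem mf_mono {U : Submodule ℂ Y.A} (h1 : ∀ u ∈ U, ∃ c, S.vec c = u)
    (h2 : ∀ i, S.mono (f i) ∈ U) :
    MF (h.τ S.dat) U (fun i => S.wgt (f i).1 (f i).2) fun i => S.mono (f i) := by
  classical
  let β := Pi.basis fun j => Pi.basisFun ℂ (Fin (S.n j))
  have e : ∀ x, S.mono x = S.vec (β x) := fun x => by
    rw [mono, Pi.basis_apply, Pi.basisFun_apply]
  refine ⟨?_, h2, fun i => S.mono_mem _, fun u hu => ?_⟩
  · simp only [e]
    exact (β.linearIndependent.comp _ hf).map' (S.vec : Co S.n →ₗ[ℂ] Y.A)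
      (LinearMap.ker_eq_bot.2 S.vec_injective)
  · obtain ⟨c, rfl⟩ := h1 u hu
    refine ⟨∑ x with S.wgt x.1 x.2 = 0, β.repr c x • S.mono x, sum_mem fun x hx =>
      Submodule.smul_mem _ _ ((Finset.mem_filter.1 hx).2 ▸ S.mono_mem x), ?_⟩
    have d : S.vec c = ∑ x, β.repr c x • S.mono x := by
      simp only [e, ← map_smul, ← map_sum, β.sum_repr]
    rw [d, ← Finset.sum_filter_add_sum_filter_not _ fun x => S.wgt x.1 x.2 = 0, add_sub_cancel_left]
    exact sum_mem fun x hx => let ⟨i, a⟩ := (hr x).2 (Finset.mem_filter.1 hx).2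
      Submodule.smul_mem _ _ (Submodule.subset_span ⟨i, congrArg S.mono a⟩)

/-- the moving monomials -/
noncomputable def frK {U : z.Z → Submodule ℂ Y.A} (h1 : ∀ t, ∀ u ∈ U t, ∃ c, S.vec c = u)
    (h2 : ∀ t i, S.mono (f i) ∈ U t) : z.Fr h.tanV U ιK where
  wt i := S.wgt (f i).1 (f i).2
  χ i := chH (S.w (f i).1) (f i).2
  v i _ := S.mono (f i)
  ne i := (hr _).1 ⟨i, rfl⟩
  cont _ := continuous_const
  eqv _ g _ := S.smul_mono g _
  mf t := S.mf_mono hf hr (h1 t) (h2 t)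

end Sl

end Vale.Agent.P269.Edg
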