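import Vale.Agent.P269.Edg.Ind
import Vale.Agent.P269.Edg.Ev
import Vale.Agent.P269.Base.Mfd

/-!
# Open parts of the smooth space of a chart as complex orbifolds
-/

set_option linter.unusedSectionVars false

namespace Vale.Agent.P269.Edg

open Set Function Topology Filter Module Cv Base Ch P1 Loc Holo
open OnePoint hiding some map_smul

variable {ι J ν : Type} [Fintype ι] [DecidableEq ι] [Fintype J] [Fintype ν]

/-- `Y` is an open part of the smooth space of the chart -/
structure Prs (Y : HO) (ch : Ch ι J) (ν : Type) [Fintype ν] where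
  /-- the groups -/
  θ : Y.G ≃* (ch.A ν)ˣ
  /-- the Lie algebras -/
  dθ : Y.L ≃L[ℂ] ch.A ν
  /-- the ambient spaces -/
  μ : Y.A ≃L[ℂ] ch.W ν
  cθ : Continuous θ
  cθ' : Continuous θ.symm
  eqv : ∀ g v, μ (g • v) = act (θ g : ch.A ν) (μ v)
  exp : ∀ ξ, θ (Y.κ ξ) = expU (dθ ξ)
  mem : ∀ t, μ (Y.ι t) ∈ ch.base ν
  opn : ∀ t, ∀ᶠ v in 𝓝 (Y.ι t), μ v ∈ ch.base ν → v ∈ range Y.ι

namespace Prs

variable {Y : HO} {ch : Ch ι J} (p : Prs Y ch ν) {q : ν → OnePoint ℂ}

/-- the point of the chart -/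
noncomputable def x (t : Y.T) : ch.W ν := p.μ (Y.ι t)

/-- the field directions -/
noncomputable def Fl : Submodule ℂ Y.A := (fl ch ν).range.comap (p.μ : Y.A →ₗ[ℂ] ch.W ν)

theorem mem_Fl {v : Y.A} : v ∈ p.Fl ↔ p.μ v ∈ (fl ch ν).range := Iff.rfl

theorem x_smul (g : Y.G) (t : Y.T) : p.x (g • t) = act (p.θ g : ch.A ν) (p.x t) :=
  (congrArg p.μ (Y.eqv g t)).trans (p.eqv g _)

/-- the point of the smooth space -/
noncomputable def j (t : Y.T) : Holo.Sp act (ch.base ν) := Sp.of act (p.x t) (p.mem t)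

theorem lh_j (t : Y.T) : LH p.j t := by
  have e : IsEmbedding fun t => (p.j t).val := p.μ.toHomeomorph.isEmbedding.comp Y.emb
  refine lh_of_range_mem (Sp.isEmbedding_val.of_comp_iff.1 e) ?_
  have c : Tendsto (fun s : Holo.Sp act (ch.base ν) => p.μ.symm s.val) (𝓝 (p.j t)) (𝓝 (Y.ι t)) :=
    (p.μ.symm.continuous.comp Sp.isEmbedding_val.continuous).tendsto' _ _
      (p.μ.symm_apply_apply _)
  filter_upwards [c.eventually (p.opn t)] with s hs
  obtain ⟨u, e⟩ := hs (by rw [p.μ.apply_symm_apply]; exact s.val_mem)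
  exact ⟨u, Sp.ext ((congrArg p.μ e).trans (p.μ.apply_symm_apply _))⟩

theorem isMfd_j (t : Y.T) : IsMfd Sp.val (finrank ℂ Y.L + Y.n) (p.j t) :=
  (Y.mfd t).push (p.lh_j t) (.of_an (p.μ.analyticAt _))
    ⟨_, p.μ.symm.analyticAt _, .of_forall fun _ => (p.μ.symm_apply_apply _).symm⟩

theorem μ_inf (t : Y.T) (ξ : Y.L) : p.μ (Y.inf t ξ) = dact (p.x t) (p.dθ ξ) := by
  have a := p.μ.comp_fderiv (f := fun x => Y.ι (Y.κ x • t)) (x := 0)
  have b := p.dθ.comp_right_fderiv (f := fun a : ch.A ν => (expU a • p.j t).val) (x := 0)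
  rw [map_zero, show fderiv ℂ (fun a : ch.A ν => (expU a • p.j t).val) 0 = _ from inf_eq (p.j t),
    show _ ∘ _ = p.μ ∘ fun x => Y.ι (Y.κ x • t) from funext fun x =>
      ((p.x_smul _ t).trans (by rw [p.exp]; rfl)).symm, a] at b
  exact DFunLike.congr_fun b ξ

theorem inf_mem_Fl {t : Y.T} {ξ : Y.L} : Y.inf t ξ ∈ p.Fl ↔ p.dθ ξ ∈ stb (p.x t) := by
  rw [mem_Fl, μ_inf]
  rfl

include p in
theorem dim (hN : Num₀ ch) (t : Y.T) : (finrank ℂ Y.L + Y.n : ℤ) = ch.dimB ν := by
  obtain ⟨N, h1, h2⟩ := hN.mfdAt (p.mem t)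
  rw [← h1, ← (p.isMfd_j t).unique (h2.isMfd (p.mem t)), Nat.cast_add]

theorem tan_le (hN : Num₀ ch) (r : Gz ch ν) (hν : Fintype.card ν ≤ 3) {t : Y.T}
    (h : Std (p.x t) q) : tan Y.ι t ≤ p.Fl ⊔ Y.orbB.F t := fun v hv => by
  have a := (Y.mfd t).fderiv_mem_tan (ι' := Sp.val) (p.lh_j t).cont (p.μ.analyticAt _)
    (.of_forall fun _ => rfl) hv
  obtain ⟨ξ, F, e⟩ := (mem_tan (p.isMfd_j t) (h.dim r hν (by
    rw [Nat.cast_add, p.dim hN t, dimB, finrank_Fl']))).1 a
  rw [p.μ.fderiv] at e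
  refine Submodule.mem_sup.2 ⟨p.μ.symm (fl ch ν F), ⟨F, (p.μ.apply_symm_apply _).symm⟩, _,
    ⟨p.dθ.symm ξ, rfl⟩, p.μ.injective ?_⟩
  rw [map_add, p.μ.apply_symm_apply, add_comm]
  exact (congrArg (· + _) ((p.μ_inf t _).trans (by rw [p.dθ.apply_symm_apply]; rfl))).trans e

end Prs

section dg

variable {T : Type} [Fintype T] [DecidableEq T] {ch : Ch (Option T) J} {q : ν → OnePoint ℂ}

/-- the exponential map of the diagonal torus -/
noncomputable def exH (T : Type) : ℂ × (T → ℂ) → ℂˣ × Tor T := Prod.map expU expT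

theorem isExp_exH : IsExp (exH T) := isExp_expU.prod isExp_expT

theorem isProperMap_dgR (r : Gz ch ν) : IsProperMap (dgR ch q) := by
  let z : ∀ i, Fin (ch.M i) := fun i => ⟨0, Nat.pos_of_ne_zero (r.M_ne i)⟩
  let φ : (ch.A ν)ˣ → ℂ × (T → ℂ) := fun s =>
    (s.val.1 ch.o 1 ⟨1, r.two_le⟩ * s⁻¹.val.1 ch.o 1 (z _),
      fun i => s.val.1 (some i) 1 (z _) * s⁻¹.val.1 none 1 (z _))
  have c : Continuous φ := by
    have := Units.continuous_val (M := ch.A ν)
    have := Units.continuous_coe_inv (M := ch.A ν)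
    fun_prop
  have e : ∀ g, φ (dgR ch q g) = (g.1.val, fun i => (g.2 i).val) := fun g => by
    simp only [φ, ← map_inv, coe_dgR, dgA, z, P1.diag_apply]
    simp [tR_some, mul_right_comm _ g.1.val]
  refine isProperMap_of_comp_of_t2 continuous_dgR (g := fun s =>
    (((φ s).1, MulOpposite.op (φ s⁻¹).1), fun i => ((φ s).2 i, MulOpposite.op ((φ s⁻¹).2 i))))
    (by fun_prop) ?_
  have k := (Units.isClosedEmbedding_embedProduct (α := ℂ)).isProperMap
  refine (congrArg _ (funext fun g => ?_)).mp (k.prodMap (IsProperMap.pi_map fun _ : T => k))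
  simp only [comp_apply, ← map_inv, e]
  rfl

theorem exp_map {A B : Type} [NormedRing A] [NormedAlgebra ℂ A] [CompleteSpace A] [NormedRing B]
    [NormedAlgebra ℂ B] (f : A →+* B) (hf : Continuous f) (x : A) :
    f (NormedSpace.exp x) = NormedSpace.exp (f x) :=
  NormedSpace.map_exp_of_mem_ball (𝕂 := ℂ) f hf x
    ((NormedSpace.expSeries_radius_eq_top ℂ A).symm ▸ edist_lt_top _ _)

theorem exp_diag {n : ℕ} (c : Fin n → ℂ) :
    NormedSpace.exp (diag c) = diag fun j => Complex.exp (c j) := by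
  refine (exp_map ⟨⟨⟨diag, ?_⟩, fun _ _ => ?_⟩, ?_, fun _ _ => ?_⟩
    (continuous_diag continuous_apply) c).symm.trans (congrArg diag (funext fun j => ?_))
  · ext; simp
  · ext; simp [mul_assoc]
  · ext; simp
  · ext; simp [add_mul]
  · rw [Complex.exp_eq_exp_ℂ]
    exact exp_map (Pi.evalRingHom _ j) (continuous_apply j) c

theorem vf_diag (n : ℕ) (α a : ℂ) : vf n α ![0, a, 0] = diag fun j => α + (j : ℕ) * a :=
  ContinuousLinearMap.ext fun v => funext fun j => by
    simp [vf, show xt n j = .proj j from dif_pos j.2]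

theorem exp_lie {ch : Ch ι J} (a : ℂ) (α : ι → ℂ) : NormedSpace.exp (lie ch q (![0, a, 0], α)) =
    dgA ch q (Complex.exp a) fun i => Complex.exp (α i) := by
  have := FiniteDimensional.complete ℂ (ch.A ν)
  refine Prod.ext (funext fun i => ?_) (Prod.ext (funext fun l => ?_) (funext₂ fun n i => ?_))
  · refine (exp_map (A := ch.A ν) (B := _ →L[ℂ] _) ((Pi.evalRingHom _ i).comp (RingHom.fst _ _))
      ((continuous_apply i).comp continuous_fst) _).trans ?_
    change NormedSpace.exp (vf _ _ _) = _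
    simp only [vf_diag, exp_diag, dgA, Complex.exp_add, Complex.exp_nat_mul]
  · refine (exp_map (A := ch.A ν) (B := _ →L[ℂ] _) ((Pi.evalRingHom _ l).comp
      ((RingHom.fst _ _).comp (RingHom.snd _ _)))
      ((continuous_apply l).comp (continuous_fst.comp continuous_snd)) _).trans ?_
    change NormedSpace.exp (-tr (vf _ _ _)) = _
    rw [vf_diag, tr_diag, show ∀ c, -diag c = diag (-c) from fun c => by ext; simp, exp_diag]
    simp only [dgA, Pi.neg_apply, Complex.exp_neg, Complex.exp_add, Complex.exp_nat_mul,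
      Complex.exp_sum, Base.chr]
  · refine (exp_map (A := ch.A ν) (B := ℂ) ((Pi.evalRingHom (fun _ : ι => ℂ) i).comp
      ((Pi.evalRingHom (fun _ : ν => ι → ℂ) n).comp ((RingHom.snd _ _).comp (RingHom.snd _ _))))
      (show Continuous fun s : ch.A ν => s.2.2 n i by fun_prop) _).trans ?_
    change NormedSpace.exp (-sw _ _ _ (q n)) = (_ * wt _ _ (q n))⁻¹
    rw [← Complex.exp_eq_exp_ℂ, Complex.exp_neg]
    induction q n using OnePoint.rec <;> simp [sw, Complex.exp_add, ← Complex.exp_nat_mul]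

/-- the differential of the diagonal homomorphism -/
theorem exists_dR (r : Gz ch ν) (_hq : ∀ n, q n = (0 : ℂ) ∨ q n = ∞) :
    ∃ d : ℂ × (T → ℂ) →L[ℂ] ch.A ν, (∀ y, expU (d y) = dgR ch q (exH T y)) ∧
      ∀ (a : ℂ) α, cst ch q (![0, a, 0], α) = 0 → ∃ y, d y = lie ch q (![0, a, 0], α) := by
  let c : ℂ × (T → ℂ) → ℂ := fun y => ch.k * lg q ![0, y.1, 0] - ∑ i, ch.χ (some i) * y.2 i
  have v : ∀ a : ℂ, ![0, a, 0] = a • ![0, 1, 0] := fun a => by simp
  have L : IsLinearMap ℂ fun y : ℂ × (T → ℂ) =>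
      ((![0, y.1, 0], fun o => o.elim 0 y.2 + c y) : (Fin 3 → ℂ) × (Option T → ℂ)) := by
    refine ⟨fun y z => Prod.ext (by simp) (funext fun o => ?_),
      fun s y => Prod.ext (by simp) (funext fun o => ?_)⟩
    · simp only [c, v (Prod.fst _), map_smul]
      cases o <;> simp [mul_add, Finset.sum_add_distrib] <;> ring
    · simp only [c, v (Prod.fst _), map_smul]
      cases o <;> simp [mul_left_comm _ s, ← Finset.mul_sum] <;> ring
  refine ⟨LinearMap.toContinuousLinearMap (lie ch q ∘ₗ L.mk' _), fun y => Units.ext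
    ((exp_lie _ _).trans (congrArg₂ _ (congrFun Complex.exp_eq_exp_ℂ _) (funext fun o => ?_))),
    fun a α h => ⟨(a, fun i => α (some i) - α none), congrArg (lie ch q)
      (Prod.ext rfl (funext fun o => ?_))⟩⟩
  · have e : Complex.exp (c y) = (tR ch q (exH T y)).2 none := by
      have : Complex.exp (lg q ![0, y.1, 0]) = Complex.exp y.1 / nf q (Complex.exp y.1) := by
        rw [lg_apply, Complex.exp_sub, Complex.exp_sum]
        refine congrArg₂ _ rfl (Finset.prod_congr rfl fun n _ => ?_)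
        induction q n using OnePoint.rec <;> simp
      simp [c, tR_none, Complex.exp_sub, Complex.exp_nat_mul, Complex.exp_sum, Complex.exp_int_mul,
        this, exH, coe_nfU, coe_expT, ← Complex.exp_eq_exp_ℂ]
    rw [Complex.exp_add, e]
    cases o
    · simp
    · rw [tR_some]
      rfl
  · have e := sub_eq_zero.1 (congrArg Prod.snd ((cst_apply _ α).symm.trans h))
    have o1 := congrArg (Int.cast : ℤ → ℂ) r.one
    have : c (a, fun i => α (some i) - α none) = α none := by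
      simp only [c, e, Fintype.sum_option, mul_sub, Finset.sum_sub_distrib, ← Finset.sum_mul,
        Int.cast_add, Int.cast_sum, Int.cast_one] at o1 ⊢
      linear_combination α none * o1
    cases o <;> simp [this]

end dg

end Vale.Agent.P269.Edg
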