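import Vale.Agent.P269.Edg.Prs

/-!
# The slice of the standard points
-/

set_option linter.unusedSectionVars false

namespace Vale.Agent.P269.Edg

open Set Function Topology Filter Module Cv Base Ch P1 Loc Holo Orb
open OnePoint hiding some map_smul

variable {T J ν σ : Type} [Fintype T] [DecidableEq T] [Fintype J] [Fintype ν] [Fintype σ]
  {Y : HO}

/-- the character of the diagonal torus on the monomial `z ^ e` in a field of weight `w` -/
noncomputable def chH (w : T → ℤ) (e : ℕ) : ℂˣ × Tor T →ₜ* ℂˣ :=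
  ((chrC w).comp (ContinuousMonoidHom.snd _ _) * ContinuousMonoidHom.fst _ _ ^ e)⁻¹

theorem chH_apply (w : T → ℤ) (e : ℕ) (g : ℂˣ × Tor T) :
    chH w e g = (chr w g.2 * g.1 ^ e)⁻¹ :=
  congrArg (fun a => (Loc.chr w g.2 * a)⁻¹) (ContinuousMonoidHom.pow_apply _ e g)

theorem chr_zsmul (k : ℤ) (w : σ → ℤ) (s : Tor σ) : Loc.chr (k • w) s = Loc.chr w s ^ k := by
  simp only [chr_apply, Pi.smul_apply, smul_eq_mul, mul_comm k, zpow_mul, Finset.prod_zpow]

theorem chr_sum {α : Type} (A : Finset α) (w : α → σ → ℤ) (s : Tor σ) :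
    Loc.chr (∑ r ∈ A, w r) s = ∏ r ∈ A, Loc.chr (w r) s :=
  map_prod (⟨⟨fun w => Loc.chr w.toAdd s, chr_zero s⟩, fun _ _ => chr_add _ _ s⟩ :
    Multiplicative (σ → ℤ) →* ℂˣ) (fun r => Multiplicative.ofAdd (w r)) A

theorem gen_pow_inj {w : σ → ℤ} (hw : w ≠ 0) :
    Injective fun k : ℕ => (Loc.chr w (gen σ) : ℂ) ^ k := fun k l e => by
  simp only [← Units.val_pow_eq_pow_val, ← chr_nsmul] at e
  obtain ⟨i, a⟩ := ne_iff.1 hw
  simpa [show w i ≠ 0 from a] using congrFun (chr_gen_injective e) i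

/-- maps that commute with a generic diagonal matrix fix the axes -/
theorem exists_eig {n : ℕ} {M : (Fin n → ℂ) →L[ℂ] Fin n → ℂ} {c : Fin n → ℂ} (hc : Injective c)
    (h : diag c * M = M * diag c) (hM : IsUnit M) (v : Fin n → ℂ) (j : Fin n) (h1 : v j = 1)
    (h0 : ∀ k ≠ j, v k = 0) : ∃ t ≠ (0 : ℂ), M v = t • v := by
  have e : M v = M v j • v := funext fun k => by
    by_cases a : k = j
    · rw [a, Pi.smul_apply, h1, smul_eq_mul, mul_one]
    · have d : diag c v = c j • v := funext fun l => by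
        by_cases b : l = j
        · rw [b]; rfl
        · simp [h0 l b]
      have := congrFun (congrArg (· v) h) k
      simp only [mul_apply_eq_comp, d, P1.diag_apply, map_smul, Pi.smul_apply, smul_eq_mul] at this
      rw [Pi.smul_apply, h0 k a, smul_zero]
      exact (mul_eq_mul_right_iff.1 this).resolve_left (hc.ne a)
  refine ⟨M v j, fun a => ?_, e⟩
  rw [a, zero_smul, map_eq_zero_iff _ (LeftInverse.injective (inv_ap hM))] at e
  exact one_ne_zero (h1.symm.trans (congrFun e j))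

theorem eq_fl {ι : Type} [Fintype ι] [DecidableEq ι] {ch : Ch ι J} {y : ch.W ν}
    (h : y ∈ (fl ch ν).range) : y = fl ch ν y.X := by
  obtain ⟨F, rfl⟩ := h
  rfl

/-- the numerical data of the slice -/
structure Sl (h : TH σ Y) (ch : Ch (Option T) J) (ν : Type) [Fintype ν] extends Prs Y ch ν where
  /-- the marked points -/
  q : ν → OnePoint ℂ
  /-- the origin -/
  x₀ : ch.W ν
  /-- the weights of the fields -/
  w : J → T → ℤ
  /-- the weights of the fields for the big torus -/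
  wt : J → σ → ℤ
  /-- the numbers of coefficients -/
  n : J → ℕ
  /-- the multiple -/
  m : ℕ
  /-- the character of the scaling -/
  wa : σ → ℤ
  /-- the characters on the line bundles -/
  wT : T → σ → ℤ
  hm : m ≠ 0
  gz : Gz ch ν
  num : Num₀ ch
  std : Std x₀ q
  zero : x₀.X = 0
  hq : ∀ n, q n = (0 : ℂ) ∨ q n = ∞
  ne : wa ≠ 0
  wd : ∀ j, ch.wd j = Tgt.hat (w j)
  dg : Dg ch n
  b : ∀ s v, μ (h.b s v) = scl (fun j => chr (wt j) s) (μ v)

namespace Sl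

variable {h : TH σ Y} {ch : Ch (Option T) J} (S : Sl h ch ν)

/-- the inclusion of the diagonal torus -/
noncomputable def r : ℂˣ × Tor T →* Y.G := S.θ.symm.toMonoidHom.comp (dgR ch S.q)

theorem θ_r (g : ℂˣ × Tor T) : S.θ (S.r g) = dgR ch S.q g := S.θ.apply_symm_apply _

/-- the lift of the action of the big torus -/
noncomputable def ρ : Tor σ →* ℂˣ × Tor T :=
  (chr S.wa).prod (MonoidHom.pi fun r => chr (S.wT r))

theorem continuous_r : Continuous S.r := S.cθ'.comp continuous_dgR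

theorem continuous_ρ : Continuous S.ρ :=
  (continuous_chr _).prodMk (continuous_pi fun _ => continuous_chr _)

/-- the datum -/
noncomputable def dat : Dat σ Y.G :=
  Dat.of S.m S.hm (S.r.comp S.ρ) (S.continuous_r.comp S.continuous_ρ)

theorem dat_ρ (s : Tor σ) : S.dat.ρ s = S.r (S.ρ (ph s)) := rfl

/-- the differential of the inclusion -/
noncomputable def dr : ℂ × (T → ℂ) →L[ℂ] Y.L :=
  (S.dθ.symm : ch.A ν →L[ℂ] Y.L).comp (exists_dR S.gz S.hq).choose

/-- the origin -/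
noncomputable def a : Y.A := S.μ.symm S.x₀

theorem μ_a : S.μ S.a = S.x₀ := S.μ.apply_symm_apply _

theorem μ_r (g : ℂˣ × Tor T) (v : Y.A) : S.μ (S.r g • v) = act (dgR ch S.q g : ch.A ν) (S.μ v) :=
  S.θ_r g ▸ S.eqv _ v

theorem sc_q (a : ℂ) : sc a ∘ S.q = S.q := funext fun n => by
  rcases S.hq n with e | e <;> simp [e]

theorem ρ_gen : S.dat.ρ (gen σ) = S.r (S.ρ (gen σ)) := by rw [dat_ρ, ph_of_mem gen_mem]

include S in
open Classical in
theorem card_le : Fintype.card ν ≤ 2 :=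
  (Finset.card_le_card_of_injOn S.q (t := {((0 : ℂ) : OnePoint ℂ), ∞})
    (fun n _ => by simpa using S.hq n) S.std.inj.injOn).trans Finset.card_le_two

theorem sub_mem {v : Y.A} : v - S.a ∈ S.Fl ↔ Std (S.μ v) S.q := by
  rw [S.mem_Fl, map_sub, μ_a, mem_range_fl]
  exact ⟨fun ⟨a, b, c⟩ => S.std.congr (funext fun l => sub_eq_zero.1 (a l))
    (funext fun n => sub_eq_zero.1 (b n)) (sub_eq_zero.1 c), fun a =>
      let ⟨a, b, c⟩ := S.std.unique a
      ⟨fun l => sub_eq_zero.2 (congrFun a l), fun n => sub_eq_zero.2 (congrFun b n),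
        sub_eq_zero.2 c⟩⟩

theorem hd (y : ℂ × (T → ℂ)) : Y.κ (S.dr y) = S.r (exH T y) :=
  S.θ.injective ((S.exp _).trans ((congrArg expU (S.dθ.apply_symm_apply _)).trans
    (((exists_dR S.gz S.hq).choose_spec.1 y).trans (S.θ_r _).symm)))

theorem r_a (g : ℂˣ × Tor T) : S.r g • S.a = S.a := S.μ.injective (by
  obtain ⟨a, b, c⟩ := S.std.fix_dgR S.gz S.hq g
  rw [μ_r, μ_a]
  exact W.ext (congrFun a) (congrFun b) c fun j => ContinuousLinearMap.ext fun μ => by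
    simp [act_X, S.zero])

theorem smul_Fl (g : Y.G) {v : Y.A} (hv : v ∈ S.Fl) : g • v ∈ S.Fl :=
  S.mem_Fl.2 (S.eqv g v ▸ act_mem_fl _ hv)

theorem b_a (s : Tor σ) : h.b s S.a = S.a := S.μ.injective (by
  rw [S.b, μ_a]
  exact W.ext (fun _ => rfl) (fun _ => rfl) rfl fun j => ContinuousLinearMap.ext fun μ =>
    show (_ : ℂ) • S.x₀.X j μ = S.x₀.X j μ by simp [S.zero])

theorem b_Fl (s : Tor σ) {v : Y.A} (hv : v ∈ S.Fl) : h.b s v ∈ S.Fl :=
  S.mem_Fl.2 (S.b s v ▸ mem_range_fl.2 (mem_range_fl.1 hv :))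

theorem r_inf (g : ℂˣ × Tor T) (t : Y.T) (v : Fin 3 → ℂ) (α : Option T → ℂ) :
    S.r g • Y.inf t (S.dθ.symm (lie ch S.q (v, α))) =
      Y.inf (S.r g • t) (S.dθ.symm (lie ch S.q (adv g.1 v, α))) := S.μ.injective (by
  rw [μ_r, S.μ_inf, S.μ_inf, S.x_smul, θ_r, S.dθ.apply_symm_apply, S.dθ.apply_symm_apply]
  exact (dact_act ((dgA_lie g.1.ne_zero _).trans (by rw [S.sc_q])).symm).symm)

theorem exists_dr {t : Y.T} {ξ : Y.L} (h1 : Y.ι t - S.a ∈ S.Fl) (h2 : t ∈ h.toTS.Fx S.dat)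
    (h3 : Y.inf t ξ ∈ S.Fl ⊓ wsp (h.τ S.dat) 0) : ∃ y, S.dr y = ξ := by
  obtain ⟨⟨v, α⟩, a, b⟩ := ((S.sub_mem.1 h1).stb_eq S.gz).le (S.inf_mem_Fl.1 h3.1)
  obtain rfl : ξ = S.dθ.symm (lie ch S.q (v, α)) := S.dθ.eq_symm_apply.2 b.symm
  have c := (h.b_inf _ t _).symm.trans ((h.tanV.mem_wsp _).1 h3.2 _ gen_mem)
  rw [h2, Loc.chr_zero, Units.val_one, one_smul, ρ_gen, r_inf] at c
  have d := congrArg Prod.fst (S.gz.lie_injective (S.dθ.symm.injective (Y.inf_inj _ c)))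
  have e : (Loc.chr S.wa (gen σ) : ℂ) ≠ 1 := by
    simpa using (gen_pow_inj S.ne).ne one_ne_zero
  have f : v = ![0, v 1, 0] := funext fun k => by
    fin_cases k
    · exact by_contra fun k => e (mul_eq_right₀ k |>.1 (congrFun d 0).symm)
    · rfl
    · exact by_contra fun k => e (inv_eq_one.1 (mul_eq_right₀ k |>.1 (congrFun d 2).symm))
  obtain ⟨y, e⟩ := (exists_dR S.gz S.hq).choose_spec.2 (v 1) α (f ▸ a)
  exact ⟨y, congrArg S.dθ.symm (e.trans (by rw [← f]))⟩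

theorem exists_r {t : Y.T} {g : Y.G} (h1 : Y.ι t - S.a ∈ S.Fl) (h2 : t ∈ h.toTS.Fx S.dat)
    (h3 : Y.ι (g • t) - S.a ∈ S.Fl) (h4 : g • t ∈ h.toTS.Fx S.dat) : ∃ g', S.r g' = g := by
  have a := congrArg (fun u => (S.θ u : ch.A ν).1) (TS.commute_of_fx h2 h4 (gen σ)).eq
  simp only [ρ_gen, map_mul, θ_r] at a
  have b := fun i => exists_eig (M := (S.θ g : ch.A ν).1 i) (fun _ _ e => Fin.ext
    (gen_pow_inj S.ne (mul_left_cancel₀ (Units.ne_zero _) e))) (congrFun a i)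
      (isUnit_fst (S.θ g).isUnit i)
  have c := fun i => S.gz.M_ne i
  choose t₀ a₀ b₀ using fun i => b i (par ch (0 : ℂ) i) ⟨0, Nat.pos_of_ne_zero (c i)⟩
    (pow_zero _) fun k e => zero_pow fun d => e (Fin.ext d)
  choose t₁ a₁ b₁ using fun i => b i (par ch ∞ i) ⟨_, Nat.sub_one_lt (c i)⟩ (if_pos rfl)
    fun k e => if_neg fun d => e (Fin.ext d)
  obtain ⟨p, e, -⟩ := (S.sub_mem.1 h1).eq_dgR S.gz (S.θ g).isUnit
    ((congrArg (Std · S.q) (S.x_smul g t)).mp (S.sub_mem.1 h3)) ⟨t₀, a₀, funext b₀⟩ ⟨t₁, a₁, funext b₁⟩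
  exact ⟨p, S.θ.injective ((S.θ_r p).trans (Units.ext e.symm))⟩

/-- the slice -/
@[reducible] noncomputable def red : Red h where
  toDat := S.dat
  H := ℂˣ × Tor T
  L := ℂ × (T → ℂ)
  κ := exH T
  r := S.r
  dr := S.dr
  a := S.a
  Fl := S.Fl
  exp := isExp_exH
  prop := (Homeomorph.mk S.θ.symm.toEquiv S.cθ' S.cθ).isProperMap.comp (isProperMap_dgR S.gz)
  inj := S.θ.symm.injective.comp S.gz.dgR_injective
  hd := S.hd
  lift s := ⟨_, (S.dat_ρ s).symm⟩
  r_a := S.r_a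
  r_Fl _ _ := S.smul_Fl _
  b_a := S.b_a
  b_Fl _ _ := S.b_Fl _
  opn t _ := (S.opn t).mono fun _ hx h' => hx ((S.sub_mem.1 h').mem_base S.gz)
  tan_le _ ht := S.toPrs.tan_le S.num S.gz (S.card_le.trans (Nat.le_succ 2)) (S.sub_mem.1 ht)
  stb _ _ _ h1 h2 h3 := S.inf_mem_Fl.2 (((S.sub_mem.1 h1).stb_eq S.gz).trans
    ((S.sub_mem.1 h2).stb_eq S.gz).symm ▸ S.inf_mem_Fl.1 h3)
  lie _ _ := S.exists_dr
  full _ _ := S.exists_r

/-- induced fields -/
noncomputable def vec : Co S.n →L[ℂ] Y.A :=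
  (S.μ.symm : ch.W ν →L[ℂ] Y.A).comp ((fl ch ν).comp (ind ch S.n))

theorem μ_vec (c : Co S.n) : S.μ (S.vec c) = fl ch ν (ind ch S.n c) := S.μ.apply_symm_apply _

theorem vec_mem (c : Co S.n) : S.vec c ∈ S.Fl := ⟨_, (S.μ_vec c).symm⟩

theorem vec_injective : Injective S.vec :=
  S.μ.symm.injective.comp (fl_injective.comp (ind_injective S.gz S.dg))

/-- the weight of the monomial `z ^ e` in the field `j` -/
def wgt (j : J) (e : ℕ) : σ → ℤ := S.m • S.wt j + ∑ r, S.w j r • S.wT r + e • S.wa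

theorem chr_wgt (j : J) (e : ℕ) (s : Tor σ) :
    chr (S.wgt j e) s * chH (S.w j) e (S.ρ s) = chr (S.wt j) (s ^ S.m) := by
  rw [wgt, Loc.chr_add, Loc.chr_add, chr_nsmul, chr_nsmul, chr_sum, chH_apply, map_pow,
    mul_assoc (_ ^ _)]
  simp only [chr_zsmul]
  exact mul_inv_cancel_right _ _

theorem smul_vec (g : ℂˣ × Tor T) (c : Co S.n) :
    S.r g • S.vec c = S.vec fun j e => (chH (S.w j) e g : ℂ) * c j e := S.μ.injective (by
  rw [μ_r, μ_vec, μ_vec, eq_fl (act_mem_fl _ (y := fl ch ν _) ⟨_, rfl⟩), coe_dgR,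
    act_ind S.gz S.dg (fl_X _) g.1.ne_zero fun _ => Units.ne_zero _]
  refine congrArg _ (congrArg _ (funext₂ fun j e => congrArg (· * _) ?_))
  have := congrArg Units.val (prod_tR (ch := ch) (q := S.q) g (c := Tgt.hat (S.w j))
    (by simp [Tgt.hat, Fintype.sum_option]))
  simp only [Units.coe_prod, Units.val_zpow_eq_zpow_val] at this
  rw [S.wd, this, chH_apply, Units.val_inv_eq_inv_val, Units.val_mul, coe_chr]
  rfl)

theorem b_vec (s : Tor σ) (c : Co S.n) :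
    h.b s (S.vec c) = S.vec fun j e => (chr (S.wt j) s : ℂ) * c j e := S.μ.injective (by
  rw [S.b, μ_vec, μ_vec, ← scl_ind S.gz S.dg (fl_X (ν := ν) _)]
  rfl)

theorem vec_mem_wsp {c : Co S.n} {u : σ → ℤ} :
    S.vec c ∈ wsp (h.τ S.dat) u ↔ ∀ j (e : Fin (S.n j)), S.wgt j e ≠ u → c j e = 0 := by
  have k : ∀ s ∈ cpt σ, h.b (ph (s ^ S.m)) (S.vec c) = (Loc.chr u s : ℂ) • S.dat.ρ s • S.vec c ↔
      ∀ j (e : Fin (S.n j)), (Loc.chr (S.wgt j e) s : ℂ) = Loc.chr u s ∨ c j e = 0 := fun s hs => by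
    rw [dat_ρ, map_pow, ph_of_mem hs, b_vec, smul_vec, ← map_smul, S.vec_injective.eq_iff,
      funext_iff]
    refine forall_congr' fun j => funext_iff.trans (forall_congr' fun e => ?_)
    rw [← S.chr_wgt j e, Pi.smul_apply, Pi.smul_apply, smul_eq_mul, Units.val_mul, mul_assoc,
      mul_eq_mul_right_iff, Units.mul_right_eq_zero]
  refine (h.tanV.mem_wsp _).trans ⟨fun a j e b => ((k _ gen_mem).1 (a _ gen_mem) j e).resolve_left
    (chr_gen_injective.ne b), fun a s hs => (k s hs).2 fun j e => ?_⟩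
  exact (em (S.wgt j e = u)).imp (fun b => by rw [b]) (a j e)

theorem std_pt (c : Co S.n) :
    Std (S.μ (S.a + S.vec c)) S.q ∧ (S.μ (S.a + S.vec c)).X = ind ch S.n c :=
  ⟨S.sub_mem.1 ((add_sub_cancel_left S.a (S.vec c)).symm ▸ S.vec_mem c), by
    rw [map_add, μ_a, μ_vec]
    exact (congrArg (· + _) S.zero).trans (zero_add _)⟩

theorem eq_pt {v : Y.A} {c : Co S.n} (h1 : Std (S.μ v) S.q) (h2 : (S.μ v).X = ind ch S.n c) :
    v = S.a + S.vec c :=
  let ⟨a, b, d⟩ := (S.std_pt c).1.unique h1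
  S.μ.injective (W.ext (congrFun a) (congrFun b) d (congrFun (h2.trans (S.std_pt c).2.symm)))

theorem mem_fx {t : Y.T} {c : Co S.n} (e : Y.ι t = S.a + S.vec c) :
    t ∈ h.toTS.Fx S.dat ↔ ∀ j (e : Fin (S.n j)), S.wgt j e ≠ 0 → c j e = 0 := by
  rw [h.mem_fx_iff, e, Submodule.add_mem_iff_right _ S.red.a_mem, vec_mem_wsp]

end Sl

end Vale.Agent.P269.Edg
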