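import Vale.Agent.P269.Edg.Fr
import Vale.Agent.P269.LG.LT
import Vale.Agent.P269.LG.Fam
import Vale.Agent.P269.Prj.TgtM

/-!
# The parameters of the edges of a given type
-/

set_option linter.unusedSectionVars false

namespace Vale.Agent.P269.Edg

open Set Function Topology Filter Module Cv Base Ch P1 Loc Holo LG B Tq Mono
open OnePoint hiding some map_smul
open Vale.Agent.P269.Orb

variable {R J K σ ν : Type} [Fintype R] [Fintype J] [Fintype K] [Fintype σ] [Fintype ν]
  [DecidableEq R] [DecidableEq σ] {e : Edge σ} {s t : En ν}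

open Classical in
/-- the positions of the marked points -/
noncomputable def qE (s : En ν) : Mk ν (Fin 0) → OnePoint ℂ :=
  Sum.elim (fun n => if s = .mark n then (0 : ℂ) else ∞) fun _ => ∞

theorem qE_mem (n : Mk ν (Fin 0)) : qE s n = (0 : ℂ) ∨ qE s n = ∞ := by
  rcases n with n | n
  exacts [(em (s = .mark n)).imp (if_pos ·) (if_neg ·), .inr rfl]

theorem qE_src {n : ν} (h : s = .mark n) : qE s (.inl n) = pt false := if_pos h

theorem qE_tgt (h : Ends s t) {n : ν} (h' : t = .mark n) : qE s (.inl n) = pt true :=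
  if_neg fun a => h.ne n a h'

theorem qE_inj (h : Ends s t) : Injective (qE s) := by
  rintro (n | n) (n' | n') a
  · rcases h.all n with b | b <;> rcases h.all n' with c | c
    · rw [En.mark.inj (b.symm.trans c)]
    · exact (coe_ne_infty _ ((qE_src b).symm.trans (a.trans (qE_tgt h c)))).elim
    · exact (coe_ne_infty _ ((qE_src c).symm.trans (a.symm.trans (qE_tgt h b)))).elim
    · rw [En.mark.inj (b.symm.trans c)]
  exacts [n'.1.elim0, n.1.elim0, n.1.elim0]

theorem qE_ne_false (h : Ends s t) : (∀ n, qE s n ≠ pt false) ↔ s = .bare := by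
  refine ⟨fun a => ?_, fun a n b => ?_⟩
  · rcases s with _ | _ | n
    exacts [(h.src rfl).elim, rfl, (a _ (qE_src rfl)).elim]
  · rcases n with n | n
    exacts [coe_ne_infty _ (b.symm.trans (if_neg (a ▸ nofun))), n.1.elim0]

theorem qE_ne_true (h : Ends s t) : (∀ n, qE s n ≠ pt true) ↔ t = .bare := by
  refine ⟨fun a => ?_, fun a n b => ?_⟩
  · rcases t with _ | _ | n
    exacts [(h.tgt rfl).elim, rfl, (a _ (qE_tgt h rfl)).elim]
  · rcases n with n | n
    exacts [coe_ne_infty _ ((qE_src ((h.all n).resolve_right (a ▸ nofun))).symm.trans b), n.1.elim0]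

variable (J) in
/-- the numbers of coefficients -/
def nE (e : Edge σ) : J ⊕ σ → ℕ := Sum.elim (fun _ => 1) fun _ => e.deg + 2

variable {P : PB R J K σ}

/-- the parameters of the edges -/
def Zt (P : PB R J K σ) (_ : Edge σ) : Type := Holo.Sp P.F.actT P.F.cone × ℂˣ × ℂˣ

noncomputable instance : TopologicalSpace (Zt P e) := instTopologicalSpaceProd

variable (R) in
/-- the homomorphism to the torus of the base -/
noncomputable def ρB : ℂˣ × Tor (Option R) →* ((Empty → ℂ) × (R → ℂ))ˣ :=
  MonoidHom.toHomUnits ⟨⟨fun g => (1, fun r => ((g.2 (some r))⁻¹ : ℂˣ)),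
    Prod.ext rfl (funext fun _ => by simp)⟩, fun _ _ => Prod.ext (mul_one _).symm
      (funext fun _ => by simp [mul_comm])⟩

theorem ρB_val (g : ℂˣ × Tor (Option R)) :
    (ρB R g).val = (1, fun r => (((g.2 (some r))⁻¹ : ℂˣ) : ℂ)) := rfl

theorem continuous_ρB : Continuous (ρB R) := by
  have : Continuous fun g => (ρB R g).val := continuous_const.prodMk (continuous_pi fun r =>
    Units.continuous_val.comp (((continuous_apply _).comp continuous_snd).inv))
  exact Units.continuous_iff.2 ⟨this, by simpa only [← map_inv] using this.comp' continuous_inv⟩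

/-- the coefficients of an edge -/
noncomputable def coE (z : Zt P e) : Co (nE J e) := fun j a =>
  Sum.elim z.1.val.2 (fun l => if l = e.src ∧ (a : ℕ) = 0 then (z.2.1 : ℂ) else
    if l = e.tgt ∧ (a : ℕ) = e.deg + 1 then (z.2.2 : ℂ) else 0) j

theorem coE_src (z : Zt P e) :
    coE z (.inr e.src) = (Pi.single 0 (z.2.1 : ℂ) : Fin (e.deg + 2) → ℂ) :=
  funext fun a : Fin (e.deg + 2) => by
    rw [Pi.single_apply]
    simp [coE, e.ne]

theorem coE_tgt (z : Zt P e) :
    coE z (.inr e.tgt) = (Pi.single (Fin.last _) (z.2.2 : ℂ) : Fin (e.deg + 2) → ℂ) :=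
  funext fun a : Fin (e.deg + 2) => by
    rw [Pi.single_apply]
    exact (if_neg fun b => e.ne b.1.symm).trans
      (if_congr ((and_iff_right rfl).trans (Fin.ext_iff (b := Fin.last _)).symm) rfl rfl)

theorem isEmbedding_coE : IsEmbedding (coE : Zt P e → _) := by
  have a := Holo.Sp.isEmbedding_val (act := P.F.actT) (S := P.F.cone)
  have b := Units.isEmbedding_val₀ (G₀ := ℂ)
  refine .of_comp (g := fun c => (((Empty.elim, fun j => c (.inl j) (0 : Fin 1)),
    c (.inr e.src) (0 : Fin (e.deg + 2)), c (.inr e.tgt) (Fin.last (e.deg + 1))) :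
      ((Empty → ℂ) × (J → ℂ)) × ℂ × ℂ)) (continuous_pi fun j => continuous_pi fun x => ?_)
    (by fun_prop) ?_
  · rcases j with j | l
    · exact (continuous_apply j).comp (a.continuous.comp continuous_fst).snd
    · exact (b.continuous.comp continuous_snd.fst).if_const _
        ((b.continuous.comp continuous_snd.snd).if_const _ continuous_const)
  · refine Eq.subst (motive := IsEmbedding) ?_ (a.prodMap (b.prodMap b))
    exact funext fun z => Prod.ext (Prod.ext (Subsingleton.elim _ _) rfl) (Prod.ext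
      ((congrFun (coE_src z) _).trans (Pi.single_eq_same _ _)).symm
      ((congrFun (coE_tgt z) _).trans (Pi.single_eq_same _ _)).symm)

theorem ev_coE_inl (z : Zt P e) (y : OnePoint ℂ) (j : J) :
    ev _ y (coE z (.inl j)) = z.1.val.2 j := by
  refine (ev_apply 1 y _).trans ((Fin.sum_univ_one _).trans ?_)
  induction y using OnePoint.rec <;> simp [ver_infty, coE]

theorem ev_coE_src (z : Zt P e) (y : OnePoint ℂ) :
    ev _ y (coE z (.inr e.src)) = 0 ↔ y = ∞ := by
  change ev (e.deg + 2) y _ = 0 ↔ _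
  rw [coE_src, ev_single]
  induction y using OnePoint.rec <;> simp [ver_infty]

theorem ev_coE_tgt (z : Zt P e) (y : OnePoint ℂ) :
    ev _ y (coE z (.inr e.tgt)) = 0 ↔ y = (0 : ℂ) := by
  change ev (e.deg + 2) y _ = 0 ↔ _
  rw [coE_tgt, ev_single]
  induction y using OnePoint.rec <;> simp [ver_infty]

theorem coE_oth (z : Zt P e) {l : σ} (h1 : l ≠ e.src) (h2 : l ≠ e.tgt) :
    coE z (.inr l) = 0 := funext fun a => by simp [coE, h1, h2]

theorem coE_mem (h : P.F.Tg) (z : Zt P e) (y : OnePoint ℂ) :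
    (Empty.elim, fun j => ev _ y (coE z j)) ∈ (P.E ∅).cone := by
  refine (PB.mem_cone h.B ⟨by simp [h.mov], h.E⟩).2 ⟨trivial, ?_, ?_, nofun⟩
  · simp only [ev_coE_inl]
    exact mem_of_eq_of_mem (y := z.1.val) (Prod.ext (Subsingleton.elim _ _) rfl) z.1.val_mem
  · by_cases a : y = ∞
    · exact ⟨e.tgt, fun b => coe_ne_infty _ (((ev_coE_tgt z y).1 b).symm.trans a)⟩
    · exact ⟨e.src, mt (ev_coE_src z y).1 a⟩

section act

variable [FP P.F.actT P.F.cone]

noncomputable instance : MulAction (ℂˣ × Tor (Option R)) (Zt P e) where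
  smul g z := (ρB R g • z.1, chH (P.w (.inr e.src)) 0 g * z.2.1,
    chH (P.w (.inr e.tgt)) (e.deg + 1) g * z.2.2)
  one_smul z := Prod.ext ((congrArg (· • z.1) (ρB R).map_one).trans (one_smul _ _))
    (Prod.ext ((congrArg (· * z.2.1) (chH _ _).map_one).trans (one_mul _))
      ((congrArg (· * z.2.2) (chH _ _).map_one).trans (one_mul _)))
  mul_smul g g' z := Prod.ext ((congrArg (· • z.1) ((ρB R).map_mul g g')).trans (mul_smul _ _ _))
    (Prod.ext ((congrArg (· * z.2.1) ((chH _ _).map_mul g g')).trans (mul_assoc _ _ _))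
      ((congrArg (· * z.2.2) ((chH _ _).map_mul g g')).trans (mul_assoc _ _ _)))

theorem smul_def (g : ℂˣ × Tor (Option R)) (z : Zt P e) : g • z = (ρB R g • z.1,
    chH (P.w (.inr e.src)) 0 g * z.2.1, chH (P.w (.inr e.tgt)) (e.deg + 1) g * z.2.2) := rfl

instance : ContinuousSMul (ℂˣ × Tor (Option R)) (Zt P e) :=
  ⟨((continuous_ρB.comp continuous_fst).smul continuous_snd.fst).prodMk
    ((((chH _ _).continuous.comp continuous_fst).mul continuous_snd.snd.fst).prodMk
      (((chH _ _).continuous.comp continuous_fst).mul continuous_snd.snd.snd))⟩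

theorem coE_smul (g : ℂˣ × Tor (Option R)) (z : Zt P e) :
    coE (g • z) = fun j (a : Fin _) => (chH (P.w j) a g : ℂ) * coE z j a := by
  funext j a
  rcases j with j | l
  · change (P.F.actT (ρB R g).val z.1.val).2 j = _ * z.1.val.2 j
    simp [ρB_val, Wt.actT, chH_apply, coe_chr, PB.w, Fintype.prod_option,
      show (a : ℕ) = 0 from Nat.lt_one_iff.1 a.2]
  · simp only [coE, Sum.elim_inr, smul_def]
    split_ifs with b c
    · rw [b.1, b.2, Units.val_mul]
    · rw [c.1, c.2, Units.val_mul]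
    · rw [mul_zero]

/-- the projection to the base -/
noncomputable def πE (z : Zt P e) : P.X := Holo.Sp.mk z.1

theorem isQuo_πE : IsQuo (ℂˣ × Tor (Option R)) (πE : Zt P e → P.X) := by
  refine ⟨Holo.Sp.isOpenQuotientMap_mk.comp isOpenQuotientMap_fst, fun z z' => ⟨fun a => ?_,
    fun ⟨g, a⟩ => a ▸ (Holo.Sp.mk_smul (ρB R g) z.1).symm⟩⟩
  obtain ⟨u, a⟩ := Holo.Sp.mk_eq_iff.1 a
  let v : R → ℂˣ := fun r =>
    (Units.mk0 (u.val.2 r) (isUnit_pi_iff.1 (Prod.isUnit_iff.1 u.isUnit).2 r))⁻¹
  let w : Tor (Option R) := fun o => o.elim (z.2.1 / z'.2.1 / Loc.chr (P.wL e.src) v) v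
  obtain ⟨c, hc⟩ := IsAlgClosed.exists_pow_nat_eq
    (z.2.2 / z'.2.2 / Loc.chr (P.w (.inr e.tgt)) w : ℂˣ).val e.deg.succ_pos
  have c0 : c ≠ 0 := fun b => Units.ne_zero _ (hc.symm.trans (by rw [b, zero_pow e.deg.succ_ne_zero]))
  have hc' : Units.mk0 c c0 ^ (e.deg + 1) = _ := Units.ext ((Units.val_pow_eq_pow_val _ _).trans hc)
  refine ⟨(.mk0 c c0, w), Prod.ext (Eq.trans (congrArg (· • z.1) (Units.ext ?_)) a)
    (Prod.ext ?_ ?_)⟩
  · exact Prod.ext (Subsingleton.elim _ _) (funext fun r => by simp [ρB_val, w, v])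
  · simp [smul_def, chH_apply, chr_apply, PB.w, Fintype.prod_option, w]
  · simp [smul_def, chH_apply, hc']

end act

/-- the indices of the moving monomials -/
abbrev ιK (e : Edge σ) : Type :=
  ↥(((Finset.univ ×ˢ Finset.range (e.deg + 2)).erase (e.src, 0)).erase (e.tgt, e.deg + 1))

variable (J) in
/-- the moving monomials -/
def fE (x : ιK e) : Σ j, Fin (nE J e j) := ⟨.inr x.1.1, x.1.2, Finset.mem_range.1
  (Finset.mem_product.1 (Finset.mem_of_mem_erase (Finset.mem_of_mem_erase x.2))).2⟩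

theorem fE_inj : Injective (fE J : ιK e → _) := fun _ _ a =>
  Subtype.ext (Prod.ext (Sum.inr_injective (congrArg Sigma.fst a))
    (congrArg (fun x : Σ j, Fin (nE J e j) => (x.2 : ℕ)) a))

theorem card_ιK : Fintype.card (ιK e) + 2 = Fintype.card σ * (e.deg + 2) := by
  rw [Fintype.card_coe, add_assoc _ 1 1 |>.symm, Finset.card_erase_add_one (by simp),
    Finset.card_erase_add_one (by simp), Finset.card_product, Finset.card_univ, Finset.card_range]

end Vale.Agent.P269.Edg
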